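import Vale.Agent.P273.H261.PtDir

/-!
P273, LIM: `wedgeT_limit_pr` for forms `Alt 16 E` and `H4`-valued legs.
-/

noncomputable section

namespace Vale.Agent.P273.H261

open Set Filter Function H681 H95 H732 H973 H562 H573 Equiv
open Vale.Agent.P273.H254 (DT)
open scoped Topology ContDiff

theorem limit_alt {E : Type} [NormedAddCommGroup E] [NormedSpace ℝ E]
    (Yb : Finset (Fin 2)) (B : Finset (Fin 14)) (T : MT)
    (hT : ∀ τ : Fin 14 → Fin 4, (Finset.univ.filter fun j => τ j ∈ sm).card < 6 + Yb.card →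
      T (fun j => Pi.single (τ j) 1) = 0)
    (F : ℝ → Alt 16 E) (θ : ℝ → Fin 14 → E →L[ℝ] H4) (w : ℝ → Fin (16 + 14) → E)
    {K : ℝ} (hK : 0 ≤ K)
    (hF : ∀ x : Fin 16 → Fin (16 + 14), ∀ᶠ n in atTop, |F n (fun i => w n (x i))| ≤ K)
    (hθ : ∀ j d i, ∀ᶠ n in atTop, |θ n j (w n d) i| ≤ K)
    (hθs : ∀ j d, (∀ y ∈ Yb, d ≠ bs y) → ∀ i ∈ sm, ∀ᶠ n in atTop,
      |θ n j (w n d) i| ≤ K * (1 / n))
    (hF0 : ∀ x : Fin 16 → Fin (16 + 14),
      (∃ l, (∃ g ∈ B, ∃ i, x l = gp (g, i)) ∨ ∃ i, i ∉ Yb ∧ x l = bs i) →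
      Tendsto (fun n => n ^ Fintype.card (Fin 14) * F n (fun i => w n (x i))) atTop (𝓝 0))
    (π : Perm (Fin (16 + 14))) (F' : ℝ) (t' : Fin 14 → Fin (16 + 14) → H4)
    (hπ : B.card = 6 → ∀ j, π (Fin.natAdd 16 j) ∈ PD gp bs B Finset.univ)
    (hFl : B.card = 6 →
      Tendsto (fun n => F n (fun i => w n (π (Fin.castAdd 14 i)))) atTop (𝓝 F'))
    (hu : ∀ j, ∀ g ∈ B, ∀ i,
      Tendsto (fun n => n * θ n j (w n (gp (g, 0))) i) atTop (𝓝 (t' j (gp (g, 0)) i)))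
    (hph : ∀ j d, ((∃ g ∈ B, d = gp (g, 1)) ∨ ∃ y, y ∉ Yb ∧ d = bs y) → ∀ i,
      Tendsto (fun n => θ n j (w n d) i) atTop (𝓝 (t' j d i)) ∧
      (i ∈ sm → Tendsto (fun n => n * θ n j (w n d) i) atTop (𝓝 0)))
    (hyb : ∀ j, ∀ y ∈ Yb, ∀ i ∈ sm,
      Tendsto (fun n => θ n j (w n (bs y)) i) atTop (𝓝 (t' j (bs y) i)))
    (Ω : ℝ → Alt (16 + 14) E) (hΩ : ∀ n, Ω n = wedgeT (F n) T (θ n)) :
    Tendsto (fun n => n ^ B.card * Ω n (w n)) atTop
      (𝓝 (if B.card = 6 then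
        Perm.sign π • (F' * DT (fun x => T x) (pr sm (sd gp bs Yb B) t')
          (fun j => π (Fin.natAdd 16 j))) else 0)) := by
  have key := wedgeT_limit_pr (ν := ℝ) (L := atTop) (k := 16) (m := 14) (q := 6)
    rfl gp_injective bs_injective gp_ne_bs Yb B (N := fun N => N) tendsto_id sm T hT F θ w hK
    (fun x _ => hF x) hθ
    (fun j d hd i hi => by
      filter_upwards [hθs j d hd i hi] with N hN
      rw [div_eq_mul_one_div K N]
      exact hN)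
    (fun x _ hx => hF0 x hx) π F' t' hπ hFl
    (fun _ => hu)
    (fun _ => hph)
    (fun _ => hyb)
  have e : ∀ n, wedgeT (H := Fin 4 → ℝ) (F n) T (θ n) = Ω n := fun n => (hΩ n).symm
  simp only [e] at key
  exact key

end Vale.Agent.P273.H261
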