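import Vale.Agent.P273.H261.PtMain2
import Vale.Agent.P273.H261.PtAlt

/-!
P273, LIM: the pointwise limit for both kinds of base directions; the theorems `ptT`, `ptA`.
-/

noncomputable section

namespace Vale.Agent.P273.H261

open Set Filter Function H681 H95 H732 H973 H562 H573 Equiv
open Vale.Agent.P273.H254 (DT)
open scoped Topology ContDiff

section

variable {κ : Fin 3 → Fin 3 → ℝ} {Θ : Gauge} {R : H95.Region} {m : ∀ k, Fin (R.n k + 1)}
  {B : Finset (W R m).Fr} {p : Co R m} {S : L → Bool}
  {bd : Fin 2 → BDir R m} {Yb : Finset (Fin 2)}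

/-- **The pointwise limit.** -/
theorem main_limit (hA : Asy κ Θ) (X : Ext) {T : MT} (hT : SymT T)
    (hW : WtT (9 - Yb.card) T) (hS : FarOk R S) (hp : GenS R m S B p) (hb : Bas bd Yb)
    {n : ℕ} (hn : n = 6 + Yb.card) {a b : Co R m} (ha : a = blim R m (bd 0))
    (hb' : b = blim R m (bd 1)) :
    Tendsto (fun N : ℝ => N ^ B.card * OmR R m X Θ T S ((W R m).dpt (↑B) N p)
      (wf R m B p bd N)) atTop
      (𝓝 (if B.card = 6 then OmL R m X T n S B p (fr30 R m a b) else 0)) := by
  subst ha hb'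
  obtain ⟨K1, hK1, h1⟩ := F_bdd X hS hb hp
  obtain ⟨K2, hK2, h2⟩ := legs_bdd hA hS hb hp
  obtain ⟨K3, hK3, h3⟩ := legs_small hA hS hb hp
  obtain ⟨π, hπ⟩ : ∃ π : Perm (Fin (16 + 14)), (Bm B).card = 6 →
      ∀ j, π (Fin.natAdd 16 j) ∈ PD gp bs (Bm B) Finset.univ := by
    by_cases h : (Bm B).card = 6
    · obtain ⟨π, h'⟩ := exists_pi h
      exact ⟨π, fun _ => h'⟩
    · exact ⟨1, fun h' => absurd h' h⟩
  have hFl : (Bm B).card = 6 → Tendsto (fun N : ℝ =>
      FR R m X S ((W R m).dpt (B : Set (W R m).Fr) N p)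
        (fun i => wf R m B p bd N (π (Fin.castAdd 14 i)))) atTop
      (𝓝 (FL R m X S (big R m B) p (fun i =>
        fr30 R m (blim R m (bd 0)) (blim R m (bd 1)) (π (Fin.castAdd 14 i))))) := by
    intro hq
    have h4 := image_eq_PD (k := 16) (m := 14) (q := 6) rfl gp_injective bs_injective gp_ne_bs hq
      π (hπ hq)
    have e : ∀ N : ℝ, (fun i => wf R m B p bd N (π (Fin.castAdd 14 i))) = fun i =>
        fr30 R m (blim R m (bd 0)) (blim R m (bd 1)) (π (Fin.castAdd 14 i)) := by
      intro N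
      funext i
      have h5 : π (Fin.castAdd 14 i) ∉ PD gp bs (Bm B) Finset.univ := by
        rw [← h4]
        intro h6
        obtain ⟨j, -, hj⟩ := Finset.mem_image.1 h6
        have h7 := congrArg Fin.val (π.injective hj)
        simp at h7
        omega
      rcases exists_dir (π (Fin.castAdd 14 i)) with ⟨a, c, h6⟩ | ⟨c, h6⟩
      · rw [h6, wf_gp, fr30_gp]
      · exact absurd (mem_PD.2 (Or.inr ⟨c, h6⟩)) h5
    simp only [e]
    exact tendsto_FR X hS hp.1.1 hp.2.2 _
  have key := limit_alt Yb (Bm B) T (fun τ hτ => kill_single hW τ hτ)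
    (fun N => FR R m X S ((W R m).dpt (B : Set (W R m).Fr) N p))
    (fun N j => thR R m Θ S j ((W R m).dpt (B : Set (W R m).Fr) N p)) (wf R m B p bd)
    (K := max K1 (max K2 K3)) (le_max_of_le_left hK1)
    (fun x => (h1 x).mono fun N hN => hN.trans (le_max_left _ _))
    (fun j d i => (h2 j d i).mono fun N hN =>
      hN.trans ((le_max_left _ _).trans (le_max_right _ _)))
    (fun j d hd i hi => by
      filter_upwards [h3 j d hd i hi, eventually_ge_atTop 0] with N hN h0
      refine hN.trans ?_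
      exact mul_le_mul_of_nonneg_right ((le_max_right _ _).trans (le_max_right _ _))
        (one_div_nonneg.2 h0))
    (fun x hx => F_zero X hS hb hp x hx) π _ (tl R m κ B p bd) hπ hFl
    (fun j g hg i => legs_u hA hS hp j hg i)
    (fun j d hd i => legs_ph hA hS hb hp j d hd i)
    (fun j y _ i _ => legs_y hA hS hb hp j y i)
    (fun N => OmR R m X Θ T S ((W R m).dpt (↑B) N p)) (fun N => rfl)
  rw [card_Bm] at key
  by_cases hq : B.card = 6
  · rw [if_pos hq] at key ⊢
    rw [OmL_eq κ X hT hb hp.2.1 hq hn π (hπ ((card_Bm B).trans hq))]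
    exact key
  · rw [if_neg hq] at key ⊢
    exact key

/-! ### changes of the base vectors -/

theorem fr30_update (a b a' : Co R m) :
    fr30 R m a b = Function.update (fr30 R m a' b) (bs 0) a := by
  funext d
  by_cases h : d = bs 0
  · rw [h, Function.update_self, fr30_bs]
    rfl
  · rw [Function.update_of_ne h]
    rcases exists_dir d with ⟨x, c, rfl⟩ | ⟨c, rfl⟩
    · rw [fr30_gp, fr30_gp]
    · have hc : c = 1 := by
        by_contra hc
        exact h (by rw [show c = 0 by omega])
      subst hc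
      rw [fr30_bs, fr30_bs]
      rfl

/-- the Euler vector may be replaced by the one along the gaps of `B` -/
theorem eul_eulB (A : Alt (16 + 14) (Co R m)) (q b : Co R m) (k : Fin 3) :
    A (fr30 R m ((W R m).eul q k) b) = A (fr30 R m (eulB R m (↑B) q k) b) := by
  obtain ⟨c, hc⟩ : ∃ c : (W R m).Fr → ℝ, (W R m).eul q k =
      eulB R m (↑B : Set (W R m).Fr) q k + ∑ f, c f • (W R m).vec (C := R.Cm) (.u f) :=
    ⟨_, (W R m).eul_eq_eulB (↑B) q k⟩
  have e : (W R m).eul q k = eulB R m (↑B : Set (W R m).Fr) q k +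
      ∑ f : (W R m).Fr, (-c f) • (-(W R m).vec (C := R.Cm) (.u f)) := by
    simp only [neg_smul_neg]
    exact hc
  have h1 := Reg.map_update_add_sum (A.toAlternatingMap) (fr30 R m (eulB R m (↑B) q k) b) (bs 0)
    (fun f : (W R m).Fr => -c f) (fun f => -(W R m).vec (C := R.Cm) (.u f)) (fun f => by
      right
      obtain ⟨j, hj⟩ := exists_gap f
      obtain ⟨a, rfl⟩ := H975.exists_mrk j
      refine ⟨gp (a, 0), gp_ne_bs _ _, ?_⟩
      rw [fr30_gp]
      exact (fr_some hj _).trans (if_neg (by decide)))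
  have e2 : fr30 R m (eulB R m (↑B) q k) b (bs 0) = eulB R m (↑B : Set (W R m).Fr) q k := by
    rw [fr30_bs]
    rfl
  rw [e2, ← e, ← fr30_update] at h1
  exact h1

theorem eul_scale (A : Alt (16 + 14) (Co R m)) (q b : Co R m) (k : Fin 3) (N : ℝ) :
    A (Function.update (fr30 R m (eulB R m (↑B) q k) b) (bs 0) (N • eulB R m (↑B) q k)) =
      N * A (fr30 R m ((W R m).eul q k) b) := by
  rw [ContinuousAlternatingMap.map_update_smul, ← fr30_update, eul_eulB (B := B),
    smul_eq_mul]

end

section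

variable {κ : Fin 3 → Fin 3 → ℝ} {Θ : Gauge}

theorem farOk_Sx (R : H95.Region) (far : R.Cm → Bool) : FarOk R (Sx R far) := by
  intro j hj
  unfold Sx at hj
  by_contra h
  rw [dif_neg h] at hj
  cases hj

/-- **(S4c) the pointwise limits on the tori** -/
theorem ptT (X : Ext) (hA : Asy κ Θ) : PtT X Θ := by
  intro T hT hW R m far B p hp i j
  have hb : Bas (R := R) (m := m) ![.al i, .al j] ∅ :=
    ⟨fun c _ => by
      have hc : c = 0 ∨ c = 1 := by omega
      rcases hc with rfl | rfl
      · exact ⟨i, rfl⟩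
      · exact ⟨j, rfl⟩, fun c hc => absurd hc (Finset.notMem_empty _)⟩
  have h := main_limit hA X hT (by simpa using hW) (farOk_Sx R far) hp hb (n := 6) (by simp)
    (a := (W R m).vec (.al i)) (b := (W R m).vec (.al j)) rfl rfl
  have e : ∀ N : ℝ, wf R m B p ![.al i, .al j] N =
      fr30 R m ((W R m).vec (.al i)) ((W R m).vec (.al j)) := by
    intro N
    unfold wf
    rw [show (![BDir.al i, BDir.al j] : Fin 2 → BDir R m) 0 = .al i from rfl,
      show (![BDir.al i, BDir.al j] : Fin 2 → BDir R m) 1 = .al j from rfl, bvec_al, bvec_al]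
  refine h.congr fun N => ?_
  rw [e N]

/-- **(S4d) the pointwise limits on the annuli** -/
theorem ptA (X : Ext) (hA : Asy κ Θ) : PtA X Θ := by
  intro T hT hW R m far B p hp i
  have hb : Bas (R := R) (m := m) ![.eul i, .al i] {0} :=
    ⟨fun c hc => by
      have hc : c = 1 := by
        by_contra h
        exact hc (by rw [show c = 0 by omega]; simp)
      subst hc
      exact ⟨i, rfl⟩, fun c hc => by
      rw [Finset.mem_singleton] at hc
      subst hc
      exact ⟨i, rfl⟩⟩
  have h := main_limit hA X hT (by simpa using hW) (farOk_Sx R far) hp hb (n := 7) (by simp)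
    (a := (W R m).vec (.y i)) (b := (W R m).vec (.al i)) rfl rfl
  have e : ∀ N : ℝ, wf R m B p ![.eul i, .al i] N = Function.update (fr30 R m
        (eulB R m (↑B) ((W R m).dpt (↑B) N p) i) ((W R m).vec (.al i))) (bs 0)
        (N • eulB R m (↑B) ((W R m).dpt (↑B) N p) i) := by
    intro N
    rw [← fr30_update]
    unfold wf
    rw [show (![BDir.eul i, BDir.al i] : Fin 2 → BDir R m) 0 = .eul i from rfl,
      show (![BDir.eul i, BDir.al i] : Fin 2 → BDir R m) 1 = .al i from rfl, bvec_al]
    rfl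
  refine h.congr fun N => ?_
  rw [e N, eul_scale, pow_succ, mul_assoc]

end

end Vale.Agent.P273.H261
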