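import Mathlib

/-!
Scaling lemma for the limit at the theta point.  The coordinates in `B` are rescaled by `N`.
-/

namespace Vale.Agent.P273.H261

open MeasureTheory Filter Topology Function

set_option linter.unusedSectionVars false

variable {I Z E : Type*} [Fintype I] [DecidableEq I] [MeasurableSpace Z]
  [NormedAddCommGroup E] [NormedSpace ℝ E]

/-- Multiply the coordinates in `B` by `N`, keep the others. -/
noncomputable def dil (B : Finset I) (N : ℝ) (w : I → ℝ) : I → ℝ :=
  fun i => if i ∈ B then N * w i else w i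

@[simp] theorem dil_mem {B : Finset I} {N : ℝ} {w : I → ℝ} {i : I} (h : i ∈ B) :
    dil B N w i = N * w i := by simp [dil, h]

@[simp] theorem dil_not_mem {B : Finset I} {N : ℝ} {w : I → ℝ} {i : I} (h : i ∉ B) :
    dil B N w i = w i := by simp [dil, h]

theorem continuous_dil (B : Finset I) (N : ℝ) : Continuous (dil B N) := by
  refine continuous_pi fun i => ?_
  by_cases h : i ∈ B
  · simp only [dil, h, if_true]
    fun_prop
  · simp only [dil, h, if_false]
    fun_prop

theorem dil_comp (B : Finset I) (N M : ℝ) (w : I → ℝ) :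
    dil B N (dil B M w) = dil B (N * M) w := by
  funext i
  by_cases h : i ∈ B
  · simp [dil, h, mul_assoc]
  · simp [dil, h]

theorem dil_one (B : Finset I) (w : I → ℝ) : dil B 1 w = w := by
  funext i
  by_cases h : i ∈ B <;> simp [dil, h]

/-- The dilation as a measurable equivalence. -/
noncomputable def dilEquiv (B : Finset I) {N : ℝ} (hN : N ≠ 0) : (I → ℝ) ≃ᵐ (I → ℝ) where
  toFun := dil B N
  invFun := dil B N⁻¹
  left_inv w := by rw [dil_comp, inv_mul_cancel₀ hN, dil_one]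
  right_inv w := by rw [dil_comp, mul_inv_cancel₀ hN, dil_one]
  measurable_toFun := (continuous_dil B N).measurable
  measurable_invFun := (continuous_dil B N⁻¹).measurable

theorem map_dil (B : Finset I) {N : ℝ} (hN : 0 < N) :
    Measure.map (dil B N) (volume : Measure (I → ℝ)) =
      ENNReal.ofReal ((N⁻¹) ^ B.card) • (volume : Measure (I → ℝ)) := by
  set D : I → ℝ := fun i => if i ∈ B then N else 1 with hD
  have hdet : (Matrix.diagonal D).det = N ^ B.card := by
    rw [Matrix.det_diagonal, hD, Finset.prod_ite, Finset.prod_const, Finset.prod_const_one,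
      mul_one]
    congr 2
    ext i; simp
  have hne : (Matrix.diagonal D).det ≠ 0 := by rw [hdet]; positivity
  have hfun : (fun w : I → ℝ => (Matrix.toLin' (Matrix.diagonal D)) w) = dil B N := by
    funext w i
    rw [Matrix.diagonal_toLin']
    by_cases h : i ∈ B <;> simp [dil, hD, h]
  have h1 := Real.map_matrix_volume_pi_eq_smul_volume_pi (M := Matrix.diagonal D) hne
  have h2 : (⇑(Matrix.toLin' (Matrix.diagonal D)) : (I → ℝ) → (I → ℝ)) = dil B N := hfun
  rw [h2] at h1
  rw [h1, hdet, abs_of_pos (by positivity), inv_pow]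

/-- Change of variables. -/
theorem integral_dil (B : Finset I) {N : ℝ} (hN : 0 < N) (μ : Measure Z) [SFinite μ]
    (f : (I → ℝ) × Z → E) :
    ∫ p, f (dil B N p.1, p.2) ∂((volume : Measure (I → ℝ)).prod μ) =
      ((N⁻¹) ^ B.card) • ∫ p, f p ∂((volume : Measure (I → ℝ)).prod μ) := by
  have hme : MeasurableEmbedding (fun p : (I → ℝ) × Z => (dil B N p.1, p.2)) :=
    ((dilEquiv B hN.ne').prodCongr (MeasurableEquiv.refl Z)).measurableEmbedding
  rw [← hme.integral_map (μ := (volume : Measure (I → ℝ)).prod μ) f]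
  have : Measure.map (fun p : (I → ℝ) × Z => (dil B N p.1, p.2))
      ((volume : Measure (I → ℝ)).prod μ) =
      ENNReal.ofReal ((N⁻¹) ^ B.card) • ((volume : Measure (I → ℝ)).prod μ) := by
    have h := Measure.map_prod_map (f := dil B N) (g := (id : Z → Z))
      (volume : Measure (I → ℝ)) μ (continuous_dil B N).measurable measurable_id
    have h3 : Prod.map (dil B N) (id : Z → Z) = fun p : (I → ℝ) × Z => (dil B N p.1, p.2) := rfl
    rw [h3, Measure.map_id, map_dil B hN] at h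
    rw [← h, Measure.prod_smul_left]
  rw [this, integral_smul_measure, ENNReal.toReal_ofReal (by positivity)]

/-- **Scaling lemma, general majorant.** -/
theorem scale_limit (B : Finset I) (μ : Measure Z) [SFinite μ] (N : ℕ → ℝ) (hN : ∀ n, 0 < N n)
    (h : ℕ → (I → ℝ) × Z → E) (hl : (I → ℝ) × Z → E) (g : (I → ℝ) × Z → ℝ)
    (hg : Integrable g ((volume : Measure (I → ℝ)).prod μ))
    (hm : ∀ n, AEStronglyMeasurable (fun p : (I → ℝ) × Z => h n (dil B (N n) p.1, p.2))
      ((volume : Measure (I → ℝ)).prod μ))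
    (hb : ∀ n, ∀ᵐ p ∂((volume : Measure (I → ℝ)).prod μ), ‖h n (dil B (N n) p.1, p.2)‖ ≤ g p)
    (hlim : ∀ᵐ p ∂((volume : Measure (I → ℝ)).prod μ),
      Tendsto (fun n => h n (dil B (N n) p.1, p.2)) atTop (𝓝 (hl p))) :
    Tendsto (fun n => (((N n)⁻¹) ^ B.card) • ∫ p, h n p ∂((volume : Measure (I → ℝ)).prod μ))
      atTop (𝓝 (∫ p, hl p ∂((volume : Measure (I → ℝ)).prod μ))) := by
  have key : ∀ n, (((N n)⁻¹) ^ B.card) • ∫ p, h n p ∂((volume : Measure (I → ℝ)).prod μ) =
      ∫ p, h n (dil B (N n) p.1, p.2) ∂((volume : Measure (I → ℝ)).prod μ) := fun n =>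
    (integral_dil B (hN n) μ (h n)).symm
  simp_rw [key]
  exact tendsto_integral_of_dominated_convergence g hm hg hb hlim

/-- The standard majorant. -/
noncomputable def maj (B : Finset I) (Y : ℝ) (u : I → ℝ) : ℝ :=
  ∏ i, (if i ∈ B then (Set.Icc (0 : ℝ) Y).indicator (fun _ => (1 : ℝ)) (u i)
    else (Set.Ici (0 : ℝ)).indicator (fun x => Real.exp (-x)) (u i))

theorem maj_nonneg (B : Finset I) (Y : ℝ) (u : I → ℝ) : 0 ≤ maj B Y u := by
  refine Finset.prod_nonneg fun i _ => ?_
  split_ifs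
  · exact Set.indicator_nonneg (fun _ _ => zero_le_one) _
  · exact Set.indicator_nonneg (fun _ _ => (Real.exp_pos _).le) _

theorem integrable_maj (B : Finset I) (Y : ℝ) : Integrable (maj B Y) := by
  have := Integrable.fintype_prod_dep (𝕜 := ℝ) (ι := I) (E := fun _ => ℝ)
    (f := fun i x => (if i ∈ B then (Set.Icc (0 : ℝ) Y).indicator (fun _ => (1 : ℝ)) x
      else (Set.Ici (0 : ℝ)).indicator (fun x => Real.exp (-x)) x))
    (μ := fun _ => (volume : Measure ℝ)) ?_
  · exact this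
  · intro i
    by_cases hi : i ∈ B
    · simp only [hi, if_true]
      refine (integrable_indicator_iff measurableSet_Icc).2 ?_
      exact integrableOn_const (by simp) (by simp)
    · simp only [hi, if_false]
      refine (integrable_indicator_iff measurableSet_Ici).2 ?_
      exact (integrableOn_Ici_iff_integrableOn_Ioi).2 (integrableOn_exp_neg_Ioi 0)

/-- **Scaling lemma, standard form**: `‖h n (u, z)‖ ≤ C z * ∏_{i ∉ B} exp (- u i)`, support in
`0 ≤ u i`, `u i ≤ Y * N n` for `i ∈ B`. -/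
theorem scale_limit_std (B : Finset I) (μ : Measure Z) [SFinite μ] (N : ℕ → ℝ)
    (hN : ∀ n, 0 < N n) (Y : ℝ) (C : Z → ℝ) (hC : Integrable C μ) (hC0 : ∀ z, 0 ≤ C z)
    (h : ℕ → (I → ℝ) × Z → E) (hl : (I → ℝ) × Z → E)
    (hm : ∀ n, AEStronglyMeasurable (h n) ((volume : Measure (I → ℝ)).prod μ))
    (hb : ∀ n u z, (∀ i, 0 ≤ u i) → (∀ i ∈ B, u i ≤ Y * N n) →
      ‖h n (u, z)‖ ≤ C z * ∏ i ∈ Bᶜ, Real.exp (-(u i)))
    (hs : ∀ n u z, ¬ ((∀ i, 0 ≤ u i) ∧ ∀ i ∈ B, u i ≤ Y * N n) → h n (u, z) = 0)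
    (hlim : ∀ᵐ p ∂((volume : Measure (I → ℝ)).prod μ),
      Tendsto (fun n => h n (dil B (N n) p.1, p.2)) atTop (𝓝 (hl p))) :
    Tendsto (fun n => (((N n)⁻¹) ^ B.card) • ∫ p, h n p ∂((volume : Measure (I → ℝ)).prod μ))
      atTop (𝓝 (∫ p, hl p ∂((volume : Measure (I → ℝ)).prod μ))) := by
  refine scale_limit B μ N hN h hl (fun p => maj B Y p.1 * C p.2)
    ((integrable_maj B Y).mul_prod hC) ?_ ?_ hlim
  · intro n
    have hqmp : Measure.QuasiMeasurePreserving (fun p : (I → ℝ) × Z => (dil B (N n) p.1, p.2))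
        ((volume : Measure (I → ℝ)).prod μ) ((volume : Measure (I → ℝ)).prod μ) := by
      refine ⟨((continuous_dil B (N n)).measurable.comp measurable_fst).prodMk measurable_snd, ?_⟩
      have h := Measure.map_prod_map (f := dil B (N n)) (g := (id : Z → Z))
        (volume : Measure (I → ℝ)) μ (continuous_dil B (N n)).measurable measurable_id
      have h3 : Prod.map (dil B (N n)) (id : Z → Z) =
        fun p : (I → ℝ) × Z => (dil B (N n) p.1, p.2) := rfl
      rw [h3, Measure.map_id, map_dil B (hN n)] at h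
      rw [← h, Measure.prod_smul_left]
      exact Measure.smul_absolutelyContinuous
    exact (hm n).comp_quasiMeasurePreserving hqmp
  · intro n
    refine Eventually.of_forall fun p => ?_
    by_cases hp : (∀ i, 0 ≤ dil B (N n) p.1 i) ∧ ∀ i ∈ B, dil B (N n) p.1 i ≤ Y * N n
    · refine (hb n _ _ hp.1 hp.2).trans (le_of_eq ?_)
      rw [mul_comm]
      congr 1
      rw [maj, Finset.prod_ite]
      have h1 : ∏ x ∈ Finset.univ.filter (fun x => x ∈ B),
          (Set.Icc (0 : ℝ) Y).indicator (fun _ => (1 : ℝ)) (p.1 x) = 1 := by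
        refine Finset.prod_eq_one fun i hi => ?_
        have hi' : i ∈ B := by simpa using hi
        have ha := hp.1 i
        have hc := hp.2 i hi'
        rw [dil_mem hi'] at ha hc
        have hN' := hN n
        have h3 : 0 ≤ p.1 i := nonneg_of_mul_nonneg_right ha hN'
        have h4 : p.1 i ≤ Y := by nlinarith
        rw [Set.indicator_of_mem (Set.mem_Icc.2 ⟨h3, h4⟩)]
      rw [h1, one_mul]
      have h2 : (Finset.univ.filter fun x => x ∉ B) = Bᶜ := by ext; simp
      rw [h2]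
      refine Finset.prod_congr rfl fun i hi => ?_
      have hi' : i ∉ B := by simpa using hi
      have ha := hp.1 i
      rw [dil_not_mem hi'] at ha ⊢
      rw [Set.indicator_of_mem (Set.mem_Ici.2 ha)]
    · rw [hs n _ _ hp, norm_zero]
      exact mul_nonneg (maj_nonneg _ _ _) (hC0 _)

/-- **Vanishing**: if the bound has an additional factor `N ^ (- m)` with `B.card < m`. -/
theorem scale_zero (B : Finset I) (μ : Measure Z) [SFinite μ] (N : ℕ → ℝ)
    (hN : ∀ n, 0 < N n) (Y : ℝ) (C : Z → ℝ)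
    (hC : Integrable C μ) (hC0 : ∀ z, 0 ≤ C z) (e : ℕ → ℝ) (he : Tendsto e atTop (𝓝 0))
    (h : ℕ → (I → ℝ) × Z → E)
    (hm : ∀ n, AEStronglyMeasurable (h n) ((volume : Measure (I → ℝ)).prod μ))
    (hb : ∀ n u z, (∀ i, 0 ≤ u i) → (∀ i ∈ B, u i ≤ Y * N n) →
      ‖h n (u, z)‖ ≤ |e n| * ((N n)⁻¹) ^ B.card * (C z * ∏ i ∈ Bᶜ, Real.exp (-(u i))))
    (hs : ∀ n u z, ¬ ((∀ i, 0 ≤ u i) ∧ ∀ i ∈ B, u i ≤ Y * N n) → h n (u, z) = 0) :
    Tendsto (fun n => ∫ p, h n p ∂((volume : Measure (I → ℝ)).prod μ)) atTop (𝓝 0) := by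
  obtain ⟨A, hA⟩ : ∃ A, ∀ n, |e n| ≤ A := by
    obtain ⟨A, hA⟩ := he.abs.bddAbove_range
    exact ⟨A, fun n => hA ⟨n, rfl⟩⟩
  have hA0 : 0 ≤ A := (abs_nonneg _).trans (hA 0)
  have key := scale_limit_std B μ N hN Y (fun z => A * C z) (hC.const_mul A)
    (fun z => mul_nonneg hA0 (hC0 z)) (fun n p => ((N n) ^ B.card) • h n p) (fun _ => 0) ?_ ?_ ?_ ?_
  · simp only [integral_zero] at key
    refine key.congr fun n => ?_
    rw [integral_smul, smul_smul, ← mul_pow, inv_mul_cancel₀ (hN n).ne', one_pow, one_smul]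
  · exact fun n => (hm n).const_smul _
  · intro n u z h1 h2
    rw [norm_smul, Real.norm_of_nonneg (by have := hN n; positivity)]
    calc (N n) ^ B.card * ‖h n (u, z)‖
        ≤ (N n) ^ B.card * (|e n| * ((N n)⁻¹) ^ B.card * (C z * ∏ i ∈ Bᶜ, Real.exp (-(u i)))) :=
          mul_le_mul_of_nonneg_left (hb n u z h1 h2) (by have := hN n; positivity)
      _ = ((N n) * (N n)⁻¹) ^ B.card * |e n| * (C z * ∏ i ∈ Bᶜ, Real.exp (-(u i))) := by
          rw [mul_pow]; ring
      _ = |e n| * (C z * ∏ i ∈ Bᶜ, Real.exp (-(u i))) := by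
          rw [mul_inv_cancel₀ (hN n).ne', one_pow, one_mul]
      _ ≤ A * (C z * ∏ i ∈ Bᶜ, Real.exp (-(u i))) := by
          refine mul_le_mul_of_nonneg_right (hA n) (mul_nonneg (hC0 z) ?_)
          exact Finset.prod_nonneg fun i _ => (Real.exp_pos _).le
      _ = A * C z * ∏ i ∈ Bᶜ, Real.exp (-(u i)) := by ring
  · intro n u z hn
    simp [hs n u z hn]
  · refine Eventually.of_forall fun p => ?_
    have hpos : ∀ n, ‖((N n) ^ B.card) • h n (dil B (N n) p.1, p.2)‖ ≤
        |e n| * (C p.2 * ∏ i ∈ Bᶜ, Real.exp (-(p.1 i))) := by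
      intro n
      by_cases hp : (∀ i, 0 ≤ dil B (N n) p.1 i) ∧ ∀ i ∈ B, dil B (N n) p.1 i ≤ Y * N n
      · rw [norm_smul, Real.norm_of_nonneg (by have := hN n; positivity)]
        have h5 : ∏ i ∈ Bᶜ, Real.exp (-(dil B (N n) p.1 i)) = ∏ i ∈ Bᶜ, Real.exp (-(p.1 i)) :=
          Finset.prod_congr rfl fun i hi => by
            rw [dil_not_mem (by simpa using hi)]
        calc (N n) ^ B.card * ‖h n (dil B (N n) p.1, p.2)‖
            ≤ (N n) ^ B.card * (|e n| * ((N n)⁻¹) ^ B.card *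
                (C p.2 * ∏ i ∈ Bᶜ, Real.exp (-(dil B (N n) p.1 i)))) :=
              mul_le_mul_of_nonneg_left (hb n _ _ hp.1 hp.2) (by have := hN n; positivity)
          _ = ((N n) * (N n)⁻¹) ^ B.card * |e n| *
                (C p.2 * ∏ i ∈ Bᶜ, Real.exp (-(p.1 i))) := by
              rw [h5, mul_pow]; ring
          _ = |e n| * (C p.2 * ∏ i ∈ Bᶜ, Real.exp (-(p.1 i))) := by
              rw [mul_inv_cancel₀ (hN n).ne', one_pow, one_mul]
      · rw [hs n _ _ hp, smul_zero, norm_zero]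
        exact mul_nonneg (abs_nonneg _) (mul_nonneg (hC0 _)
          (Finset.prod_nonneg fun i _ => (Real.exp_pos _).le))
    refine squeeze_zero_norm hpos ?_
    have : Tendsto (fun n => |e n| * (C p.2 * ∏ i ∈ Bᶜ, Real.exp (-(p.1 i)))) atTop
        (𝓝 (|0| * (C p.2 * ∏ i ∈ Bᶜ, Real.exp (-(p.1 i))))) := he.abs.mul_const _
    simpa using this

end Vale.Agent.P273.H261
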