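import Vale.Agent.P273.H261.Limit

/-!
The scaling lemma with a cut off that depends on the remaining parameters, and with the
integrability of the limit.
-/

namespace Vale.Agent.P273.H261

open MeasureTheory Filter Topology Function

set_option linter.unusedSectionVars false

variable {I Z E : Type*} [Fintype I] [DecidableEq I] [MeasurableSpace Z]
  [NormedAddCommGroup E] [NormedSpace ℝ E]

theorem integral_maj (B : Finset I) {Y : ℝ} (hY : 0 ≤ Y) : ∫ u, maj B Y u = Y ^ B.card := by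
  have h := integral_fintype_prod_volume_eq_prod (𝕜 := ℝ) (ι := I) (E := fun _ => ℝ)
    (f := fun i x => (if i ∈ B then (Set.Icc (0 : ℝ) Y).indicator (fun _ => (1 : ℝ)) x
      else (Set.Ici (0 : ℝ)).indicator (fun x => Real.exp (-x)) x))
  have h1 : ∀ i : I, ∫ x, (if i ∈ B then (Set.Icc (0 : ℝ) Y).indicator (fun _ => (1 : ℝ)) x
      else (Set.Ici (0 : ℝ)).indicator (fun x => Real.exp (-x)) x) =
      if i ∈ B then Y else 1 := by
    intro i
    by_cases hi : i ∈ B
    · simp only [hi, if_true]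
      rw [integral_indicator measurableSet_Icc]
      simp [hY]
    · simp only [hi, if_false]
      rw [integral_indicator measurableSet_Ici, integral_Ici_eq_integral_Ioi,
        integral_exp_neg_Ioi_zero]
  have h2 : ∫ u, maj B Y u = ∏ i : I, if i ∈ B then Y else 1 := by
    rw [← Finset.prod_congr rfl fun i _ => h1 i, ← h]
    rfl
  rw [h2, Finset.prod_ite, Finset.prod_const, Finset.prod_const_one, mul_one]
  congr 2
  ext i; simp

theorem measurable_majY (B : Finset I) {Y : Z → ℝ} (hY : Measurable Y) :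
    Measurable fun p : (I → ℝ) × Z => maj B (Y p.2) p.1 := by
  unfold maj
  refine Finset.measurable_prod _ fun i _ => ?_
  by_cases hi : i ∈ B
  · simp only [hi, if_true]
    have : (fun p : (I → ℝ) × Z => (Set.Icc (0 : ℝ) (Y p.2)).indicator (fun _ => (1 : ℝ)) (p.1 i)) =
        ({p : (I → ℝ) × Z | 0 ≤ p.1 i} ∩ {p | p.1 i ≤ Y p.2}).indicator fun _ => (1 : ℝ) := by
      funext p
      simp only [Set.indicator, Set.mem_Icc, Set.mem_inter_iff, Set.mem_ofPred_eq]
    rw [this]
    have hm : Measurable fun p : (I → ℝ) × Z => p.1 i := (measurable_pi_apply i).comp measurable_fst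
    exact measurable_const.indicator ((measurableSet_le measurable_const hm).inter
      (measurableSet_le hm (hY.comp measurable_snd)))
  · simp only [hi, if_false]
    have hm : Measurable fun p : (I → ℝ) × Z => p.1 i := (measurable_pi_apply i).comp measurable_fst
    exact ((Real.measurable_exp.comp measurable_neg).indicator measurableSet_Ici).comp hm

theorem integrable_majY (B : Finset I) (μ : Measure Z) [SFinite μ] {Y C : Z → ℝ}
    (hY : Measurable Y) (hY0 : ∀ z, 0 ≤ Y z) (hCm : AEStronglyMeasurable C μ) (hC0 : ∀ z, 0 ≤ C z)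
    (hC : Integrable (fun z => C z * Y z ^ B.card) μ) :
    Integrable (fun p : (I → ℝ) × Z => maj B (Y p.2) p.1 * C p.2)
      ((volume : Measure (I → ℝ)).prod μ) := by
  have hm : AEStronglyMeasurable (fun p : (I → ℝ) × Z => maj B (Y p.2) p.1 * C p.2)
      ((volume : Measure (I → ℝ)).prod μ) :=
    ((measurable_majY B hY).aestronglyMeasurable).mul hCm.comp_snd
  rw [integrable_prod_iff' hm]
  refine ⟨Eventually.of_forall fun z => ?_, ?_⟩
  · exact (integrable_maj B (Y z)).mul_const (C z)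
  refine hC.congr (Eventually.of_forall fun z => ?_)
  have : ∀ u : I → ℝ, ‖maj B (Y z) u * C z‖ = maj B (Y z) u * C z := fun u =>
    Real.norm_of_nonneg (mul_nonneg (maj_nonneg _ _ _) (hC0 z))
  simp only [this]
  rw [integral_mul_const, integral_maj B (hY0 z)]
  ring

/-- Composition with the dilation preserves a.e. strong measurability. -/
theorem aesm_dil (B : Finset I) (μ : Measure Z) [SFinite μ] {N : ℝ} (hN : 0 < N)
    {h : (I → ℝ) × Z → E} (hm : AEStronglyMeasurable h ((volume : Measure (I → ℝ)).prod μ)) :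
    AEStronglyMeasurable (fun p : (I → ℝ) × Z => h (dil B N p.1, p.2))
      ((volume : Measure (I → ℝ)).prod μ) := by
  have hqmp : Measure.QuasiMeasurePreserving (fun p : (I → ℝ) × Z => (dil B N p.1, p.2))
      ((volume : Measure (I → ℝ)).prod μ) ((volume : Measure (I → ℝ)).prod μ) := by
    refine ⟨((continuous_dil B N).measurable.comp measurable_fst).prodMk measurable_snd, ?_⟩
    have h := Measure.map_prod_map (f := dil B N) (g := (id : Z → Z))
      (volume : Measure (I → ℝ)) μ (continuous_dil B N).measurable measurable_id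
    have h3 : Prod.map (dil B N) (id : Z → Z) =
      fun p : (I → ℝ) × Z => (dil B N p.1, p.2) := rfl
    rw [h3, Measure.map_id, map_dil B hN] at h
    rw [← h, Measure.prod_smul_left]
    exact Measure.smul_absolutelyContinuous
  exact hm.comp_quasiMeasurePreserving hqmp

theorem maj_dil (B : Finset I) {N Y : ℝ} (hN : 0 < N) (u : I → ℝ)
    (hp : (∀ i, 0 ≤ dil B N u i) ∧ ∀ i ∈ B, dil B N u i ≤ Y * N) :
    maj B Y u = ∏ i ∈ Bᶜ, Real.exp (-(dil B N u i)) := by
  rw [maj, Finset.prod_ite]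
  have h1 : ∏ x ∈ Finset.univ.filter (fun x => x ∈ B),
      (Set.Icc (0 : ℝ) Y).indicator (fun _ => (1 : ℝ)) (u x) = 1 := by
    refine Finset.prod_eq_one fun i hi => ?_
    have hi' : i ∈ B := by simpa using hi
    have ha := hp.1 i
    have hc := hp.2 i hi'
    rw [dil_mem hi'] at ha hc
    have h3 : 0 ≤ u i := nonneg_of_mul_nonneg_right ha hN
    have h4 : u i ≤ Y := by nlinarith
    rw [Set.indicator_of_mem (Set.mem_Icc.2 ⟨h3, h4⟩)]
  rw [h1, one_mul]
  have h2 : (Finset.univ.filter fun x => x ∉ B) = Bᶜ := by ext; simp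
  rw [h2]
  refine Finset.prod_congr rfl fun i hi => ?_
  have hi' : i ∉ B := by simpa using hi
  have ha := hp.1 i
  rw [dil_not_mem hi'] at ha ⊢
  rw [Set.indicator_of_mem (Set.mem_Ici.2 ha)]

/-- **Scaling lemma, cut off depending on `z`**, with integrability of the limit. -/
theorem scale_limitY (B : Finset I) (μ : Measure Z) [SFinite μ] (N : ℕ → ℝ)
    (hN : ∀ n, 0 < N n) {Y C : Z → ℝ}
    (hY : Measurable Y) (hY0 : ∀ z, 0 ≤ Y z) (hCm : AEStronglyMeasurable C μ) (hC0 : ∀ z, 0 ≤ C z)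
    (hC : Integrable (fun z => C z * Y z ^ B.card) μ)
    (h : ℕ → (I → ℝ) × Z → E) (hl : (I → ℝ) × Z → E)
    (hm : ∀ n, AEStronglyMeasurable (h n) ((volume : Measure (I → ℝ)).prod μ))
    (hb : ∀ n u z, (∀ i, 0 ≤ u i) → (∀ i ∈ B, u i ≤ Y z * N n) →
      ‖h n (u, z)‖ ≤ ((N n)⁻¹) ^ B.card * (C z * ∏ i ∈ Bᶜ, Real.exp (-(u i))))
    (hs : ∀ n u z, ¬ ((∀ i, 0 ≤ u i) ∧ ∀ i ∈ B, u i ≤ Y z * N n) → h n (u, z) = 0)
    (hlim : ∀ᵐ p ∂((volume : Measure (I → ℝ)).prod μ),
      Tendsto (fun n => (N n) ^ B.card • h n (dil B (N n) p.1, p.2)) atTop (𝓝 (hl p))) :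
    Integrable hl ((volume : Measure (I → ℝ)).prod μ) ∧
    Tendsto (fun n => ∫ p, h n p ∂((volume : Measure (I → ℝ)).prod μ))
      atTop (𝓝 (∫ p, hl p ∂((volume : Measure (I → ℝ)).prod μ))) := by
  set g : (I → ℝ) × Z → ℝ := fun p => maj B (Y p.2) p.1 * C p.2 with hg
  have hgi : Integrable g ((volume : Measure (I → ℝ)).prod μ) :=
    integrable_majY B μ hY hY0 hCm hC0 hC
  have hm' : ∀ n, AEStronglyMeasurable
      (fun p : (I → ℝ) × Z => (N n) ^ B.card • h n (dil B (N n) p.1, p.2))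
      ((volume : Measure (I → ℝ)).prod μ) := fun n =>
    (aesm_dil B μ (hN n) (hm n)).const_smul _
  have hb' : ∀ n p, ‖(N n) ^ B.card • h n (dil B (N n) p.1, p.2)‖ ≤ g p := by
    intro n p
    have hNn := hN n
    by_cases hp : (∀ i, 0 ≤ dil B (N n) p.1 i) ∧ ∀ i ∈ B, dil B (N n) p.1 i ≤ Y p.2 * N n
    · rw [norm_smul, Real.norm_of_nonneg (by positivity)]
      calc (N n) ^ B.card * ‖h n (dil B (N n) p.1, p.2)‖
          ≤ (N n) ^ B.card * (((N n)⁻¹) ^ B.card *
            (C p.2 * ∏ i ∈ Bᶜ, Real.exp (-(dil B (N n) p.1 i)))) :=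
            mul_le_mul_of_nonneg_left (hb n _ _ hp.1 hp.2) (by positivity)
        _ = (((N n) * (N n)⁻¹) ^ B.card) * (C p.2 * maj B (Y p.2) p.1) := by
            rw [maj_dil B hNn p.1 hp, mul_pow]; ring
        _ = g p := by
            rw [mul_inv_cancel₀ hNn.ne', one_pow, one_mul, hg, mul_comm]
    · rw [hs n _ _ hp, smul_zero, norm_zero]
      exact mul_nonneg (maj_nonneg _ _ _) (hC0 _)
  constructor
  · refine Integrable.mono' hgi (aestronglyMeasurable_of_tendsto_ae atTop hm' hlim) ?_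
    filter_upwards [hlim] with p hp
    exact le_of_tendsto hp.norm (Eventually.of_forall fun n => hb' n p)
  · have key := scale_limit B μ N hN (fun n p => (N n) ^ B.card • h n p) hl g hgi hm'
      (fun n => Eventually.of_forall fun p => hb' n p) hlim
    refine key.congr fun n => ?_
    rw [integral_smul, smul_smul, ← mul_pow, inv_mul_cancel₀ (hN n).ne', one_pow, one_smul]

/-- **Vanishing version.** -/
theorem scale_zeroY (B : Finset I) (μ : Measure Z) [SFinite μ] (N : ℕ → ℝ)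
    (hN : ∀ n, 0 < N n) {Y C : Z → ℝ}
    (hY : Measurable Y) (hY0 : ∀ z, 0 ≤ Y z) (hCm : AEStronglyMeasurable C μ) (hC0 : ∀ z, 0 ≤ C z)
    (hC : Integrable (fun z => C z * Y z ^ B.card) μ) (e : ℕ → ℝ) (he : Tendsto e atTop (𝓝 0))
    (h : ℕ → (I → ℝ) × Z → E)
    (hm : ∀ n, AEStronglyMeasurable (h n) ((volume : Measure (I → ℝ)).prod μ))
    (hb : ∀ n u z, (∀ i, 0 ≤ u i) → (∀ i ∈ B, u i ≤ Y z * N n) →
      ‖h n (u, z)‖ ≤ e n * (((N n)⁻¹) ^ B.card * (C z * ∏ i ∈ Bᶜ, Real.exp (-(u i)))))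
    (hs : ∀ n u z, ¬ ((∀ i, 0 ≤ u i) ∧ ∀ i ∈ B, u i ≤ Y z * N n) → h n (u, z) = 0) :
    Tendsto (fun n => ∫ p, h n p ∂((volume : Measure (I → ℝ)).prod μ)) atTop (𝓝 0) := by
  obtain ⟨A, hA⟩ : ∃ A, ∀ n, e n ≤ A := by
    obtain ⟨A, hA⟩ := he.bddAbove_range
    exact ⟨A, fun n => hA ⟨n, rfl⟩⟩
  have hA1 : ∀ n, e n ≤ |A| := fun n => (hA n).trans (le_abs_self A)
  have key := scale_limitY B μ N hN hY hY0 (C := fun z => |A| * C z) (hCm.const_mul _)
    (fun z => mul_nonneg (abs_nonneg _) (hC0 z)) ?_ h (fun _ => 0) hm ?_ hs ?_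
  · simpa using key.2
  · simpa [mul_assoc] using hC.const_mul |A|
  · intro n u z h1 h2
    have hNn := hN n
    refine (hb n u z h1 h2).trans ?_
    have h3 : 0 ≤ ((N n)⁻¹) ^ B.card * (C z * ∏ i ∈ Bᶜ, Real.exp (-(u i))) :=
      mul_nonneg (by positivity) (mul_nonneg (hC0 z)
        (Finset.prod_nonneg fun i _ => (Real.exp_pos _).le))
    calc e n * (((N n)⁻¹) ^ B.card * (C z * ∏ i ∈ Bᶜ, Real.exp (-(u i))))
        ≤ |A| * (((N n)⁻¹) ^ B.card * (C z * ∏ i ∈ Bᶜ, Real.exp (-(u i)))) :=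
          mul_le_mul_of_nonneg_right (hA1 n) h3
      _ = _ := by ring
  · refine Eventually.of_forall fun p => ?_
    have hpos : ∀ n, ‖((N n) ^ B.card) • h n (dil B (N n) p.1, p.2)‖ ≤
        |e n| * (C p.2 * ∏ i ∈ Bᶜ, Real.exp (-(p.1 i))) := by
      intro n
      have hNn := hN n
      by_cases hp : (∀ i, 0 ≤ dil B (N n) p.1 i) ∧ ∀ i ∈ B, dil B (N n) p.1 i ≤ Y p.2 * N n
      · rw [norm_smul, Real.norm_of_nonneg (by positivity)]
        have h5 : ∏ i ∈ Bᶜ, Real.exp (-(dil B (N n) p.1 i)) = ∏ i ∈ Bᶜ, Real.exp (-(p.1 i)) :=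
          Finset.prod_congr rfl fun i hi => by
            rw [dil_not_mem (by simpa using hi)]
        have h6 : 0 ≤ ((N n)⁻¹) ^ B.card *
            (C p.2 * ∏ i ∈ Bᶜ, Real.exp (-(dil B (N n) p.1 i))) :=
          mul_nonneg (by positivity) (mul_nonneg (hC0 _)
            (Finset.prod_nonneg fun i _ => (Real.exp_pos _).le))
        calc (N n) ^ B.card * ‖h n (dil B (N n) p.1, p.2)‖
            ≤ (N n) ^ B.card * (|e n| * (((N n)⁻¹) ^ B.card *
                (C p.2 * ∏ i ∈ Bᶜ, Real.exp (-(dil B (N n) p.1 i))))) :=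
              mul_le_mul_of_nonneg_left ((hb n _ _ hp.1 hp.2).trans
                (mul_le_mul_of_nonneg_right (le_abs_self _) h6)) (by positivity)
          _ = ((N n) * (N n)⁻¹) ^ B.card * |e n| *
                (C p.2 * ∏ i ∈ Bᶜ, Real.exp (-(p.1 i))) := by
              rw [h5, mul_pow]; ring
          _ = |e n| * (C p.2 * ∏ i ∈ Bᶜ, Real.exp (-(p.1 i))) := by
              rw [mul_inv_cancel₀ hNn.ne', one_pow, one_mul]
      · rw [hs n _ _ hp, smul_zero, norm_zero]
        exact mul_nonneg (abs_nonneg _) (mul_nonneg (hC0 _)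
          (Finset.prod_nonneg fun i _ => (Real.exp_pos _).le))
    refine squeeze_zero_norm hpos ?_
    have : Tendsto (fun n => |e n| * (C p.2 * ∏ i ∈ Bᶜ, Real.exp (-(p.1 i)))) atTop
        (𝓝 (|0| * (C p.2 * ∏ i ∈ Bᶜ, Real.exp (-(p.1 i))))) := he.abs.mul_const _
    simpa using this

end Vale.Agent.P273.H261
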