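import Vale.Agent.P273.H261.Limit2

/-!
The limit lemma with the product majorant `C z * ∏ max (exp (- u g)) (1 / (y g z * N))`.
-/

namespace Vale.Agent.P273.H261

open MeasureTheory Filter Topology Function

set_option linter.unusedSectionVars false

variable {I Z E : Type*} [Fintype I] [DecidableEq I] [MeasurableSpace Z]
  [NormedAddCommGroup E] [NormedSpace ℝ E]

/-- The majorant of the part `B`. -/
noncomputable def majP (B : Finset I) (κ : ℝ) (y : I → ℝ) (u : I → ℝ) : ℝ :=
  ∏ i, (if i ∈ B then (y i)⁻¹ * (Set.Icc (0 : ℝ) (κ * y i)).indicator (fun _ => (1 : ℝ)) (u i)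
    else (Set.Ici (0 : ℝ)).indicator (fun x => Real.exp (-x)) (u i))

theorem majP_nonneg (B : Finset I) (κ : ℝ) {y : I → ℝ} (hy : ∀ i, 1 ≤ y i) (u : I → ℝ) :
    0 ≤ majP B κ y u := by
  refine Finset.prod_nonneg fun i _ => ?_
  split_ifs
  · exact mul_nonneg (inv_nonneg.2 (zero_le_one.trans (hy i)))
      (Set.indicator_nonneg (fun _ _ => zero_le_one) _)
  · exact Set.indicator_nonneg (fun _ _ => (Real.exp_pos _).le) _

theorem integrable_majP (B : Finset I) (κ : ℝ) (y : I → ℝ) : Integrable (majP B κ y) := by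
  have := Integrable.fintype_prod_dep (𝕜 := ℝ) (ι := I) (E := fun _ => ℝ)
    (f := fun i x => (if i ∈ B then (y i)⁻¹ *
        (Set.Icc (0 : ℝ) (κ * y i)).indicator (fun _ => (1 : ℝ)) x
      else (Set.Ici (0 : ℝ)).indicator (fun x => Real.exp (-x)) x))
    (μ := fun _ => (volume : Measure ℝ)) ?_
  · exact this
  · intro i
    by_cases hi : i ∈ B
    · simp only [hi, if_true]
      refine Integrable.const_mul ?_ _
      refine (integrable_indicator_iff measurableSet_Icc).2 ?_
      exact integrableOn_const (by simp) (by simp)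
    · simp only [hi, if_false]
      refine (integrable_indicator_iff measurableSet_Ici).2 ?_
      exact (integrableOn_Ici_iff_integrableOn_Ioi).2 (integrableOn_exp_neg_Ioi 0)

theorem integral_majP (B : Finset I) {κ : ℝ} (hκ : 0 ≤ κ) {y : I → ℝ} (hy : ∀ i, 1 ≤ y i) :
    ∫ u, majP B κ y u = κ ^ B.card := by
  have h := integral_fintype_prod_volume_eq_prod (𝕜 := ℝ) (ι := I) (E := fun _ => ℝ)
    (f := fun i x => (if i ∈ B then (y i)⁻¹ *
        (Set.Icc (0 : ℝ) (κ * y i)).indicator (fun _ => (1 : ℝ)) x
      else (Set.Ici (0 : ℝ)).indicator (fun x => Real.exp (-x)) x))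
  have h1 : ∀ i : I, ∫ x, (if i ∈ B then (y i)⁻¹ *
        (Set.Icc (0 : ℝ) (κ * y i)).indicator (fun _ => (1 : ℝ)) x
      else (Set.Ici (0 : ℝ)).indicator (fun x => Real.exp (-x)) x) =
      if i ∈ B then κ else 1 := by
    intro i
    have hy0 : 0 < y i := zero_lt_one.trans_le (hy i)
    by_cases hi : i ∈ B
    · simp only [hi, if_true]
      rw [integral_const_mul, integral_indicator measurableSet_Icc]
      have : 0 ≤ κ * y i := mul_nonneg hκ hy0.le
      simp only [integral_const, MeasurableSet.univ, measureReal_restrict_apply,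
        Set.univ_inter, Real.volume_real_Icc_of_le this, sub_zero, smul_eq_mul, mul_one]
      field_simp
    · simp only [hi, if_false]
      rw [integral_indicator measurableSet_Ici, integral_Ici_eq_integral_Ioi,
        integral_exp_neg_Ioi_zero]
  have h2 : ∫ u, majP B κ y u = ∏ i : I, if i ∈ B then κ else 1 := by
    rw [← Finset.prod_congr rfl fun i _ => h1 i, ← h]
    rfl
  rw [h2, Finset.prod_ite, Finset.prod_const, Finset.prod_const_one, mul_one]
  congr 2
  ext i; simp

theorem measurable_majP (B : Finset I) (κ : ℝ) {y : I → Z → ℝ} (hy : ∀ i, Measurable (y i)) :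
    Measurable fun p : (I → ℝ) × Z => majP B κ (fun i => y i p.2) p.1 := by
  unfold majP
  refine Finset.measurable_prod _ fun i _ => ?_
  have hm : Measurable fun p : (I → ℝ) × Z => p.1 i := (measurable_pi_apply i).comp measurable_fst
  have hmy : Measurable fun p : (I → ℝ) × Z => y i p.2 := (hy i).comp measurable_snd
  by_cases hi : i ∈ B
  · simp only [hi, if_true]
    have : (fun p : (I → ℝ) × Z =>
        (Set.Icc (0 : ℝ) (κ * y i p.2)).indicator (fun _ => (1 : ℝ)) (p.1 i)) =
        ({p : (I → ℝ) × Z | 0 ≤ p.1 i} ∩ {p | p.1 i ≤ κ * y i p.2}).indicator fun _ => (1 : ℝ) := by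
      funext p
      simp only [Set.indicator, Set.mem_Icc, Set.mem_inter_iff, Set.mem_ofPred_eq]
    refine hmy.inv.mul ?_
    rw [this]
    exact measurable_const.indicator ((measurableSet_le measurable_const hm).inter
      (measurableSet_le hm (hmy.const_mul κ)))
  · simp only [hi, if_false]
    exact ((Real.measurable_exp.comp measurable_neg).indicator measurableSet_Ici).comp hm

theorem integrable_majP_prod (B : Finset I) (μ : Measure Z) [SFinite μ] {κ : ℝ} (hκ : 0 ≤ κ)
    {y : I → Z → ℝ} (hym : ∀ i, Measurable (y i)) (hy : ∀ i z, 1 ≤ y i z) {C : Z → ℝ}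
    (hC0 : ∀ z, 0 ≤ C z) (hC : Integrable C μ) :
    Integrable (fun p : (I → ℝ) × Z => majP B κ (fun i => y i p.2) p.1 * C p.2)
      ((volume : Measure (I → ℝ)).prod μ) := by
  have hm : AEStronglyMeasurable
      (fun p : (I → ℝ) × Z => majP B κ (fun i => y i p.2) p.1 * C p.2)
      ((volume : Measure (I → ℝ)).prod μ) :=
    ((measurable_majP B κ hym).aestronglyMeasurable).mul hC.aestronglyMeasurable.comp_snd
  rw [integrable_prod_iff' hm]
  refine ⟨Eventually.of_forall fun z => ?_, ?_⟩
  · exact (integrable_majP B κ fun i => y i z).mul_const (C z)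
  refine (hC.mul_const (κ ^ B.card)).congr (Eventually.of_forall fun z => ?_)
  have : ∀ u : I → ℝ, ‖majP B κ (fun i => y i z) u * C z‖ =
      majP B κ (fun i => y i z) u * C z := fun u =>
    Real.norm_of_nonneg (mul_nonneg (majP_nonneg _ _ (fun i => hy i z) _) (hC0 z))
  simp only [this]
  rw [integral_mul_const, integral_majP B hκ fun i => hy i z]
  ring

theorem integrable_dil (B : Finset I) (μ : Measure Z) [SFinite μ] {N : ℝ} (hN : 0 < N)
    {f : (I → ℝ) × Z → E} (hf : Integrable f ((volume : Measure (I → ℝ)).prod μ)) :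
    Integrable (fun p : (I → ℝ) × Z => f (dil B N p.1, p.2))
      ((volume : Measure (I → ℝ)).prod μ) := by
  have hme : MeasurableEmbedding (fun p : (I → ℝ) × Z => (dil B N p.1, p.2)) :=
    ((dilEquiv B hN.ne').prodCongr (MeasurableEquiv.refl Z)).measurableEmbedding
  have hmap : Measure.map (fun p : (I → ℝ) × Z => (dil B N p.1, p.2))
      ((volume : Measure (I → ℝ)).prod μ) =
      ENNReal.ofReal ((N⁻¹) ^ B.card) • ((volume : Measure (I → ℝ)).prod μ) := by
    have h := Measure.map_prod_map (f := dil B N) (g := (id : Z → Z))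
      (volume : Measure (I → ℝ)) μ (continuous_dil B N).measurable measurable_id
    have h3 : Prod.map (dil B N) (id : Z → Z) = fun p : (I → ℝ) × Z => (dil B N p.1, p.2) := rfl
    rw [h3, Measure.map_id, map_dil B hN] at h
    rw [← h, Measure.prod_smul_left]
  have h2 : Integrable f (Measure.map (fun p : (I → ℝ) × Z => (dil B N p.1, p.2))
      ((volume : Measure (I → ℝ)).prod μ)) := by
    rw [hmap]
    exact hf.smul_measure (by simp)
  exact (hme.integrable_map_iff).1 h2

/-- The part of the domain that belongs to `B`. -/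
def DB (y : I → Z → ℝ) (N : ℝ) (B : Finset I) : Set ((I → ℝ) × Z) :=
  {p | ∀ g, g ∈ B ↔ Real.exp (-(p.1 g)) < (y g p.2 * N)⁻¹}

theorem measurableSet_DB {y : I → Z → ℝ} (hym : ∀ i, Measurable (y i)) (N : ℝ) (B : Finset I) :
    MeasurableSet (DB y N B) := by
  have : DB y N B = ⋂ g, {p : (I → ℝ) × Z | g ∈ B ↔ Real.exp (-(p.1 g)) < (y g p.2 * N)⁻¹} := by
    ext p; simp [DB]
  rw [this]
  refine MeasurableSet.iInter fun g => ?_
  have hm : Measurable fun p : (I → ℝ) × Z => Real.exp (-(p.1 g)) :=
    Real.measurable_exp.comp (((measurable_pi_apply g).comp measurable_fst).neg)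
  have hmy : Measurable fun p : (I → ℝ) × Z => (y g p.2 * N)⁻¹ :=
    (((hym g).comp measurable_snd).mul_const N).inv
  have hs : MeasurableSet {p : (I → ℝ) × Z | Real.exp (-(p.1 g)) < (y g p.2 * N)⁻¹} :=
    measurableSet_lt hm hmy
  by_cases hg : g ∈ B
  · simpa [hg] using hs
  · have : {p : (I → ℝ) × Z | g ∈ B ↔ Real.exp (-(p.1 g)) < (y g p.2 * N)⁻¹} =
        {p : (I → ℝ) × Z | Real.exp (-(p.1 g)) < (y g p.2 * N)⁻¹}ᶜ := by
      ext p; simp [hg]
    rw [this]
    exact hs.compl

theorem exists_DB (y : I → Z → ℝ) (N : ℝ) (p : (I → ℝ) × Z) : ∃! B, p ∈ DB y N B := by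
  classical
  refine ⟨Finset.univ.filter fun g => Real.exp (-(p.1 g)) < (y g p.2 * N)⁻¹, ?_, ?_⟩
  · intro g; simp
  · intro B hB
    ext g
    simp [hB g]

theorem sum_indicator_DB (y : I → Z → ℝ) (N : ℝ) (f : (I → ℝ) × Z → E) (p : (I → ℝ) × Z) :
    ∑ B : Finset I, (DB y N B).indicator f p = f p := by
  obtain ⟨B, hB, huniq⟩ := exists_DB y N p
  rw [Finset.sum_eq_single_of_mem B (Finset.mem_univ _)]
  · exact Set.indicator_of_mem hB f
  · intro B' _ hne
    exact Set.indicator_of_notMem (fun h => hne (huniq B' h)) f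

/-- **Limit lemma with the product majorant.** -/
theorem part_limit (μ : Measure Z) [SFinite μ] (N : ℕ → ℝ) (hN : ∀ n, 1 ≤ N n)
    (hNt : Tendsto N atTop atTop) {κ : ℝ} (hκ : 0 ≤ κ)
    {y : I → Z → ℝ} (hym : ∀ i, Measurable (y i)) (hy : ∀ i z, 1 ≤ y i z) {C : Z → ℝ}
    (hC0 : ∀ z, 0 ≤ C z) (hC : Integrable C μ)
    (h : ℕ → (I → ℝ) × Z → E) (hl : Finset I → (I → ℝ) × Z → E)
    (hm : ∀ n, AEStronglyMeasurable (h n) ((volume : Measure (I → ℝ)).prod μ))
    (hb : ∀ n u z, (∀ i, 0 ≤ u i) → (∀ i, u i ≤ κ * y i z * N n) →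
      ‖h n (u, z)‖ ≤ C z * ∏ i, max (Real.exp (-(u i))) (y i z * N n)⁻¹)
    (hs : ∀ n u z, ¬ ((∀ i, 0 ≤ u i) ∧ ∀ i, u i ≤ κ * y i z * N n) → h n (u, z) = 0)
    (hlim : ∀ B, ∀ᵐ p ∂((volume : Measure (I → ℝ)).prod μ), (∀ i ∈ B, 0 < p.1 i) →
      Tendsto (fun n => (N n) ^ B.card • h n (dil B (N n) p.1, p.2)) atTop (𝓝 (hl B p)))
    (hl0 : ∀ B p, (∃ i ∈ B, p.1 i < 0) → hl B p = 0) :
    (∀ B, Integrable (hl B) ((volume : Measure (I → ℝ)).prod μ)) ∧
    Tendsto (fun n => ∫ p, h n p ∂((volume : Measure (I → ℝ)).prod μ)) atTop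
      (𝓝 (∑ B : Finset I, ∫ p, hl B p ∂((volume : Measure (I → ℝ)).prod μ))) := by
  set P := (volume : Measure (I → ℝ)).prod μ with hP
  set g : Finset I → (I → ℝ) × Z → ℝ := fun B p => majP B κ (fun i => y i p.2) p.1 * C p.2 with hg
  have hgi : ∀ B, Integrable (g B) P := fun B =>
    integrable_majP_prod B μ hκ hym hy hC0 hC
  have hg0 : ∀ B p, 0 ≤ g B p := fun B p =>
    mul_nonneg (majP_nonneg _ _ (fun i => hy i _) _) (hC0 _)
  set k : Finset I → ℕ → (I → ℝ) × Z → E := fun B n => (DB y (N n) B).indicator (h n) with hk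
  have hkm : ∀ B n, AEStronglyMeasurable (k B n) P := fun B n =>
    (hm n).indicator (measurableSet_DB hym _ _)
  -- the bound of the rescaled parts
  have hkb : ∀ B n p, ‖(N n) ^ B.card • k B n (dil B (N n) p.1, p.2)‖ ≤ g B p := by
    intro B n p
    have hN0 : 0 < N n := zero_lt_one.trans_le (hN n)
    set w := dil B (N n) p.1 with hw
    by_cases hD : (w, p.2) ∈ DB y (N n) B
    swap
    · rw [hk]
      simp only
      rw [Set.indicator_of_notMem hD, smul_zero, norm_zero]
      exact hg0 B p
    by_cases hdom : (∀ i, 0 ≤ w i) ∧ ∀ i, w i ≤ κ * y i p.2 * N n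
    swap
    · rw [hk]
      simp only
      rw [Set.indicator_of_mem hD, hs n _ _ hdom, smul_zero, norm_zero]
      exact hg0 B p
    rw [hk]
    simp only
    rw [Set.indicator_of_mem hD, norm_smul, Real.norm_of_nonneg (by positivity)]
    have hprod : ∏ i, max (Real.exp (-(w i))) (y i p.2 * N n)⁻¹ =
        ((N n)⁻¹) ^ B.card * majP B κ (fun i => y i p.2) p.1 := by
      have h1 : ((N n)⁻¹) ^ B.card = ∏ i, if i ∈ B then (N n)⁻¹ else 1 := by
        rw [Finset.prod_ite, Finset.prod_const, Finset.prod_const_one, mul_one]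
        congr 2
        ext i; simp
      rw [h1, majP, ← Finset.prod_mul_distrib]
      refine Finset.prod_congr rfl fun i _ => ?_
      have hy0 : 0 < y i p.2 := zero_lt_one.trans_le (hy i p.2)
      by_cases hi : i ∈ B
      · have hlt := (hD i).1 hi
        rw [max_eq_right hlt.le, if_pos hi, if_pos hi]
        have ha := hdom.1 i
        have hc := hdom.2 i
        rw [hw, dil_mem hi] at ha hc
        have h3 : 0 ≤ p.1 i := nonneg_of_mul_nonneg_right ha hN0
        have h4 : p.1 i ≤ κ * y i p.2 := by nlinarith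
        rw [Set.indicator_of_mem (Set.mem_Icc.2 ⟨h3, h4⟩), mul_one, mul_inv, mul_comm]
      · have hge := not_lt.1 (fun hlt => hi ((hD i).2 hlt))
        rw [max_eq_left hge, if_neg hi, if_neg hi, one_mul]
        have ha := hdom.1 i
        have hwi : w i = p.1 i := dil_not_mem hi
        rw [hwi] at ha
        rw [Set.indicator_of_mem (Set.mem_Ici.2 ha), ← hwi]
    calc (N n) ^ B.card * ‖h n (w, p.2)‖
        ≤ (N n) ^ B.card * (C p.2 * ∏ i, max (Real.exp (-(w i))) (y i p.2 * N n)⁻¹) :=
          mul_le_mul_of_nonneg_left (hb n _ _ hdom.1 hdom.2) (by positivity)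
      _ = ((N n) * (N n)⁻¹) ^ B.card * (majP B κ (fun i => y i p.2) p.1 * C p.2) := by
          rw [hprod, mul_pow]; ring
      _ = g B p := by rw [mul_inv_cancel₀ hN0.ne', one_pow, one_mul]
  -- the limit of the parts
  have hne : ∀ᵐ p ∂P, ∀ i, p.1 i ≠ 0 := by
    have h1 : ∀ᵐ u : I → ℝ, ∀ i, u i ≠ 0 := by
      rw [ae_all_iff]
      intro i
      have : (volume : Measure (I → ℝ)) {f | f i = 0} = 0 := by
        rw [volume_pi]
        exact Measure.pi_hyperplane (μ := fun _ : I => (volume : Measure ℝ)) i 0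
      exact measure_mono_null (fun u hu => by simpa using hu) this
    exact Measure.quasiMeasurePreserving_fst.ae h1
  have hklim : ∀ B, ∀ᵐ p ∂P,
      Tendsto (fun n => (N n) ^ B.card • k B n (dil B (N n) p.1, p.2)) atTop (𝓝 (hl B p)) := by
    intro B
    filter_upwards [hlim B, hne] with p hp hp0
    by_cases hpos : ∀ i ∈ B, 0 < p.1 i
    · refine (hp hpos).congr' ?_
      have hev : ∀ᶠ n in atTop, (dil B (N n) p.1, p.2) ∈ DB y (N n) B := by
        have hall : ∀ g : I, ∀ᶠ n in atTop,
            (g ∈ B ↔ Real.exp (-(dil B (N n) p.1 g)) < (y g p.2 * N n)⁻¹) := by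
          intro i
          have hy0 : 0 < y i p.2 := zero_lt_one.trans_le (hy i p.2)
          by_cases hi : i ∈ B
          · have hlim1 : Tendsto (fun n => y i p.2 * (N n * Real.exp (-(N n * p.1 i)))) atTop
                (𝓝 0) := by
              have h5 : Tendsto (fun x : ℝ => x * Real.exp (-(p.1 i * x))) atTop (𝓝 0) := by
                have := Real.tendsto_pow_mul_exp_neg_atTop_nhds_zero 1
                have h6 : Tendsto (fun x : ℝ => p.1 i * x) atTop atTop :=
                  tendsto_id.const_mul_atTop (hpos i hi)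
                have h7 := (this.comp h6).const_mul (p.1 i)⁻¹
                rw [mul_zero] at h7
                refine h7.congr fun x => ?_
                have hne' : p.1 i ≠ 0 := (hpos i hi).ne'
                simp only [Function.comp, pow_one]
                field_simp
              have h8 := (h5.comp hNt).const_mul (y i p.2)
              rw [mul_zero] at h8
              refine h8.congr fun n => ?_
              simp only [Function.comp]
              rw [mul_comm (p.1 i) (N n)]
            filter_upwards [hlim1.eventually (gt_mem_nhds zero_lt_one)] with n hn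
            have hN0 : 0 < N n := zero_lt_one.trans_le (hN n)
            simp only [hi, true_iff]
            rw [dil_mem hi, lt_inv_comm₀ (Real.exp_pos _) (by positivity)]
            rw [← one_div, lt_div_iff₀ (Real.exp_pos _)]
            calc y i p.2 * N n * Real.exp (-(N n * p.1 i))
                = y i p.2 * (N n * Real.exp (-(N n * p.1 i))) := by ring
              _ < 1 := hn
          · have h9 : Tendsto (fun n => (y i p.2 * N n)⁻¹) atTop (𝓝 0) :=
              (hNt.const_mul_atTop hy0).inv_tendsto_atTop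
            filter_upwards [h9.eventually (gt_mem_nhds (Real.exp_pos (-(p.1 i))))] with n hn
            simp only [hi, false_iff, not_lt]
            rw [dil_not_mem hi]
            exact hn.le
        exact (eventually_all.2 hall).mono fun n hn => hn
      filter_upwards [hev] with n hn
      rw [hk]
      simp only
      rw [Set.indicator_of_mem hn]
    · push Not at hpos
      obtain ⟨i, hi, hle⟩ := hpos
      have hlt : p.1 i < 0 := lt_of_le_of_ne hle (hp0 i)
      rw [hl0 B p ⟨i, hi, hlt⟩]
      refine tendsto_const_nhds.congr fun n => ?_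
      have hN0 : 0 < N n := zero_lt_one.trans_le (hN n)
      rw [hk]
      simp only
      have hz : h n (dil B (N n) p.1, p.2) = 0 := by
        refine hs n _ _ fun hcon => ?_
        have := hcon.1 i
        rw [dil_mem hi] at this
        nlinarith
      by_cases hD : (dil B (N n) p.1, p.2) ∈ DB y (N n) B
      · rw [Set.indicator_of_mem hD, hz, smul_zero]
      · rw [Set.indicator_of_notMem hD, smul_zero]
  have hkm' : ∀ B n, AEStronglyMeasurable
      (fun p : (I → ℝ) × Z => (N n) ^ B.card • k B n (dil B (N n) p.1, p.2)) P := fun B n =>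
    (aesm_dil B μ (zero_lt_one.trans_le (hN n)) (hkm B n)).const_smul _
  have hint : ∀ B, Integrable (hl B) P := by
    intro B
    refine Integrable.mono' (hgi B)
      (aestronglyMeasurable_of_tendsto_ae atTop (hkm' B) (hklim B)) ?_
    filter_upwards [hklim B] with p hp
    exact le_of_tendsto hp.norm (Eventually.of_forall fun n => hkb B n p)
  refine ⟨hint, ?_⟩
  -- integrability of the parts
  have hki : ∀ B n, Integrable (k B n) P := by
    intro B n
    have hN0 : 0 < N n := zero_lt_one.trans_le (hN n)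
    have h1 : Integrable (fun p : (I → ℝ) × Z =>
        (N n) ^ B.card • k B n (dil B (N n) p.1, p.2)) P :=
      Integrable.mono' (hgi B) (hkm' B n) (Eventually.of_forall fun p => hkb B n p)
    have h2 := integrable_dil B μ (inv_pos.2 hN0) h1
    have h3 : (fun p : (I → ℝ) × Z => (N n) ^ B.card •
        k B n (dil B (N n) (dil B (N n)⁻¹ p.1), p.2)) = fun p => (N n) ^ B.card • k B n p := by
      funext p
      rw [dil_comp, mul_inv_cancel₀ hN0.ne', dil_one]
    simp only [h3] at h2
    have h4 := h2.smul ((N n) ^ B.card)⁻¹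
    refine h4.congr (Eventually.of_forall fun p => ?_)
    simp only [Pi.smul_apply, smul_smul]
    rw [inv_mul_cancel₀ (by positivity), one_smul]
  have hsum : ∀ n, ∫ p, h n p ∂P = ∑ B : Finset I, ∫ p, k B n p ∂P := by
    intro n
    rw [← integral_finsetSum _ fun B _ => hki B n]
    refine integral_congr_ae (Eventually.of_forall fun p => ?_)
    simp only [hk]
    exact (sum_indicator_DB y (N n) (h n) p).symm
  simp only [hsum]
  refine tendsto_finsetSum _ fun B _ => ?_
  have key := scale_limit B μ N (fun n => zero_lt_one.trans_le (hN n))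
    (fun n p => (N n) ^ B.card • k B n p) (hl B) (g B) (hgi B) (hkm' B)
    (fun n => Eventually.of_forall fun p => hkb B n p) (hklim B)
  refine key.congr fun n => ?_
  have hN0 : 0 < N n := zero_lt_one.trans_le (hN n)
  rw [integral_smul, smul_smul, ← mul_pow, inv_mul_cancel₀ hN0.ne', one_pow, one_smul]

end Vale.Agent.P273.H261
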