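import Vale.Agent.P273.H973.Omega

/-!
Pointwise limits of `F ∧ T(θ_1, ..., θ_m)` in the directions `gp (g, i)` (gaps), `bs i` (base):
the power count.
-/

namespace Vale.Agent.P273.H261

open Filter Topology Function
open Vale.Agent.P273.H973

set_option linter.unusedSectionVars false

section Count

variable {I : Type*} [Fintype I] [DecidableEq I] {k m q : ℕ}

/-- The directions of the gaps in `B` and of the base, for a finite set of directions. -/
def PD {D : Type*} [DecidableEq D] (gp : I × Fin 2 → D) (bs : Fin 2 → D) (B : Finset I)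
    (Q : Finset (Fin 2)) : Finset D :=
  ((B ×ˢ (Finset.univ : Finset (Fin 2))).image gp) ∪ (Q.image bs)

theorem card_PD {D : Type*} [DecidableEq D] {gp : I × Fin 2 → D} (hgp : Injective gp)
    {bs : Fin 2 → D} (hbs : Injective bs) (hd : ∀ x i, gp x ≠ bs i) (B : Finset I)
    (Q : Finset (Fin 2)) : (PD gp bs B Q).card = 2 * B.card + Q.card := by
  rw [PD, Finset.card_union_of_disjoint]
  · rw [Finset.card_image_of_injective _ hgp, Finset.card_image_of_injective _ hbs,
      Finset.card_product]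
    simp [mul_comm]
  · rw [Finset.disjoint_left]
    intro a ha hb
    obtain ⟨x, -, hx⟩ := Finset.mem_image.1 ha
    obtain ⟨i, -, hi⟩ := Finset.mem_image.1 hb
    exact hd x i (hx.trans hi.symm)

/-- Directions not taken by `b` are taken by `a`. -/
theorem PD_subset {D : Type*} [DecidableEq D] {gp : I × Fin 2 → D} {bs : Fin 2 → D}
    {a : Fin m → D} {b : Fin k → D} (hcov : ∀ d, (∃ j, a j = d) ∨ ∃ l, b l = d)
    {B : Finset I} {Q : Finset (Fin 2)} (h1 : ∀ g ∈ B, ∀ l i, b l ≠ gp (g, i))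
    (h2 : ∀ i ∈ Q, ∀ l, b l ≠ bs i) : PD gp bs B Q ⊆ Finset.univ.image a := by
  intro d hdd
  rcases Finset.mem_union.1 hdd with h | h
  · obtain ⟨⟨g, i⟩, hg, rfl⟩ := Finset.mem_image.1 h
    rcases hcov (gp (g, i)) with ⟨j, hj⟩ | ⟨l, hl⟩
    · exact Finset.mem_image.2 ⟨j, Finset.mem_univ _, hj⟩
    · exact absurd hl (h1 g (Finset.mem_product.1 hg).1 l i)
  · obtain ⟨i, hi, rfl⟩ := Finset.mem_image.1 h
    rcases hcov (bs i) with ⟨j, hj⟩ | ⟨l, hl⟩
    · exact Finset.mem_image.2 ⟨j, Finset.mem_univ _, hj⟩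
    · exact absurd hl (h2 i hi l)

/-- The one-forms of `A` with a factor `1 / N`. -/
def sml {D : Type*} [DecidableEq D] (bs : Fin 2 → D) (A : Finset (Fin m)) (Yb : Finset (Fin 2))
    (a : Fin m → D) : Finset (Fin m) :=
  A.filter fun j => ∀ i ∈ Yb, a j ≠ bs i

/-- The base directions of `Yb` taken by `b`. -/
def tch {D : Type*} [DecidableEq D] (bs : Fin 2 → D) (Yb : Finset (Fin 2)) (b : Fin k → D) :
    Finset (Fin 2) :=
  Yb.filter fun i => ∃ l, b l = bs i

theorem card_sml {D : Type*} [DecidableEq D] {bs : Fin 2 → D} (hbs : Injective bs)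
    {a : Fin m → D} (ha : Injective a) {b : Fin k → D} (hab : ∀ j l, a j ≠ b l)
    (A : Finset (Fin m)) (Yb : Finset (Fin 2)) :
    A.card + (tch bs Yb b).card ≤ (sml bs A Yb a).card + Yb.card := by
  set R : Finset (Fin m) := A.filter fun j => ¬ ∀ i ∈ Yb, a j ≠ bs i with hR
  have hsum : (sml bs A Yb a).card + R.card = A.card :=
    Finset.card_filter_add_card_filter_not _
  have hsum2 : (tch bs Yb b).card + (Yb.filter fun i => ¬ ∃ l, b l = bs i).card = Yb.card :=
    Finset.card_filter_add_card_filter_not _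
  have hRY : (R.image a) ⊆ (Yb.filter fun i => ¬ ∃ l, b l = bs i).image bs := by
    intro d hdd
    obtain ⟨j, hj, rfl⟩ := Finset.mem_image.1 hdd
    have := (Finset.mem_filter.1 hj).2
    push Not at this
    obtain ⟨i, hi, hij⟩ := this
    refine Finset.mem_image.2 ⟨i, Finset.mem_filter.2 ⟨hi, ?_⟩, hij.symm⟩
    rintro ⟨l, hl⟩
    exact hab j l (hij.trans hl.symm)
  have h1 := Finset.card_le_card hRY
  rw [Finset.card_image_of_injective _ ha, Finset.card_image_of_injective _ hbs] at h1
  omega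

theorem card_sml_lt {D : Type*} [DecidableEq D] {bs : Fin 2 → D} (hbs : Injective bs)
    {a : Fin m → D} (ha : Injective a)
    (A : Finset (Fin m)) (Yb : Finset (Fin 2)) (h : ∃ j, j ∉ A ∧ ∃ i ∈ Yb, a j = bs i) :
    A.card + 1 ≤ (sml bs A Yb a).card + Yb.card := by
  obtain ⟨j, hj, i, hi, hij⟩ := h
  set R : Finset (Fin m) := A.filter fun j => ¬ ∀ i ∈ Yb, a j ≠ bs i with hR
  have hsum : (sml bs A Yb a).card + R.card = A.card :=
    Finset.card_filter_add_card_filter_not _
  have hRY : (R.image a) ⊆ Yb.image bs := by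
    intro d hdd
    obtain ⟨j, hj, rfl⟩ := Finset.mem_image.1 hdd
    have := (Finset.mem_filter.1 hj).2
    push Not at this
    obtain ⟨i, hi, hij⟩ := this
    exact Finset.mem_image.2 ⟨i, hi, hij.symm⟩
  have hne : bs i ∉ R.image a := by
    intro hmem
    obtain ⟨j', hj', hj''⟩ := Finset.mem_image.1 hmem
    have : j' = j := ha (hj''.trans hij.symm)
    exact hj (this ▸ (Finset.mem_filter.1 hj').1)
  have h2 : (R.image a) ⊂ Yb.image bs :=
    (Finset.ssubset_iff_of_subset hRY).2 ⟨bs i, Finset.mem_image_of_mem _ hi, hne⟩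
  have h3 := Finset.card_lt_card h2
  rw [Finset.card_image_of_injective _ ha, Finset.card_image_of_injective _ hbs] at h3
  omega

theorem card_sml_eq {D : Type*} [DecidableEq D] {bs : Fin 2 → D} (hbs : Injective bs)
    {a : Fin m → D} (ha : Injective a) (A : Finset (Fin m)) (Yb : Finset (Fin 2))
    (hY : Yb.image bs ⊆ Finset.univ.image a) (hno : ¬ ∃ j, j ∉ A ∧ ∃ i ∈ Yb, a j = bs i) :
    (sml bs A Yb a).card + Yb.card ≤ A.card := by
  set R : Finset (Fin m) := A.filter fun j => ¬ ∀ i ∈ Yb, a j ≠ bs i with hR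
  have hsum : (sml bs A Yb a).card + R.card = A.card :=
    Finset.card_filter_add_card_filter_not _
  have hRY : Yb.image bs ⊆ (R.image a) := by
    intro d hdd
    obtain ⟨j, -, hj⟩ := Finset.mem_image.1 (hY hdd)
    obtain ⟨i, hi, rfl⟩ := Finset.mem_image.1 hdd
    refine Finset.mem_image.2 ⟨j, Finset.mem_filter.2 ⟨?_, ?_⟩, hj⟩
    · by_contra hjA
      exact hno ⟨j, hjA, i, hi, hj⟩
    · push Not
      exact ⟨i, hi, hj⟩
  have h1 := Finset.card_le_card hRY
  rw [Finset.card_image_of_injective _ ha, Finset.card_image_of_injective _ hbs] at h1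
  omega

theorem prod_le_sml {D : Type*} [DecidableEq D] {bs : Fin 2 → D} {A : Finset (Fin m)}
    {Yb : Finset (Fin 2)} (a : Fin m → D) {K N : ℝ}
    (t : Fin m → ℝ) (h1 : ∀ j, |t j| ≤ K)
    (h2 : ∀ j ∈ A, (∀ i ∈ Yb, a j ≠ bs i) → |t j| ≤ K / N) :
    |∏ j, t j| ≤ K ^ m * (N⁻¹) ^ (sml bs A Yb a).card := by
  rw [Finset.abs_prod]
  have h3 : ∀ j, |t j| ≤ K * (if j ∈ sml bs A Yb a then N⁻¹ else 1) := by
    intro j
    by_cases hj : j ∈ sml bs A Yb a
    · rw [if_pos hj]
      have := Finset.mem_filter.1 hj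
      exact (h2 j this.1 this.2).trans (le_of_eq (div_eq_mul_inv _ _))
    · rw [if_neg hj, mul_one]
      exact h1 j
  refine (Finset.prod_le_prod (fun j _ => abs_nonneg _) fun j _ => h3 j).trans (le_of_eq ?_)
  rw [Finset.prod_mul_distrib, Finset.prod_const, Finset.card_univ, Fintype.card_fin,
    Finset.prod_ite, Finset.prod_const, Finset.prod_const_one, mul_one]
  congr 3
  ext j; simp

/-- **Scalar pointwise limit** for one term. -/
theorem term_limit {ν : Type*} {L : Filter ν} {D : Type*} [DecidableEq D] (hm : m = 2 * q + 2)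
    {gp : I × Fin 2 → D} (hgp : Injective gp)
    {bs : Fin 2 → D} (hbs : Injective bs) (hd : ∀ x i, gp x ≠ bs i)
    {a : Fin m → D} (ha : Injective a) {b : Fin k → D} (hab : ∀ j l, a j ≠ b l)
    (hcov : ∀ d, (∃ j, a j = d) ∨ ∃ l, b l = d)
    (A : Finset (Fin m)) (Yb : Finset (Fin 2)) (hA : q + Yb.card ≤ A.card)
    (B : Finset I) {N : ν → ℝ} (hNt : Tendsto N L atTop)
    (f : ν → ℝ) (t : ν → Fin m → ℝ) (f' : ℝ) (t' : Fin m → ℝ) {K : ℝ} (hK : 0 ≤ K)
    (hf : ∀ᶠ n in L, |f n| ≤ K) (h1 : ∀ j, ∀ᶠ n in L, |t n j| ≤ K)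
    (h2 : ∀ j ∈ A, (∀ i ∈ Yb, a j ≠ bs i) → ∀ᶠ n in L, |t n j| ≤ K / N n)
    (hT : (∃ l, (∃ g ∈ B, ∃ i, b l = gp (g, i)) ∨ ∃ i, i ∉ Yb ∧ b l = bs i) →
      Tendsto (fun n => (N n) ^ Fintype.card I * f n) L (𝓝 0))
    (hf0 : B.card = q → (∃ l, (∃ g ∈ B, ∃ i, b l = gp (g, i)) ∨ ∃ i, b l = bs i) → f' = 0)
    (ht0 : B.card = q → ∀ j, j ∉ A → (∃ i ∈ Yb, a j = bs i) → t' j = 0)
    (hfl : B.card = q → (∀ g ∈ B, ∀ l i, b l ≠ gp (g, i)) → (∀ l i, b l ≠ bs i) →
      Tendsto f L (𝓝 f'))
    (htl : B.card = q → ∀ j, a j ∈ PD gp bs B Finset.univ → (j ∈ A ∨ ∀ i ∈ Yb, a j ≠ bs i) →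
      Tendsto (fun n => (if j ∈ A ∧ ∀ i ∈ Yb, a j ≠ bs i then N n else 1) * t n j) L
        (𝓝 (t' j))) :
    Tendsto (fun n => (N n) ^ B.card * ((∏ j, t n j) * f n)) L
      (𝓝 (if B.card = q ∧ A.card = q + Yb.card then (∏ j, t' j) * f' else 0)) := by
  have hN : ∀ᶠ n in L, 1 ≤ N n := hNt.eventually_ge_atTop 1
  have h1' : ∀ᶠ n in L, ∀ j, |t n j| ≤ K := Filter.eventually_all.2 h1
  have h2' : ∀ᶠ n in L, ∀ j ∈ A, (∀ i ∈ Yb, a j ≠ bs i) → |t n j| ≤ K / N n := by
    refine Filter.eventually_all.2 fun j => ?_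
    by_cases hj : j ∈ A ∧ ∀ i ∈ Yb, a j ≠ bs i
    · filter_upwards [h2 j hj.1 hj.2] with n hn _ _ using hn
    · exact Filter.Eventually.of_forall fun n h3 h4 => absurd ⟨h3, h4⟩ hj
  have hKm : (0 : ℝ) ≤ K ^ m := pow_nonneg hK _
  have hinv : Tendsto (fun n => (N n)⁻¹) L (𝓝 0) := hNt.inv_tendsto_atTop
  -- the basic bound
  have hbd : ∀ᶠ n in L, |(N n) ^ B.card * ((∏ j, t n j) * f n)| ≤
      K ^ m * ((N n) ^ B.card * ((N n)⁻¹) ^ (sml bs A Yb a).card) * |f n| := by
    filter_upwards [hN, h1', h2'] with n hN h1 h2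
    have hN0 : 0 < N n := zero_lt_one.trans_le hN
    rw [abs_mul, abs_mul, abs_of_nonneg (by positivity)]
    have := prod_le_sml (bs := bs) (A := A) (Yb := Yb) a (t n) h1 h2
    calc N n ^ B.card * (|∏ j, t n j| * |f n|)
        ≤ N n ^ B.card * (K ^ m * ((N n)⁻¹) ^ (sml bs A Yb a).card * |f n|) := by gcongr
      _ = _ := by ring
  -- vanishing from the count of small factors
  have hzero : B.card < (sml bs A Yb a).card →
      Tendsto (fun n => (N n) ^ B.card * ((∏ j, t n j) * f n)) L (𝓝 0) := by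
    intro hlt
    have h3 : ∀ᶠ n in L, ‖(N n) ^ B.card * ((∏ j, t n j) * f n)‖ ≤ K ^ m * K * (N n)⁻¹ := by
      filter_upwards [hN, hbd, hf] with n hN hbd hf
      have hN0 : 0 < N n := zero_lt_one.trans_le hN
      have hi0 : 0 ≤ (N n)⁻¹ := inv_nonneg.2 hN0.le
      have hi1 : (N n)⁻¹ ≤ 1 := inv_le_one_of_one_le₀ hN
      have h4 : (N n) ^ B.card * ((N n)⁻¹) ^ (sml bs A Yb a).card ≤ (N n)⁻¹ := by
        calc (N n) ^ B.card * ((N n)⁻¹) ^ (sml bs A Yb a).card
            ≤ (N n) ^ B.card * ((N n)⁻¹) ^ (B.card + 1) :=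
              mul_le_mul_of_nonneg_left (pow_le_pow_of_le_one hi0 hi1 hlt) (by positivity)
          _ = (N n * (N n)⁻¹) ^ B.card * (N n)⁻¹ := by rw [mul_pow, pow_succ]; ring
          _ = (N n)⁻¹ := by rw [mul_inv_cancel₀ hN0.ne', one_pow, one_mul]
      rw [Real.norm_eq_abs]
      refine hbd.trans ?_
      calc K ^ m * ((N n) ^ B.card * ((N n)⁻¹) ^ (sml bs A Yb a).card) * |f n|
          ≤ K ^ m * (N n)⁻¹ * K := by
            refine mul_le_mul (mul_le_mul_of_nonneg_left h4 hKm) hf (abs_nonneg _)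
              (mul_nonneg hKm hi0)
        _ = K ^ m * K * (N n)⁻¹ := by ring
    refine squeeze_zero_norm' h3 ?_
    simpa using hinv.const_mul (K ^ m * K)
  have hif : ∀ {X : ℝ}, (B.card = q → X = 0) →
      (if B.card = q ∧ A.card = q + Yb.card then X else 0) = 0 := by
    intro X hX
    split_ifs with h
    · exact hX h.1
    · rfl
  by_cases hc1 : ∃ l, (∃ g ∈ B, ∃ i, b l = gp (g, i)) ∨ ∃ i, i ∉ Yb ∧ b l = bs i
  · -- exponentially small
    have hf'0 : B.card = q → (∏ j, t' j) * f' = 0 := by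
      intro hq
      rw [hf0 hq ?_, mul_zero]
      obtain ⟨l, hl⟩ := hc1
      refine ⟨l, hl.imp id ?_⟩
      rintro ⟨i, -, hi⟩
      exact ⟨i, hi⟩
    have h3 : ∀ᶠ n in L, ‖(N n) ^ B.card * ((∏ j, t n j) * f n)‖ ≤
        K ^ m * |(N n) ^ Fintype.card I * f n| := by
      filter_upwards [hN, hbd] with n hN hbd
      have hN0 : 0 < N n := zero_lt_one.trans_le hN
      have hi0 : 0 ≤ (N n)⁻¹ := inv_nonneg.2 hN0.le
      have hi1 : (N n)⁻¹ ≤ 1 := inv_le_one_of_one_le₀ hN
      rw [Real.norm_eq_abs]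
      refine hbd.trans ?_
      have h5 : ((N n)⁻¹) ^ (sml bs A Yb a).card ≤ 1 := pow_le_one₀ hi0 hi1
      have h6 : (N n) ^ B.card ≤ (N n) ^ Fintype.card I :=
        pow_le_pow_right₀ hN (Finset.card_le_univ _)
      rw [abs_mul, abs_of_nonneg (show 0 ≤ (N n) ^ Fintype.card I by positivity)]
      calc K ^ m * ((N n) ^ B.card * ((N n)⁻¹) ^ (sml bs A Yb a).card) * |f n|
          ≤ K ^ m * ((N n) ^ Fintype.card I * 1) * |f n| := by gcongr
        _ = _ := by ring
    rw [hif hf'0]
    refine squeeze_zero_norm' h3 ?_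
    simpa using (hT hc1).abs.const_mul (K ^ m)
  · push Not at hc1
    have hb1 : ∀ g ∈ B, ∀ l i, b l ≠ gp (g, i) := fun g hg l i => (hc1 l).1 g hg i
    have hb2 : ∀ i, i ∉ Yb → ∀ l, b l ≠ bs i := fun i hi l => (hc1 l).2 i hi
    by_cases htc : (tch bs Yb b).card = 0
    · -- `b` avoids everything
      have hb3 : ∀ l i, b l ≠ bs i := by
        intro l i hli
        by_cases hi : i ∈ Yb
        · have : i ∈ tch bs Yb b := Finset.mem_filter.2 ⟨hi, l, hli⟩
          rw [Finset.card_eq_zero.1 htc] at this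
          simp at this
        · exact hb2 i hi l hli
      have hsub : PD gp bs B Finset.univ ⊆ Finset.univ.image a :=
        PD_subset hcov hb1 fun i _ l => hb3 l i
      have hcard := Finset.card_le_card hsub
      rw [card_PD hgp hbs hd, Finset.card_image_of_injective _ ha] at hcard
      simp only [Finset.card_univ, Fintype.card_fin] at hcard
      have hBq : B.card ≤ q := by omega
      have hs := card_sml hbs ha hab A Yb
      rcases hBq.lt_or_eq with hlt | heq
      · rw [if_neg (fun h => hlt.ne h.1)]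
        exact hzero (by omega)
      · by_cases hAq : A.card = q + Yb.card
        · rw [if_pos ⟨heq, hAq⟩]
          by_cases hno : ∃ j, j ∉ A ∧ ∃ i ∈ Yb, a j = bs i
          · obtain ⟨j, hj, hi⟩ := id hno
            have : ∏ j, t' j = 0 := Finset.prod_eq_zero (Finset.mem_univ j) (ht0 heq j hj hi)
            rw [this, zero_mul]
            have h3 := card_sml_lt hbs ha A Yb hno
            exact hzero (by omega)
          · have himg : PD gp bs B Finset.univ = Finset.univ.image a := by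
              refine Finset.eq_of_subset_of_card_le hsub ?_
              rw [card_PD hgp hbs hd, Finset.card_image_of_injective _ ha]
              simp only [Finset.card_univ, Fintype.card_fin]
              omega
            have hYs : Yb.image bs ⊆ Finset.univ.image a := by
              refine subset_trans ?_ hsub
              intro d hdd
              obtain ⟨i, -, rfl⟩ := Finset.mem_image.1 hdd
              exact Finset.mem_union_right _ (Finset.mem_image_of_mem _ (Finset.mem_univ i))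
            have h4 := card_sml_eq hbs ha A Yb hYs hno
            have hcs : (sml bs A Yb a).card = B.card := by omega
            have heq2 : ∀ n, (N n) ^ B.card * ((∏ j, t n j) * f n) =
                (∏ j, ((if j ∈ A ∧ ∀ i ∈ Yb, a j ≠ bs i then N n else 1) * t n j)) * f n := by
              intro n
              rw [Finset.prod_mul_distrib]
              have hfil : (Finset.univ.filter fun j : Fin m => j ∈ A ∧ ∀ i ∈ Yb, a j ≠ bs i) =
                  sml bs A Yb a := by
                ext j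
                simp [sml]
              rw [Finset.prod_ite, Finset.prod_const, Finset.prod_const_one, mul_one, hfil, hcs]
              ring
            simp only [heq2]
            refine Tendsto.mul (tendsto_finsetProd _ fun j _ => ?_) (hfl heq hb1 hb3)
            refine htl heq j ?_ ?_
            · rw [himg]
              exact Finset.mem_image_of_mem _ (Finset.mem_univ j)
            · by_contra hcon
              push Not at hcon
              obtain ⟨hjA, i, hi, hij⟩ := hcon
              exact hno ⟨j, hjA, i, hi, hij⟩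
        · rw [if_neg (fun h => hAq h.2)]
          exact hzero (by omega)
    · -- `b` touches `Yb` only
      have hf'0 : B.card = q → (∏ j, t' j) * f' = 0 := by
        intro hq
        obtain ⟨i, hi⟩ := Finset.card_pos.1 (Nat.pos_of_ne_zero htc)
        obtain ⟨-, l, hl⟩ := Finset.mem_filter.1 hi
        rw [hf0 hq ⟨l, Or.inr ⟨i, hl⟩⟩, mul_zero]
      have hsub : PD gp bs B (Finset.univ \ tch bs Yb b) ⊆ Finset.univ.image a := by
        refine PD_subset hcov hb1 fun i hi l hli => ?_
        have hi' := (Finset.mem_sdiff.1 hi).2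
        by_cases hiY : i ∈ Yb
        · exact hi' (Finset.mem_filter.2 ⟨hiY, l, hli⟩)
        · exact hb2 i hiY l hli
      have hcard := Finset.card_le_card hsub
      have h7 : (Finset.univ \ tch bs Yb b).card = 2 - (tch bs Yb b).card := by
        rw [Finset.card_sdiff_of_subset (Finset.subset_univ _)]
        simp
      rw [card_PD hgp hbs hd, Finset.card_image_of_injective _ ha, h7] at hcard
      simp only [Finset.card_univ, Fintype.card_fin] at hcard
      have hs := card_sml hbs ha hab A Yb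
      have h8 : (tch bs Yb b).card ≤ 2 := by
        have := Finset.card_le_univ (tch bs Yb b)
        simpa using this
      rw [hif hf'0]
      exact hzero (by omega)

end Count

end Vale.Agent.P273.H261
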