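import Vale.Agent.P273.H261.Point
import Vale.Agent.P273.H254.Det

/-!
Pointwise limit of `N ^ |B| • (F ∧ T(θ_1, ..., θ_m))` on a frame: zero if `|B| ≠ q`, the value of
the limit functional if `|B| = q`.
-/

namespace Vale.Agent.P273.H261

open Filter Topology Function Equiv
open Vale.Agent.P273.H973
open Vale.Agent.P273.H254 (DT)

set_option linter.unusedSectionVars false

/-! ## The wedge product on the level of values -/

/-- The value of the wedge product in terms of the values on the directions. -/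
noncomputable def wv {H : Type*} {k m : ℕ} (Fv : (Fin k → Fin (k + m)) → ℝ) (T : (Fin m → H) → ℝ)
    (t : Fin m → Fin (k + m) → H) : ℝ :=
  ((k.factorial : ℝ)⁻¹) * ∑ σ : Perm (Fin (k + m)), Perm.sign σ •
    (Fv (fun i => σ (Fin.castAdd m i)) * T (fun j => t j (σ (Fin.natAdd k j))))

theorem wedgeT_eq_wv {E H : Type*} [NormedAddCommGroup E] [NormedSpace ℝ E]
    [NormedAddCommGroup H] [NormedSpace ℝ H] {k m : ℕ} (F : E [⋀^Fin k]→L[ℝ] ℝ)
    (T : ContinuousMultilinearMap ℝ (fun _ : Fin m => H) ℝ) (θ : Fin m → E →L[ℝ] H)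
    (w : Fin (k + m) → E) :
    wedgeT F T θ w = wv (fun x => F (fun i => w (x i))) (fun x => T x) (fun j d => θ j (w d)) := by
  rw [wedgeT_apply, wv, smul_eq_mul]
  rfl

/-- **Split evaluation on the level of values.** -/
theorem wv_split {H : Type*} {p q : ℕ} (Fv : (Fin p → Fin (p + q)) → ℝ) (T : (Fin q → H) → ℝ)
    (t : Fin q → Fin (p + q) → H) (π : Perm (Fin (p + q)))
    (halt : ∀ a : Perm (Fin p), Fv (fun i => π (Fin.castAdd q (a i))) =
      Perm.sign a • Fv (fun i => π (Fin.castAdd q i)))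
    (hd : ∀ x : Fin p → Fin (p + q), Injective x → (∃ i j, x i = π (Fin.natAdd p j)) → Fv x = 0) :
    wv Fv T t = Perm.sign π • (Fv (fun i => π (Fin.castAdd q i)) *
      DT T t (fun j => π (Fin.natAdd p j))) := by
  classical
  rw [wv]
  obtain ⟨g, hg⟩ : ∃ g : Perm (Fin (p + q)) → ℝ, ∀ σ, g σ = Perm.sign (π * σ) •
        (Fv (fun i => π (σ (Fin.castAdd q i))) * T (fun j => t j (π (σ (Fin.natAdd p j))))) :=
    ⟨_, fun _ => rfl⟩
  have h0 : ∑ σ : Perm (Fin (p + q)), Perm.sign σ •
        (Fv (fun i => σ (Fin.castAdd q i)) * T (fun j => t j (σ (Fin.natAdd p j)))) =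
      ∑ σ, g σ := by
    rw [← Equiv.sum_comp (Equiv.mulLeft π)]
    refine Finset.sum_congr rfl fun σ _ => ?_
    rw [hg]
    rfl
  have h1 : ∑ σ, g σ =
      ∑ ab : Perm (Fin p) × Perm (Fin q),
        g (finSumFinEquiv.permCongr (Perm.sumCongrHom (Fin p) (Fin q) ab)) := by
    symm
    refine Fintype.sum_of_injective
      (fun ab : Perm (Fin p) × Perm (Fin q) =>
        finSumFinEquiv.permCongr (Perm.sumCongrHom (Fin p) (Fin q) ab)) ?_ _ _ ?_ ?_
    · exact finSumFinEquiv.permCongr.injective.comp Perm.sumCongrHom_injective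
    · intro σ hσ
      by_contra hne
      apply hσ
      have hF : Fv (fun i => π (σ (Fin.castAdd q i))) ≠ 0 := fun h0 => hne (by
        rw [hg, h0, zero_mul, smul_zero])
      have hm : Set.MapsTo (finSumFinEquiv.symm.permCongr σ)
          (Set.range (Sum.inl : Fin p → Fin p ⊕ Fin q))
          (Set.range (Sum.inl : Fin p → Fin p ⊕ Fin q)) := by
        rintro _ ⟨i, rfl⟩
        have h2 : finSumFinEquiv.symm.permCongr σ (Sum.inl i) =
            finSumFinEquiv.symm (σ (Fin.castAdd q i)) := by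
          simp [Equiv.permCongr_apply]
        rw [h2]
        rcases h3 : finSumFinEquiv.symm (σ (Fin.castAdd q i)) with a | b
        · exact ⟨a, rfl⟩
        · exfalso
          apply hF
          refine hd (fun i => π (σ (Fin.castAdd q i)))
            (fun i j hij => Fin.castAdd_injective p q (σ.injective (π.injective hij))) ⟨i, b, ?_⟩
          have h4 := congrArg finSumFinEquiv h3
          rw [Equiv.apply_symm_apply, finSumFinEquiv_apply_right] at h4
          rw [h4]
      obtain ⟨ab, hab⟩ := Perm.mem_sumCongrHom_range_of_perm_mapsTo_inl hm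
      refine ⟨ab, ?_⟩
      simp only
      rw [hab]
      ext x
      simp [Equiv.permCongr_apply]
    · intro ab
      rfl
  rw [h0, h1]
  have h2 : ∀ ab : Perm (Fin p) × Perm (Fin q),
      g (finSumFinEquiv.permCongr (Perm.sumCongrHom (Fin p) (Fin q) ab)) =
      Perm.sign π • (Fv (fun i => π (Fin.castAdd q i)) * (Perm.sign ab.2 •
        T (fun j => t j (π (Fin.natAdd p (ab.2 j)))))) := by
    rintro ⟨a, b⟩
    rw [hg, Perm.sign_mul, Perm.sign_permCongr]
    have e0 : Perm.sumCongrHom (Fin p) (Fin q) (a, b) = Perm.sumCongr a b := rfl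
    have e1 : ∀ i : Fin p, finSumFinEquiv.permCongr (Perm.sumCongrHom (Fin p) (Fin q) (a, b))
        (Fin.castAdd q i) = Fin.castAdd q (a i) := fun i => by
      simp [Equiv.permCongr_apply]
    have e2 : ∀ j : Fin q, finSumFinEquiv.permCongr (Perm.sumCongrHom (Fin p) (Fin q) (a, b))
        (Fin.natAdd p j) = Fin.natAdd p (b j) := fun j => by
      simp [Equiv.permCongr_apply]
    simp only [e1, e2]
    rw [e0, Perm.sign_sumCongr, halt a]
    rcases Int.units_eq_one_or (Perm.sign a) with h | h <;>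
      rcases Int.units_eq_one_or (Perm.sign b) with h' | h' <;>
      rcases Int.units_eq_one_or (Perm.sign π) with h'' | h'' <;> simp [h, h', h'']
  simp only [h2]
  rw [Fintype.sum_prod_type]
  simp only
  rw [Finset.sum_const, Finset.card_univ, Fintype.card_perm,
    Fintype.card_fin, ← Nat.cast_smul_eq_nsmul ℝ, smul_eq_mul, ← mul_assoc, inv_mul_cancel₀
    (Nat.cast_ne_zero.2 p.factorial_ne_zero), one_mul, ← Finset.smul_sum, ← Finset.mul_sum]
  rfl

/-- Expansion of a multilinear map in coordinates. -/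
theorem map_coord {H κ : Type*} [AddCommGroup H] [Module ℝ H] [Fintype κ] {m : ℕ}
    (c : κ → H → ℝ) (b : κ → H) (hcb : ∀ x, x = ∑ i, c i x • b i)
    (T : MultilinearMap ℝ (fun _ : Fin m => H) ℝ) (v : Fin m → H) :
    T v = ∑ τ : Fin m → κ, (∏ j, c (τ j) (v j)) * T (fun j => b (τ j)) := by
  classical
  have h1 : v = fun j => ∑ i, c i (v j) • b i := funext fun j => hcb (v j)
  have h2 : T v = T (fun j => ∑ i, c i (v j) • b i) := congrArg T h1
  rw [h2, T.map_sum (g := fun j i => c i (v j) • b i)]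
  refine Finset.sum_congr rfl fun τ _ => ?_
  rw [T.map_smul_univ (fun j => c (τ j) (v j)) (fun j => b (τ j)), smul_eq_mul]

open Classical in
/-- The limit of the values of the form: `F' ` on the directions `π (castAdd i)`. -/
noncomputable def limF {k m : ℕ} (π : Perm (Fin (k + m))) (F' : ℝ) (x : Fin k → Fin (k + m)) : ℝ :=
  if h : ∃ a : Perm (Fin k), x = fun i => π (Fin.castAdd m (a i)) then
    ((Perm.sign h.choose : ℤˣ) : ℤ) * F' else 0

theorem limF_eq {k m : ℕ} (π : Perm (Fin (k + m))) (F' : ℝ) (a : Perm (Fin k)) :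
    limF π F' (fun i => π (Fin.castAdd m (a i))) = ((Perm.sign a : ℤˣ) : ℤ) * F' := by
  have h : ∃ a' : Perm (Fin k), (fun i => π (Fin.castAdd m (a i))) =
      fun i => π (Fin.castAdd m (a' i)) := ⟨a, rfl⟩
  have h2 : h.choose = a := by
    ext i
    have := congrFun h.choose_spec i
    rw [← Fin.castAdd_injective k m (π.injective this)]
  rw [limF, dif_pos h, h2]

theorem limF_zero {k m : ℕ} (π : Perm (Fin (k + m))) (F' : ℝ) (x : Fin k → Fin (k + m))
    (h : ∃ i j, x i = π (Fin.natAdd k j)) : limF π F' x = 0 := by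
  rw [limF, dif_neg]
  rintro ⟨a, rfl⟩
  obtain ⟨i, j, hij⟩ := h
  have h1 := congrArg Fin.val (π.injective hij)
  simp at h1
  omega

/-- An injective family of directions that avoids `π (natAdd j)` is a permutation. -/
theorem exists_perm {k m : ℕ} (π : Perm (Fin (k + m))) (x : Fin k → Fin (k + m)) (hx : Injective x)
    (h : ∀ i j, x i ≠ π (Fin.natAdd k j)) :
    ∃ a : Perm (Fin k), x = fun i => π (Fin.castAdd m (a i)) := by
  have h1 : ∀ i, ∃ l, x i = π (Fin.castAdd m l) := by
    intro i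
    obtain ⟨c, hc⟩ : ∃ c, c = π.symm (x i) := ⟨_, rfl⟩
    have hc' : π c = x i := by rw [hc, Equiv.apply_symm_apply]
    induction c using Fin.addCases with
    | left l => exact ⟨l, hc'.symm⟩
    | right j => exact absurd hc'.symm (h i j)
  choose a ha using h1
  have hai : Injective a := by
    intro i j hij
    exact hx (by rw [ha i, ha j, hij])
  refine ⟨Equiv.ofBijective a (Finite.injective_iff_bijective.1 hai), ?_⟩
  funext i
  rw [ha i]
  rfl

theorem card_nat {k m : ℕ} (σ : Perm (Fin (k + m))) :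
    (Finset.univ.image (fun j : Fin m => σ (Fin.natAdd k j))).card = m := by
  have h : Injective (fun j : Fin m => σ (Fin.natAdd k j)) :=
    σ.injective.comp (Fin.natAdd_injective m k)
  rw [Finset.card_image_of_injective _ h, Finset.card_univ, Fintype.card_fin]

/-- If all directions `σ (natAdd j)` are in `PD`, they are exactly `PD`. -/
theorem image_eq_PD {I : Type*} [Fintype I] [DecidableEq I] {k m q : ℕ} (hm : m = 2 * q + 2)
    {gp : I × Fin 2 → Fin (k + m)} (hgp : Injective gp) {bs : Fin 2 → Fin (k + m)}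
    (hbs : Injective bs) (hd : ∀ x i, gp x ≠ bs i) {B : Finset I} (hq : B.card = q)
    (σ : Perm (Fin (k + m))) (h : ∀ j, σ (Fin.natAdd k j) ∈ PD gp bs B Finset.univ) :
    Finset.univ.image (fun j : Fin m => σ (Fin.natAdd k j)) = PD gp bs B Finset.univ := by
  refine Finset.eq_of_subset_of_card_le ?_ ?_
  · intro d hdd
    obtain ⟨j, -, rfl⟩ := Finset.mem_image.1 hdd
    exact h j
  · rw [card_PD hgp hbs hd, card_nat]
    simp only [Finset.card_univ, Fintype.card_fin]
    omega

/-- If no direction of `PD` is a `σ (castAdd l)`, the directions `σ (natAdd j)` are `PD`. -/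
theorem image_eq_PD' {I : Type*} [Fintype I] [DecidableEq I] {k m q : ℕ} (hm : m = 2 * q + 2)
    {gp : I × Fin 2 → Fin (k + m)} (hgp : Injective gp) {bs : Fin 2 → Fin (k + m)}
    (hbs : Injective bs) (hd : ∀ x i, gp x ≠ bs i) {B : Finset I} (hq : B.card = q)
    (σ : Perm (Fin (k + m))) (h : ∀ l, σ (Fin.castAdd m l) ∉ PD gp bs B Finset.univ) :
    Finset.univ.image (fun j : Fin m => σ (Fin.natAdd k j)) = PD gp bs B Finset.univ := by
  symm
  refine Finset.eq_of_subset_of_card_le ?_ ?_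
  · intro d hdd
    obtain ⟨cc, rfl⟩ := σ.surjective d
    induction cc using Fin.addCases with
    | left l => exact absurd hdd (h l)
    | right j => exact Finset.mem_image.2 ⟨j, Finset.mem_univ _, rfl⟩
  · rw [card_PD hgp hbs hd, card_nat]
    simp only [Finset.card_univ, Fintype.card_fin]
    omega

/-- **Pointwise limit of the wedge product on the level of values.** The power count: `F` decays
faster than every power if it takes a direction of a gap of `B` or a base direction outside `Yb`,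
and is bounded otherwise; the components `sm` of the legs have a factor `1 / N` on all directions
except `bs i`, `i ∈ Yb`; `T` needs at least `q + |Yb|` components in `sm`. -/
theorem wv_limit {ν : Type*} {L : Filter ν} {I : Type*} [Fintype I] [DecidableEq I]
    {H κ : Type*} [AddCommGroup H] [Module ℝ H] [Fintype κ] [DecidableEq κ] {k m q : ℕ}
    (hm : m = 2 * q + 2)
    {gp : I × Fin 2 → Fin (k + m)} (hgp : Injective gp) {bs : Fin 2 → Fin (k + m)}
    (hbs : Injective bs) (hd : ∀ x i, gp x ≠ bs i) (Yb : Finset (Fin 2)) (B : Finset I)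
    {N : ν → ℝ} (hN : Tendsto N L atTop)
    (c : κ → H → ℝ) (b : κ → H) (hcb : ∀ x, x = ∑ i, c i x • b i) (sm : Finset κ)
    (T : MultilinearMap ℝ (fun _ : Fin m => H) ℝ)
    (hT : ∀ τ : Fin m → κ, (Finset.univ.filter fun j => τ j ∈ sm).card < q + Yb.card →
      T (fun j => b (τ j)) = 0)
    (F : ν → (Fin k → Fin (k + m)) → ℝ) (t : ν → Fin m → Fin (k + m) → H) {K : ℝ} (hK : 0 ≤ K)
    (hF : ∀ x, Injective x → ∀ᶠ n in L, |F n x| ≤ K)
    (ht : ∀ j d i, ∀ᶠ n in L, |c i (t n j d)| ≤ K)
    (hts : ∀ j d, (∀ y ∈ Yb, d ≠ bs y) → ∀ i ∈ sm, ∀ᶠ n in L, |c i (t n j d)| ≤ K / N n)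
    (hF0 : ∀ x, Injective x →
      (∃ l, (∃ g ∈ B, ∃ i, x l = gp (g, i)) ∨ ∃ i, i ∉ Yb ∧ x l = bs i) →
      Tendsto (fun n => (N n) ^ Fintype.card I * F n x) L (𝓝 0))
    (π : Perm (Fin (k + m))) (F' : ℝ) (t' : Fin m → Fin (k + m) → H)
    (Sd : Finset (Fin (k + m)))
    (hπ : B.card = q → ∀ j, π (Fin.natAdd k j) ∈ PD gp bs B Finset.univ)
    (halt : B.card = q → ∀ a : Perm (Fin k), ∀ᶠ n in L, F n (fun i => π (Fin.castAdd m (a i))) =
      Perm.sign a • F n (fun i => π (Fin.castAdd m i)))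
    (hFl : B.card = q → Tendsto (fun n => F n (fun i => π (Fin.castAdd m i))) L (𝓝 F'))
    (hSd : B.card = q → (PD gp bs B Finset.univ ∩ Sd).card = q + Yb.card)
    (hYS : ∀ y ∈ Yb, bs y ∈ Sd)
    (htl : B.card = q → ∀ j, ∀ d ∈ PD gp bs B Finset.univ, ∀ i,
      (i ∈ sm ∨ ∀ y ∈ Yb, d ≠ bs y) →
      Tendsto (fun n => (if i ∈ sm ∧ ∀ y ∈ Yb, d ≠ bs y then N n else 1) * c i (t n j d)) L
        (𝓝 (c i (t' j d))))
    (hpure : B.card = q → ∀ j, ∀ d ∈ PD gp bs B Finset.univ, ∀ i, c i (t' j d) ≠ 0 →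
      (i ∈ sm ↔ d ∈ Sd)) :
    Tendsto (fun n => (N n) ^ B.card * wv (F n) (fun x => T x) (t n)) L
      (𝓝 (if B.card = q then
        Perm.sign π • (F' * DT (fun x => T x) t' (fun j => π (Fin.natAdd k j))) else 0)) := by
  classical
  -- one term of the expansion
  have hterm : ∀ (σ : Perm (Fin (k + m))) (τ : Fin m → κ),
      Tendsto (fun n => ((N n) ^ B.card * ((∏ j, c (τ j) (t n j (σ (Fin.natAdd k j)))) *
        F n (fun i => σ (Fin.castAdd m i)))) * T (fun j => b (τ j))) L
        (𝓝 ((if B.card = q ∧ (Finset.univ.filter fun j => τ j ∈ sm).card = q + Yb.card then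
          (∏ j, c (τ j) (t' j (σ (Fin.natAdd k j)))) * limF π F' (fun i => σ (Fin.castAdd m i))
          else 0) * T (fun j => b (τ j)))) := by
    intro σ τ
    by_cases hcd : (Finset.univ.filter fun j => τ j ∈ sm).card < q + Yb.card
    · simp only [hT τ hcd, mul_zero]
      exact tendsto_const_nhds
    refine Tendsto.mul_const _ ?_
    have hbinj : Injective (fun i => σ (Fin.castAdd m i)) :=
      σ.injective.comp (Fin.castAdd_injective k m)
    have hab : ∀ (j : Fin m) (l : Fin k), σ (Fin.natAdd k j) ≠ σ (Fin.castAdd m l) := by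
      intro j l h
      have h1 := congrArg Fin.val (σ.injective h)
      simp at h1
      omega
    have himg : B.card = q → (∀ l i, ¬ (fun i => σ (Fin.castAdd m i)) l = bs i) →
        (∀ g ∈ B, ∀ l i, (fun i => σ (Fin.castAdd m i)) l ≠ gp (g, i)) →
        Tendsto (fun n => F n fun i => σ (Fin.castAdd m i)) L
          (𝓝 (limF π F' fun i => σ (Fin.castAdd m i))) := by
      intro hq h1 h2
      obtain ⟨a, ha⟩ := exists_perm π (fun i => σ (Fin.castAdd m i)) hbinj (by
        intro l j hlj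
        have h3 := hπ hq j
        rw [← hlj] at h3
        rcases Finset.mem_union.1 h3 with h4 | h4
        · obtain ⟨⟨g, i⟩, hg, hgi⟩ := Finset.mem_image.1 h4
          exact h2 g (Finset.mem_product.1 hg).1 l i hgi.symm
        · obtain ⟨i, -, hi⟩ := Finset.mem_image.1 h4
          exact h1 l i hi.symm)
      rw [ha, limF_eq]
      have h3 : Tendsto (fun n => ((Perm.sign a : ℤˣ) : ℤ) *
          F n (fun i => π (Fin.castAdd m i))) L (𝓝 (((Perm.sign a : ℤˣ) : ℤ) * F')) :=
        (hFl hq).const_mul _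
      refine h3.congr' ?_
      filter_upwards [halt hq a] with n hn
      rw [hn, Units.smul_def, zsmul_eq_mul]
    refine term_limit hm hgp hbs hd
      (a := fun j => σ (Fin.natAdd k j)) (σ.injective.comp (Fin.natAdd_injective m k))
      (b := fun i => σ (Fin.castAdd m i)) hab ?_ (Finset.univ.filter fun j => τ j ∈ sm) Yb
      (not_lt.1 hcd) B hN (fun n => F n fun i => σ (Fin.castAdd m i))
      (fun n j => c (τ j) (t n j (σ (Fin.natAdd k j)))) _
      (fun j => c (τ j) (t' j (σ (Fin.natAdd k j)))) hK (hF _ hbinj) (fun j => ht _ _ _)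
      ?_ (fun h => hF0 _ hbinj h) ?_ ?_ ?_ ?_
    · intro d
      obtain ⟨c, rfl⟩ := σ.surjective d
      induction c using Fin.addCases with
      | left l => exact Or.inr ⟨l, rfl⟩
      | right j => exact Or.inl ⟨j, rfl⟩
    · intro j hj hy
      exact hts j _ hy _ (Finset.mem_filter.1 hj).2
    · intro hq h
      have hset := image_eq_PD hm hgp hbs hd hq π (hπ hq)
      refine limF_zero π F' _ ?_
      obtain ⟨l, hl⟩ := h
      have h3 : σ (Fin.castAdd m l) ∈ PD gp bs B Finset.univ := by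
        rcases hl with ⟨g, hg, i, hi⟩ | ⟨i, hi⟩
        · rw [hi]
          exact Finset.mem_union_left _ (Finset.mem_image_of_mem _
            (Finset.mem_product.2 ⟨hg, Finset.mem_univ _⟩))
        · rw [hi]
          exact Finset.mem_union_right _ (Finset.mem_image_of_mem _ (Finset.mem_univ _))
      rw [← hset] at h3
      obtain ⟨j, -, hj⟩ := Finset.mem_image.1 h3
      exact ⟨l, j, hj.symm⟩
    · intro hq j hj ⟨y, hy, hjy⟩
      by_contra hne
      have h3 : σ (Fin.natAdd k j) ∈ PD gp bs B Finset.univ := by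
        have h4 : σ (Fin.natAdd k j) = bs y := hjy
        rw [h4]
        exact Finset.mem_union_right _ (Finset.mem_image_of_mem _ (Finset.mem_univ _))
      have h5 := (hpure hq j _ h3 _ hne).2 (by
        have h4 : σ (Fin.natAdd k j) = bs y := hjy
        rw [h4]
        exact hYS y hy)
      exact hj (Finset.mem_filter.2 ⟨Finset.mem_univ _, h5⟩)
    · intro hq h1 h2
      exact himg hq h2 h1
    · intro hq j hj hor
      have hor' : τ j ∈ sm ∨ ∀ y ∈ Yb, σ (Fin.natAdd k j) ≠ bs y := by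
        rcases hor with h | h
        · exact Or.inl (Finset.mem_filter.1 h).2
        · exact Or.inr h
      have h3 := htl hq j _ hj (τ j) hor'
      refine h3.congr fun n => ?_
      simp only [Finset.mem_filter, Finset.mem_univ, true_and]
  -- the sum
  have hsum : Tendsto (fun n => ((k.factorial : ℝ)⁻¹) * ∑ σ : Perm (Fin (k + m)), Perm.sign σ •
      ∑ τ : Fin m → κ, (((N n) ^ B.card * ((∏ j, c (τ j) (t n j (σ (Fin.natAdd k j)))) *
        F n (fun i => σ (Fin.castAdd m i)))) * T (fun j => b (τ j)))) L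
      (𝓝 (((k.factorial : ℝ)⁻¹) * ∑ σ : Perm (Fin (k + m)), Perm.sign σ •
      ∑ τ : Fin m → κ, ((if B.card = q ∧
        (Finset.univ.filter fun j => τ j ∈ sm).card = q + Yb.card then
          (∏ j, c (τ j) (t' j (σ (Fin.natAdd k j)))) * limF π F' (fun i => σ (Fin.castAdd m i))
          else 0) * T (fun j => b (τ j))))) := by
    refine Tendsto.const_mul _ (tendsto_finsetSum _ fun σ _ => ?_)
    simp only [Units.smul_def, zsmul_eq_mul]
    exact Tendsto.const_mul _ (tendsto_finsetSum _ fun τ _ => hterm σ τ)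
  have hL : ∀ n, (N n) ^ B.card * wv (F n) (fun x => T x) (t n) =
      ((k.factorial : ℝ)⁻¹) * ∑ σ : Perm (Fin (k + m)), Perm.sign σ •
      ∑ τ : Fin m → κ, (((N n) ^ B.card * ((∏ j, c (τ j) (t n j (σ (Fin.natAdd k j)))) *
        F n (fun i => σ (Fin.castAdd m i)))) * T (fun j => b (τ j))) := by
    intro n
    rw [wv, mul_left_comm, Finset.mul_sum]
    congr 1
    refine Finset.sum_congr rfl fun σ _ => ?_
    rw [map_coord c b hcb T, mul_smul_comm, Finset.mul_sum, Finset.mul_sum]
    congr 1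
    refine Finset.sum_congr rfl fun τ _ => ?_
    ring
  simp only [hL]
  refine (congrArg (fun x => Tendsto _ L (𝓝 x)) ?_).mpr hsum
  by_cases hq : B.card = q
  · rw [if_pos hq]
    have hset := image_eq_PD hm hgp hbs hd hq π (hπ hq)
    have h1 := wv_split (limF π F') (fun x => T x) t' π (fun a => by
      rw [limF_eq]
      have h2 := limF_eq π F' (m := m) (1 : Perm (Fin k))
      simp only [Perm.coe_one, id_eq, Perm.sign_one, Units.val_one, Int.cast_one, one_mul] at h2
      rw [h2, Units.smul_def, zsmul_eq_mul]) (fun x _ h => limF_zero π F' x h)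
    have h2 := limF_eq π F' (m := m) (1 : Perm (Fin k))
    simp only [Perm.coe_one, id_eq, Perm.sign_one, Units.val_one, Int.cast_one, one_mul] at h2
    rw [h2] at h1
    rw [← h1, wv]
    congr 1
    refine Finset.sum_congr rfl fun σ _ => ?_
    congr 1
    rw [map_coord c b hcb T, Finset.mul_sum]
    refine Finset.sum_congr rfl fun τ _ => ?_
    by_cases hz : limF π F' (fun i => σ (Fin.castAdd m i)) = 0
    · simp [hz]
    by_cases hz2 : (∏ j, c (τ j) (t' j (σ (Fin.natAdd k j)))) = 0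
    · simp [hz2]
    -- the image of the other directions is `PD`
    have himg := image_eq_PD' hm hgp hbs hd hq σ (by
      intro l hl
      apply hz
      rw [← hset] at hl
      obtain ⟨j, -, hj⟩ := Finset.mem_image.1 hl
      exact limF_zero π F' _ ⟨l, j, hj.symm⟩)
    have hsub : ∀ j, σ (Fin.natAdd k j) ∈ PD gp bs B Finset.univ := by
      intro j
      rw [← himg]
      exact Finset.mem_image.2 ⟨j, Finset.mem_univ _, rfl⟩
    have hcard : (Finset.univ.filter fun j => τ j ∈ sm).card = q + Yb.card := by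
      rw [← hSd hq]
      refine Finset.card_bij (fun j _ => σ (Fin.natAdd k j)) ?_ ?_ ?_
      · intro j hj
        have h3 := Finset.prod_ne_zero_iff.1 hz2 j (Finset.mem_univ _)
        exact Finset.mem_inter.2 ⟨hsub j, (hpure hq j _ (hsub j) _ h3).1
          (Finset.mem_filter.1 hj).2⟩
      · intro i _ j _ hij
        exact Fin.natAdd_injective m k (σ.injective hij)
      · intro d hdd
        obtain ⟨h3, h4⟩ := Finset.mem_inter.1 hdd
        rw [← himg] at h3
        obtain ⟨j, -, rfl⟩ := Finset.mem_image.1 h3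
        have h5 := Finset.prod_ne_zero_iff.1 hz2 j (Finset.mem_univ _)
        exact ⟨j, Finset.mem_filter.2 ⟨Finset.mem_univ _,
          (hpure hq j _ (hsub j) _ h5).2 h4⟩, rfl⟩
    rw [if_pos ⟨hq, hcard⟩]
    ring
  · simp [hq]

/-- **Pointwise limit of `wedgeT` on a frame.** `F n`, `θ n`, `w n` depend on the parameter `n`,
`N n → ∞`. If `|B| = q` the scaled value tends to the value of the limit functional (`F'` = limit
of the form on the directions that are not in `PD`, `t'` = scaled limits of the legs on the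
directions of `PD`), if `|B| ≠ q` it tends to zero. -/
theorem wedgeT_limit {ν : Type*} {L : Filter ν} {I : Type*} [Fintype I] [DecidableEq I]
    {E H κ : Type*} [NormedAddCommGroup E] [NormedSpace ℝ E] [NormedAddCommGroup H]
    [NormedSpace ℝ H] [Fintype κ] [DecidableEq κ] {k m q : ℕ}
    (hm : m = 2 * q + 2)
    {gp : I × Fin 2 → Fin (k + m)} (hgp : Injective gp) {bs : Fin 2 → Fin (k + m)}
    (hbs : Injective bs) (hd : ∀ x i, gp x ≠ bs i) (Yb : Finset (Fin 2)) (B : Finset I)
    {N : ν → ℝ} (hN : Tendsto N L atTop)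
    (c : κ → H → ℝ) (b : κ → H) (hcb : ∀ x, x = ∑ i, c i x • b i) (sm : Finset κ)
    (T : ContinuousMultilinearMap ℝ (fun _ : Fin m => H) ℝ)
    (hT : ∀ τ : Fin m → κ, (Finset.univ.filter fun j => τ j ∈ sm).card < q + Yb.card →
      T (fun j => b (τ j)) = 0)
    (F : ν → E [⋀^Fin k]→L[ℝ] ℝ) (θ : ν → Fin m → E →L[ℝ] H) (w : ν → Fin (k + m) → E)
    {K : ℝ} (hK : 0 ≤ K)
    (hF : ∀ x : Fin k → Fin (k + m), Injective x → ∀ᶠ n in L, |F n (fun i => w n (x i))| ≤ K)
    (hθ : ∀ j d i, ∀ᶠ n in L, |c i (θ n j (w n d))| ≤ K)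
    (hθs : ∀ j d, (∀ y ∈ Yb, d ≠ bs y) → ∀ i ∈ sm, ∀ᶠ n in L, |c i (θ n j (w n d))| ≤ K / N n)
    (hF0 : ∀ x : Fin k → Fin (k + m), Injective x →
      (∃ l, (∃ g ∈ B, ∃ i, x l = gp (g, i)) ∨ ∃ i, i ∉ Yb ∧ x l = bs i) →
      Tendsto (fun n => (N n) ^ Fintype.card I * F n (fun i => w n (x i))) L (𝓝 0))
    (π : Perm (Fin (k + m))) (F' : ℝ) (t' : Fin m → Fin (k + m) → H)
    (Sd : Finset (Fin (k + m)))
    (hπ : B.card = q → ∀ j, π (Fin.natAdd k j) ∈ PD gp bs B Finset.univ)
    (hFl : B.card = q → Tendsto (fun n => F n (fun i => w n (π (Fin.castAdd m i)))) L (𝓝 F'))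
    (hSd : B.card = q → (PD gp bs B Finset.univ ∩ Sd).card = q + Yb.card)
    (hYS : ∀ y ∈ Yb, bs y ∈ Sd)
    (hθl : B.card = q → ∀ j, ∀ d ∈ PD gp bs B Finset.univ, ∀ i,
      (i ∈ sm ∨ ∀ y ∈ Yb, d ≠ bs y) →
      Tendsto (fun n => (if i ∈ sm ∧ ∀ y ∈ Yb, d ≠ bs y then N n else 1) *
        c i (θ n j (w n d))) L (𝓝 (c i (t' j d))))
    (hpure : B.card = q → ∀ j, ∀ d ∈ PD gp bs B Finset.univ, ∀ i, c i (t' j d) ≠ 0 →
      (i ∈ sm ↔ d ∈ Sd)) :
    Tendsto (fun n => (N n) ^ B.card * wedgeT (F n) T (θ n) (w n)) L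
      (𝓝 (if B.card = q then
        Perm.sign π • (F' * DT (fun x => T x) t' (fun j => π (Fin.natAdd k j))) else 0)) := by
  simp only [wedgeT_eq_wv]
  exact wv_limit hm hgp hbs hd Yb B hN c b hcb sm T.toMultilinearMap hT
    (fun n x => F n (fun i => w n (x i))) (fun n j d => θ n j (w n d)) hK hF hθ hθs hF0 π F' t' Sd
    hπ (fun _ a => Eventually.of_forall fun n =>
      (F n).toAlternatingMap.map_perm (fun i => w n (π (Fin.castAdd m i))) a)
    hFl hSd hYS hθl hpure

/-- The case `|B| ≠ q`: only bounds are needed. -/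
theorem wedgeT_limit_zero {ν : Type*} {L : Filter ν} {I : Type*} [Fintype I] [DecidableEq I]
    {E H κ : Type*} [NormedAddCommGroup E] [NormedSpace ℝ E] [NormedAddCommGroup H]
    [NormedSpace ℝ H] [Fintype κ] [DecidableEq κ] {k m q : ℕ}
    (hm : m = 2 * q + 2)
    {gp : I × Fin 2 → Fin (k + m)} (hgp : Injective gp) {bs : Fin 2 → Fin (k + m)}
    (hbs : Injective bs) (hd : ∀ x i, gp x ≠ bs i) (Yb : Finset (Fin 2)) {B : Finset I}
    (hB : B.card ≠ q)
    {N : ν → ℝ} (hN : Tendsto N L atTop)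
    (c : κ → H → ℝ) (b : κ → H) (hcb : ∀ x, x = ∑ i, c i x • b i) (sm : Finset κ)
    (T : ContinuousMultilinearMap ℝ (fun _ : Fin m => H) ℝ)
    (hT : ∀ τ : Fin m → κ, (Finset.univ.filter fun j => τ j ∈ sm).card < q + Yb.card →
      T (fun j => b (τ j)) = 0)
    (F : ν → E [⋀^Fin k]→L[ℝ] ℝ) (θ : ν → Fin m → E →L[ℝ] H) (w : ν → Fin (k + m) → E)
    {K : ℝ} (hK : 0 ≤ K)
    (hF : ∀ x : Fin k → Fin (k + m), Injective x → ∀ᶠ n in L, |F n (fun i => w n (x i))| ≤ K)
    (hθ : ∀ j d i, ∀ᶠ n in L, |c i (θ n j (w n d))| ≤ K)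
    (hθs : ∀ j d, (∀ y ∈ Yb, d ≠ bs y) → ∀ i ∈ sm, ∀ᶠ n in L, |c i (θ n j (w n d))| ≤ K / N n)
    (hF0 : ∀ x : Fin k → Fin (k + m), Injective x →
      (∃ l, (∃ g ∈ B, ∃ i, x l = gp (g, i)) ∨ ∃ i, i ∉ Yb ∧ x l = bs i) →
      Tendsto (fun n => (N n) ^ Fintype.card I * F n (fun i => w n (x i))) L (𝓝 0)) :
    Tendsto (fun n => (N n) ^ B.card * wedgeT (F n) T (θ n) (w n)) L (𝓝 0) := by
  have h := wedgeT_limit hm hgp hbs hd Yb B hN c b hcb sm T hT F θ w hK hF hθ hθs hF0 1 0
    (fun _ _ => 0) Finset.univ (fun h => absurd h hB) (fun h => absurd h hB)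
    (fun h => absurd h hB) (fun _ _ => Finset.mem_univ _) (fun h => absurd h hB)
    (fun h => absurd h hB)
  rwa [if_neg hB] at h

end Vale.Agent.P273.H261
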