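import Vale.Agent.P273.H261.Point2

/-!
Pointwise limit of `wedgeT`, version with one scale for every direction: the size directions
`gp (g, 0)`, `g ∈ B`, are scaled by `N`, the other ones are not scaled; values in `κ → ℝ`.
-/

namespace Vale.Agent.P273.H261

open Filter Topology Function Equiv
open Vale.Agent.P273.H973
open Vale.Agent.P273.H254 (DT)

set_option linter.unusedSectionVars false

section Pure

variable {κ : Type*} [Fintype κ] [DecidableEq κ] {D : Type*} [DecidableEq D] {m : ℕ}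

/-- The components `sm` on the directions in `Sd`, the other components on the other directions. -/
def pr (sm : Finset κ) (Sd : Finset D) (t : Fin m → D → κ → ℝ) : Fin m → D → κ → ℝ :=
  fun j d i => if (i ∈ sm ↔ d ∈ Sd) then t j d i else 0

theorem coord_single (x : κ → ℝ) : x = ∑ i, x i • (Pi.single i 1 : κ → ℝ) := by
  funext j
  simp [Finset.sum_apply, Pi.single_apply]

/-- Only the pure part counts. -/
theorem T_pure (sm : Finset κ) (Sd : Finset D) (T : MultilinearMap ℝ (fun _ : Fin m => κ → ℝ) ℝ)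
    {c : ℕ} (hT : ∀ τ : Fin m → κ, (Finset.univ.filter fun j => τ j ∈ sm).card < c →
      T (fun j => Pi.single (τ j) 1) = 0) (t : Fin m → D → κ → ℝ) (a : Fin m → D)
    (ha : (Finset.univ.filter fun j => a j ∈ Sd).card ≤ c)
    (h0 : ∀ j, a j ∉ Sd → ∀ i ∈ sm, t j (a j) i = 0) :
    T (fun j => t j (a j)) = T (fun j => pr sm Sd t j (a j)) := by
  rw [map_coord (fun i (x : κ → ℝ) => x i) (fun i => Pi.single i 1) coord_single T,
    map_coord (fun i (x : κ → ℝ) => x i) (fun i => Pi.single i 1) coord_single T]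
  refine Finset.sum_congr rfl fun τ _ => ?_
  by_cases hc : (Finset.univ.filter fun j => τ j ∈ sm).card < c
  · rw [hT τ hc, mul_zero, mul_zero]
  congr 1
  by_cases hex : ∃ j, a j ∉ Sd ∧ τ j ∈ sm
  · obtain ⟨j, h1, h2⟩ := hex
    rw [Finset.prod_eq_zero (Finset.mem_univ j) (h0 j h1 _ h2),
      Finset.prod_eq_zero (Finset.mem_univ j)]
    simp [pr, h1, h2]
  · push Not at hex
    have hsub : (Finset.univ.filter fun j => τ j ∈ sm) ⊆ Finset.univ.filter fun j => a j ∈ Sd := by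
      intro j hj
      refine Finset.mem_filter.2 ⟨Finset.mem_univ _, ?_⟩
      by_contra h
      exact hex j h (Finset.mem_filter.1 hj).2
    have heq := Finset.eq_of_subset_of_card_le hsub (ha.trans (not_lt.1 hc))
    refine Finset.prod_congr rfl fun j _ => ?_
    have h3 : τ j ∈ sm ↔ a j ∈ Sd := by
      have := Finset.ext_iff.1 heq j
      simpa using this
    simp [pr, h3]

end Pure

/-- the directions with a scale: the sizes of the gaps of `B` and the directions of `Yb` -/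
def sd {I D : Type*} [DecidableEq D] (gp : I × Fin 2 → D) (bs : Fin 2 → D) (Yb : Finset (Fin 2))
    (B : Finset I) : Finset D := (B.image fun g => gp (g, 0)) ∪ Yb.image bs

theorem sd_card {I D : Type*} [DecidableEq D] {gp : I × Fin 2 → D} (hgp : Injective gp)
    {bs : Fin 2 → D} (hbs : Injective bs) (hd : ∀ x i, gp x ≠ bs i) (Yb : Finset (Fin 2))
    (B : Finset I) : (sd gp bs Yb B).card = B.card + Yb.card := by
  rw [sd, Finset.card_union_of_disjoint, Finset.card_image_of_injective _ hbs,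
    Finset.card_image_of_injective]
  · intro g g' h
    exact congrArg Prod.fst (hgp h)
  · rw [Finset.disjoint_left]
    intro d h1 h2
    obtain ⟨g, -, rfl⟩ := Finset.mem_image.1 h1
    obtain ⟨y, -, hy⟩ := Finset.mem_image.1 h2
    exact hd _ _ hy.symm

theorem sd_subset {I D : Type*} [DecidableEq I] [DecidableEq D] (gp : I × Fin 2 → D)
    (bs : Fin 2 → D) (Yb : Finset (Fin 2)) (B : Finset I) :
    sd gp bs Yb B ⊆ PD gp bs B Finset.univ := by
  rw [sd]
  intro d hdd
  rcases Finset.mem_union.1 hdd with h | h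
  · obtain ⟨g, hg, rfl⟩ := Finset.mem_image.1 h
    exact Finset.mem_union_left _ (Finset.mem_image_of_mem _
      (Finset.mem_product.2 ⟨hg, Finset.mem_univ _⟩))
  · obtain ⟨y, -, rfl⟩ := Finset.mem_image.1 h
    exact Finset.mem_union_right _ (Finset.mem_image_of_mem _ (Finset.mem_univ _))

/-- **Pointwise limit of `wedgeT`, one scale for every direction**, the pure part of the limit. -/
theorem wedgeT_limit_pr {ν : Type*} {L : Filter ν} [L.NeBot] {I : Type*} [Fintype I]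
    [DecidableEq I] {E κ : Type*} [NormedAddCommGroup E] [NormedSpace ℝ E] [Fintype κ]
    [DecidableEq κ] {k m q : ℕ} (hm : m = 2 * q + 2)
    {gp : I × Fin 2 → Fin (k + m)} (hgp : Injective gp) {bs : Fin 2 → Fin (k + m)}
    (hbs : Injective bs) (hd : ∀ x i, gp x ≠ bs i) (Yb : Finset (Fin 2)) (B : Finset I)
    {N : ν → ℝ} (hN : Tendsto N L atTop) (sm : Finset κ)
    (T : ContinuousMultilinearMap ℝ (fun _ : Fin m => κ → ℝ) ℝ)
    (hT : ∀ τ : Fin m → κ, (Finset.univ.filter fun j => τ j ∈ sm).card < q + Yb.card →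
      T (fun j => Pi.single (τ j) 1) = 0)
    (F : ν → E [⋀^Fin k]→L[ℝ] ℝ) (θ : ν → Fin m → E →L[ℝ] (κ → ℝ)) (w : ν → Fin (k + m) → E)
    {K : ℝ} (hK : 0 ≤ K)
    (hF : ∀ x : Fin k → Fin (k + m), Injective x → ∀ᶠ n in L, |F n (fun i => w n (x i))| ≤ K)
    (hθ : ∀ j d i, ∀ᶠ n in L, |θ n j (w n d) i| ≤ K)
    (hθs : ∀ j d, (∀ y ∈ Yb, d ≠ bs y) → ∀ i ∈ sm, ∀ᶠ n in L, |θ n j (w n d) i| ≤ K / N n)
    (hF0 : ∀ x : Fin k → Fin (k + m), Injective x →
      (∃ l, (∃ g ∈ B, ∃ i, x l = gp (g, i)) ∨ ∃ i, i ∉ Yb ∧ x l = bs i) →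
      Tendsto (fun n => (N n) ^ Fintype.card I * F n (fun i => w n (x i))) L (𝓝 0))
    (π : Perm (Fin (k + m))) (F' : ℝ) (t' : Fin m → Fin (k + m) → κ → ℝ)
    (hπ : B.card = q → ∀ j, π (Fin.natAdd k j) ∈ PD gp bs B Finset.univ)
    (hFl : B.card = q → Tendsto (fun n => F n (fun i => w n (π (Fin.castAdd m i)))) L (𝓝 F'))
    (hu : B.card = q → ∀ j, ∀ g ∈ B, ∀ i,
      Tendsto (fun n => N n * θ n j (w n (gp (g, 0))) i) L (𝓝 (t' j (gp (g, 0)) i)))
    (hph : B.card = q → ∀ j d, ((∃ g ∈ B, d = gp (g, 1)) ∨ ∃ y, y ∉ Yb ∧ d = bs y) → ∀ i,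
      Tendsto (fun n => θ n j (w n d) i) L (𝓝 (t' j d i)) ∧
      (i ∈ sm → Tendsto (fun n => N n * θ n j (w n d) i) L (𝓝 0)))
    (hyb : B.card = q → ∀ j, ∀ y ∈ Yb, ∀ i ∈ sm,
      Tendsto (fun n => θ n j (w n (bs y)) i) L (𝓝 (t' j (bs y) i))) :
    Tendsto (fun n => (N n) ^ B.card * wedgeT (F n) T (θ n) (w n)) L
      (𝓝 (if B.card = q then
        Perm.sign π • (F' * DT (fun x => T x) (pr sm (sd gp bs Yb B) t')
          (fun j => π (Fin.natAdd k j))) else 0)) := by
  obtain ⟨Sd, hSdef⟩ : ∃ Sd : Finset (Fin (k + m)), Sd = sd gp bs Yb B := ⟨_, rfl⟩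
  rw [← hSdef]
  have hinv : Tendsto (fun n => (N n)⁻¹) L (𝓝 0) := hN.inv_tendsto_atTop
  have hdiv : ∀ (x : ν → ℝ) (y : ℝ), Tendsto (fun n => N n * x n) L (𝓝 y) →
      Tendsto x L (𝓝 0) := by
    intro x y h
    have h1 := hinv.mul h
    rw [zero_mul] at h1
    refine h1.congr' ?_
    filter_upwards [hN.eventually_gt_atTop 0] with n hn
    rw [← mul_assoc, inv_mul_cancel₀ hn.ne', one_mul]
  -- the directions of `PD`
  have hcase : ∀ d ∈ PD gp bs B Finset.univ, (∃ g ∈ B, d = gp (g, 0)) ∨ (∃ y ∈ Yb, d = bs y) ∨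
      ((∃ g ∈ B, d = gp (g, 1)) ∨ ∃ y, y ∉ Yb ∧ d = bs y) := by
    intro d hdd
    rcases Finset.mem_union.1 hdd with h | h
    · obtain ⟨⟨g, i⟩, hg, rfl⟩ := Finset.mem_image.1 h
      have hg' := (Finset.mem_product.1 hg).1
      fin_cases i
      · exact Or.inl ⟨g, hg', rfl⟩
      · exact Or.inr (Or.inr (Or.inl ⟨g, hg', rfl⟩))
    · obtain ⟨i, -, rfl⟩ := Finset.mem_image.1 h
      by_cases hi : i ∈ Yb
      · exact Or.inr (Or.inl ⟨i, hi, rfl⟩)
      · exact Or.inr (Or.inr (Or.inr ⟨i, hi, rfl⟩))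
  have hS1 : ∀ g ∈ B, gp (g, 0) ∈ Sd := fun g hg => by
    rw [hSdef, sd]; exact Finset.mem_union_left _ (Finset.mem_image_of_mem _ hg)
  have hS2 : ∀ y ∈ Yb, bs y ∈ Sd := fun y hy => by
    rw [hSdef, sd]; exact Finset.mem_union_right _ (Finset.mem_image_of_mem _ hy)
  have hS3 : ∀ d, ((∃ g ∈ B, d = gp (g, 1)) ∨ ∃ y, y ∉ Yb ∧ d = bs y) → d ∉ Sd := by
    intro d h1 h2
    rw [hSdef, sd] at h2
    rcases Finset.mem_union.1 h2 with h2 | h2
    · obtain ⟨g', -, hg'⟩ := Finset.mem_image.1 h2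
      rcases h1 with ⟨g, -, rfl⟩ | ⟨y, -, rfl⟩
      · have := congrArg Prod.snd (hgp hg')
        simp at this
      · exact hd _ _ hg'
    · obtain ⟨y', hy', hy''⟩ := Finset.mem_image.1 h2
      rcases h1 with ⟨g, -, rfl⟩ | ⟨y, hy, rfl⟩
      · exact hd _ _ hy''.symm
      · exact hy (hbs hy'' ▸ hy')
  have hSPD : Sd ⊆ PD gp bs B Finset.univ := by
    rw [hSdef]
    exact sd_subset gp bs Yb B
  have hScard : Sd.card = B.card + Yb.card := by
    rw [hSdef]
    exact sd_card hgp hbs hd Yb B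
  exact wedgeT_limit hm hgp hbs hd Yb B hN (fun i (x : κ → ℝ) => x i)
    (fun i => Pi.single i 1) coord_single sm T hT F θ w hK hF hθ hθs hF0 π F' (pr sm Sd t') Sd hπ
    hFl (fun hq => by
      rw [Finset.inter_eq_right.2 hSPD, hScard, hq]) hS2
    (fun hq j d hdd i hor => by
      rcases hcase d hdd with ⟨g, hg, rfl⟩ | ⟨y, hy, rfl⟩ | h1
      · have hne : ∀ y ∈ Yb, gp (g, 0) ≠ bs y := fun y _ => hd _ _
        by_cases hi : i ∈ sm
        · have e : pr sm Sd t' j (gp (g, 0)) i = t' j (gp (g, 0)) i := by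
            simp [pr, hi, hS1 g hg]
          rw [e]
          refine (hu hq j g hg i).congr fun n => ?_
          rw [if_pos ⟨hi, hne⟩]
        · have e : pr sm Sd t' j (gp (g, 0)) i = 0 := by
            simp [pr, hi, hS1 g hg]
          rw [e]
          refine (hdiv _ _ (hu hq j g hg i)).congr fun n => ?_
          rw [if_neg (fun h => hi h.1), one_mul]
      · have hi : i ∈ sm := hor.resolve_right fun h => h y hy rfl
        have e : pr sm Sd t' j (bs y) i = t' j (bs y) i := by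
          simp [pr, hi, hS2 y hy]
        rw [e]
        refine (hyb hq j y hy i hi).congr fun n => ?_
        rw [if_neg (fun h => h.2 y hy rfl), one_mul]
      · have hne : ∀ y ∈ Yb, d ≠ bs y := by
          rintro y hy rfl
          exact hS3 _ h1 (hS2 y hy)
        have hS := hS3 d h1
        by_cases hi : i ∈ sm
        · have e : pr sm Sd t' j d i = 0 := by
            simp [pr, hi, hS]
          rw [e]
          refine ((hph hq j d h1 i).2 hi).congr fun n => ?_
          rw [if_pos ⟨hi, hne⟩]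
        · have e : pr sm Sd t' j d i = t' j d i := by
            simp [pr, hi, hS]
          rw [e]
          refine ((hph hq j d h1 i).1).congr fun n => ?_
          rw [if_neg (fun h => hi h.1), one_mul])
    (fun _ j d _ i hne => by
      by_contra hcon
      apply hne
      simp [pr, hcon])

/-- **Pointwise limit of `wedgeT`, one scale for every direction.** -/
theorem wedgeT_limit_dir {ν : Type*} {L : Filter ν} [L.NeBot] {I : Type*} [Fintype I]
    [DecidableEq I] {E κ : Type*} [NormedAddCommGroup E] [NormedSpace ℝ E] [Fintype κ]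
    [DecidableEq κ] {k m q : ℕ} (hm : m = 2 * q + 2)
    {gp : I × Fin 2 → Fin (k + m)} (hgp : Injective gp) {bs : Fin 2 → Fin (k + m)}
    (hbs : Injective bs) (hd : ∀ x i, gp x ≠ bs i) (Yb : Finset (Fin 2)) (B : Finset I)
    {N : ν → ℝ} (hN : Tendsto N L atTop) (sm : Finset κ)
    (T : ContinuousMultilinearMap ℝ (fun _ : Fin m => κ → ℝ) ℝ)
    (hT : ∀ τ : Fin m → κ, (Finset.univ.filter fun j => τ j ∈ sm).card < q + Yb.card →
      T (fun j => Pi.single (τ j) 1) = 0)
    (F : ν → E [⋀^Fin k]→L[ℝ] ℝ) (θ : ν → Fin m → E →L[ℝ] (κ → ℝ)) (w : ν → Fin (k + m) → E)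
    {K : ℝ} (hK : 0 ≤ K)
    (hF : ∀ x : Fin k → Fin (k + m), Injective x → ∀ᶠ n in L, |F n (fun i => w n (x i))| ≤ K)
    (hθ : ∀ j d i, ∀ᶠ n in L, |θ n j (w n d) i| ≤ K)
    (hθs : ∀ j d, (∀ y ∈ Yb, d ≠ bs y) → ∀ i ∈ sm, ∀ᶠ n in L, |θ n j (w n d) i| ≤ K / N n)
    (hF0 : ∀ x : Fin k → Fin (k + m), Injective x →
      (∃ l, (∃ g ∈ B, ∃ i, x l = gp (g, i)) ∨ ∃ i, i ∉ Yb ∧ x l = bs i) →
      Tendsto (fun n => (N n) ^ Fintype.card I * F n (fun i => w n (x i))) L (𝓝 0))
    (π : Perm (Fin (k + m))) (F' : ℝ) (t' : Fin m → Fin (k + m) → κ → ℝ)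
    (hπ : B.card = q → ∀ j, π (Fin.natAdd k j) ∈ PD gp bs B Finset.univ)
    (hFl : B.card = q → Tendsto (fun n => F n (fun i => w n (π (Fin.castAdd m i)))) L (𝓝 F'))
    (hu : B.card = q → ∀ j, ∀ g ∈ B, ∀ i,
      Tendsto (fun n => N n * θ n j (w n (gp (g, 0))) i) L (𝓝 (t' j (gp (g, 0)) i)))
    (hph : B.card = q → ∀ j d, ((∃ g ∈ B, d = gp (g, 1)) ∨ ∃ y, y ∉ Yb ∧ d = bs y) → ∀ i,
      Tendsto (fun n => θ n j (w n d) i) L (𝓝 (t' j d i)) ∧
      (i ∈ sm → Tendsto (fun n => N n * θ n j (w n d) i) L (𝓝 0)))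
    (hyb : B.card = q → ∀ j, ∀ y ∈ Yb, ∀ i ∈ sm,
      Tendsto (fun n => θ n j (w n (bs y)) i) L (𝓝 (t' j (bs y) i))) :
    Tendsto (fun n => (N n) ^ B.card * wedgeT (F n) T (θ n) (w n)) L
      (𝓝 (if B.card = q then
        Perm.sign π • (F' * DT (fun x => T x) t' (fun j => π (Fin.natAdd k j))) else 0)) := by
  have h := wedgeT_limit_pr hm hgp hbs hd Yb B hN sm T hT F θ w hK hF hθ hθs hF0 π F' t' hπ hFl hu
    hph hyb
  have hinv : Tendsto (fun n => (N n)⁻¹) L (𝓝 0) := hN.inv_tendsto_atTop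
  have hdiv : ∀ (x : ν → ℝ) (y : ℝ), Tendsto (fun n => N n * x n) L (𝓝 y) →
      Tendsto x L (𝓝 0) := by
    intro x y h
    have h1 := hinv.mul h
    rw [zero_mul] at h1
    refine h1.congr' ?_
    filter_upwards [hN.eventually_gt_atTop 0] with n hn
    rw [← mul_assoc, inv_mul_cancel₀ hn.ne', one_mul]
  refine (congrArg (fun x => Tendsto _ L (𝓝 x)) ?_).mp h
  by_cases hq : B.card = q
  · rw [if_pos hq, if_pos hq]
    congr 2
    unfold DT
    refine Finset.sum_congr rfl fun ρ _ => ?_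
    congr 1
    have h0 : ∀ (j : Fin m) (d : Fin (k + m)), d ∈ PD gp bs B Finset.univ → d ∉ sd gp bs Yb B →
        ∀ i ∈ sm, t' j d i = 0 := by
      intro j d hdd hdS i hi
      have h1 : (∃ g ∈ B, d = gp (g, 1)) ∨ ∃ y, y ∉ Yb ∧ d = bs y := by
        rcases Finset.mem_union.1 hdd with h | h
        · obtain ⟨⟨g, i⟩, hg, rfl⟩ := Finset.mem_image.1 h
          have hg' := (Finset.mem_product.1 hg).1
          fin_cases i
          · exact absurd (Finset.mem_union_left _ (Finset.mem_image.2 ⟨g, hg', rfl⟩)) hdS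
          · exact Or.inl ⟨g, hg', rfl⟩
        · obtain ⟨i, -, rfl⟩ := Finset.mem_image.1 h
          by_cases hi : i ∈ Yb
          · exact absurd (Finset.mem_union_right _ (Finset.mem_image_of_mem _ hi)) hdS
          · exact Or.inr ⟨i, hi, rfl⟩
      · have h2 := (hph hq j d h1 i).1
        have h3 := hdiv _ _ ((hph hq j d h1 i).2 hi)
        exact tendsto_nhds_unique h2 h3
    refine (T_pure sm (sd gp bs Yb B) T.toMultilinearMap hT t' (fun j => π (Fin.natAdd k (ρ j))) ?_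
      fun j hj i hi => h0 j _ (hπ hq _) hj i hi).symm
    rw [← hq, ← sd_card hgp hbs hd Yb B]
    refine Finset.card_le_card_of_injOn (fun j => π (Fin.natAdd k (ρ j))) ?_ ?_
    · intro j hj
      exact (Finset.mem_filter.1 hj).2
    · intro i _ j _ hij
      exact ρ.injective (Fin.natAdd_injective m k (π.injective hij))
  · rw [if_neg hq, if_neg hq]

end Vale.Agent.P273.H261
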