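import Vale.Agent.P273.H261.PtLeg

/-!
P273, LIM: the comparison of the scaled limits of the legs with `thL` on the frame.
-/

noncomputable section

namespace Vale.Agent.P273.H261

open Set Filter Function H681 H95 H732 H973 H562 H573
open Vale.Agent.P273.H254 (DT)
open scoped Topology ContDiff

section

variable {κ : Fin 3 → Fin 3 → ℝ} {Θ : Gauge} {R : H95.Region} {m : ∀ k, Fin (R.n k + 1)}
  {B : Finset (W R m).Fr} {p : Co R m} {S : L → Bool}

/-- sizes and Euler directions -/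
def isS (d : BDir R m) : Prop :=
  match d with
  | .u _ => True
  | .ph _ => False
  | .al _ => False
  | .eul _ => True

/-- directions of the base -/
def isB (d : BDir R m) : Prop :=
  match d with
  | .u _ => False
  | .ph _ => False
  | .al _ => True
  | .eul _ => True

/-- the values of `thL` are pure -/
theorem thL_pure (y : Fin 3 → ℝ) (j : L) (d : BDir R m) (i : Fin 4)
    (hi : ¬ (i ∈ sm ↔ isS d)) : thL R m (big R m B) y j (blim R m d) i = 0 := by
  have e1 : isS d → i = 0 ∨ i = 2 := fun h => notMem_sm.1 fun h' => hi ⟨fun _ => h, fun _ => h'⟩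
  have e2 : ¬ isS d → i = 1 ∨ i = 3 := fun h => mem_sm.1 <| by
    by_contra h'
    exact hi ⟨fun h2 => absurd h2 h', fun h2 => absurd h2 h⟩
  rcases h : cmp R (big R m B) j with s | x
  · cases d with
    | u f =>
      have := congrFun (H422.thL_core_u h y f) i
      exact this
    | ph f =>
      have := congrFun (H422.thL_core_ph h y f) i
      exact this
    | al l => exact H422.thL_core_al_odd h (e2 (by simp [isS])) y l
    | eul l => exact H422.thL_core_y_even h (e1 (by simp [isS])) y l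
  · cases d with
    | u f => exact H422.thL_free_u h (e1 (by simp [isS])) y f
    | ph f => exact H422.thL_free_ph h (e2 (by simp [isS])) y f
    | al l => exact H422.thL_free_al h (e2 (by simp [isS])) y l
    | eul l => exact H422.thL_free_y h (e1 (by simp [isS])) y l

/-- cores: the limits of the legs are the values of `thL` on the components of the right type -/
theorem lgl_core_eq {j : L} {s : Bool} (h : cmp R (big R m B) j = Sum.inl s)
    (hy : ∀ k, 0 < p.2.2.1 k) {d : BDir R m} (hd : d.ok R m (↑B)) {i : Fin 4}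
    (hi : i ∈ sm ↔ isS d) :
    lgl κ R m B p j (col4 i) d = thL R m (big R m B) p.2.2.1 j (blim R m d) i := by
  cases d with
  | u f =>
    rw [H422.lgl_core_u κ h hy _ (Finset.mem_coe.1 hd)]
    exact (congrFun (H422.thL_core_u h p.2.2.1 f) i).symm
  | ph f =>
    rw [H422.lgl_core_ph κ h hy _ (Finset.mem_coe.1 hd)]
    exact (congrFun (H422.thL_core_ph h p.2.2.1 f) i).symm
  | al l => exact H422.lgl_core_al κ h hy i l
  | eul l => exact H422.lgl_core_eul κ h hy (mem_sm.1 (hi.2 trivial)) l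

/-- cores: zero on the gaps -/
theorem lgl_core_zero {j : L} {s : Bool} (h : cmp R (big R m B) j = Sum.inl s)
    (hy : ∀ k, 0 < p.2.2.1 k) {d : BDir R m} (hd : d.ok R m (↑B)) (hb : ¬ isB d) :
    (∀ ξ, lgl κ R m B p j ξ d = 0) ∧ thL R m (big R m B) p.2.2.1 j (blim R m d) = 0 := by
  cases d with
  | u f => exact ⟨fun ξ => H422.lgl_core_u κ h hy ξ (Finset.mem_coe.1 hd),
      H422.thL_core_u h p.2.2.1 f⟩
  | ph f => exact ⟨fun ξ => H422.lgl_core_ph κ h hy ξ (Finset.mem_coe.1 hd),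
      H422.thL_core_ph h p.2.2.1 f⟩
  | al l => exact absurd trivial hb
  | eul l => exact absurd trivial hb

/-- free components: the limits of the legs on the gaps are the values of `thL` -/
theorem lgl_free_eq {j : L} {x : Fin 3 × ℕ} (h : cmp R (big R m B) j = Sum.inr x)
    {d : BDir R m} (hb : ¬ isB d) {i : Fin 4} (hi : i ∈ sm ↔ isS d) :
    lgl κ R m B p j (col4 i) d = thL R m (big R m B) p.2.2.1 j (blim R m d) i := by
  cases d with
  | u f => exact H422.lgl_free_u κ h (mem_sm.1 (hi.2 trivial)) f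
  | ph f => exact H422.lgl_free_ph κ h i f
  | al l => exact absurd trivial hb
  | eul l => exact absurd trivial hb

/-- two marks of the same free component -/
theorem lgl_same {j j' : L} {x : Fin 3 × ℕ} (h : cmp R (big R m B) j = Sum.inr x)
    (h' : cmp R (big R m B) j' = Sum.inr x) {d : BDir R m} (hd : d.ok R m (↑B)) :
    (∀ ξ, lgl κ R m B p j ξ d = lgl κ R m B p j' ξ d) ∧
      thL R m (big R m B) p.2.2.1 j (blim R m d) = thL R m (big R m B) p.2.2.1 j' (blim R m d) := by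
  refine ⟨fun ξ => H422.bb κ h h' ξ hd, ?_⟩
  cases d with
  | u f => exact H422.thL_same_u h h' _ (Finset.mem_coe.1 hd)
  | ph f => exact H422.thL_same_ph h h' _ (Finset.mem_coe.1 hd)
  | al l => exact H422.thL_same_al h h' _ l
  | eul l => exact H422.thL_same_y h h' _ l

/-- the types of the two base directions -/
structure Bas (bd : Fin 2 → BDir R m) (Yb : Finset (Fin 2)) : Prop where
  al : ∀ c, c ∉ Yb → ∃ k, bd c = .al k
  eul : ∀ c ∈ Yb, ∃ k, bd c = .eul k

variable {bd : Fin 2 → BDir R m} {Yb : Finset (Fin 2)}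

theorem Bas.ok (hb : Bas bd Yb) (c : Fin 2) : (bd c).ok R m (↑B : Set (W R m).Fr) := by
  by_cases h : c ∈ Yb
  · obtain ⟨k, hk⟩ := hb.eul c h
    rw [hk]
    trivial
  · obtain ⟨k, hk⟩ := hb.al c h
    rw [hk]
    trivial

theorem Bas.isB (hb : Bas bd Yb) (c : Fin 2) : isB (bd c) := by
  by_cases h : c ∈ Yb
  · obtain ⟨k, hk⟩ := hb.eul c h
    rw [hk]
    trivial
  · obtain ⟨k, hk⟩ := hb.al c h
    rw [hk]
    trivial

theorem Bas.isS (hb : Bas bd Yb) (c : Fin 2) : isS (bd c) ↔ c ∈ Yb := by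
  by_cases h : c ∈ Yb
  · obtain ⟨k, hk⟩ := hb.eul c h
    rw [hk]
    exact ⟨fun _ => h, fun _ => trivial⟩
  · obtain ⟨k, hk⟩ := hb.al c h
    rw [hk]
    exact ⟨fun h' => h'.elim, fun h' => absurd h' h⟩

theorem wL_bs (bd : Fin 2 → BDir R m) (c : Fin 2) :
    fr30 R m (blim R m (bd 0)) (blim R m (bd 1)) (bs c) = blim R m (bd c) := by
  rw [fr30_bs]
  fin_cases c <;> rfl

theorem mem_sd {d : Fin (16 + 14)} {B' : Finset (Fin 14)} : d ∈ sd gp bs Yb B' ↔
    (∃ a ∈ B', d = gp (a, 0)) ∨ ∃ c ∈ Yb, d = bs c := by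
  unfold sd
  rw [Finset.mem_union, Finset.mem_image, Finset.mem_image]
  constructor
  · rintro (⟨a, ha, rfl⟩ | ⟨c, hc, rfl⟩)
    · exact Or.inl ⟨a, ha, rfl⟩
    · exact Or.inr ⟨c, hc, rfl⟩
  · rintro (⟨a, ha, rfl⟩ | ⟨c, hc, rfl⟩)
    · exact Or.inl ⟨a, ha, rfl⟩
    · exact Or.inr ⟨c, hc, rfl⟩

theorem mem_PD {d : Fin (16 + 14)} {B' : Finset (Fin 14)} : d ∈ PD gp bs B' Finset.univ ↔
    (∃ a ∈ B', ∃ c, d = gp (a, c)) ∨ ∃ c, d = bs c := by
  unfold PD
  rw [Finset.mem_union, Finset.mem_image, Finset.mem_image]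
  constructor
  · rintro (⟨⟨a, c⟩, ha, rfl⟩ | ⟨c, -, rfl⟩)
    · exact Or.inl ⟨a, (Finset.mem_product.1 ha).1, c, rfl⟩
    · exact Or.inr ⟨c, rfl⟩
  · rintro (⟨a, ha, c, rfl⟩ | ⟨c, rfl⟩)
    · exact Or.inl ⟨(a, c), Finset.mem_product.2 ⟨ha, Finset.mem_univ _⟩, rfl⟩
    · exact Or.inr ⟨c, Finset.mem_univ _, rfl⟩

/-- the directions of `PD` -/
theorem exists_dd (κ : Fin 3 → Fin 3 → ℝ) (p : Co R m) (hb : Bas bd Yb) {d : Fin (16 + 14)}
    (hd : d ∈ PD gp bs (Bm B) Finset.univ) :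
    ∃ (s : ℝ) (dd : BDir R m), dd.ok R m (↑B) ∧
      (∀ a' i, tl R m κ B p bd a' d i = s * lgl κ R m B p (mrk a') (col4 i) dd) ∧
      fr30 R m (blim R m (bd 0)) (blim R m (bd 1)) d = s • blim R m dd ∧
      (d ∈ sd gp bs Yb (Bm B) ↔ isS dd) ∧ (d ∈ ({bs 0, bs 1} : Finset _) ↔ isB dd) := by
  rcases mem_PD.1 hd with ⟨a, ha, c, rfl⟩ | ⟨c, rfl⟩
  · obtain ⟨f, hf, hf'⟩ := mem_Bm.1 ha
    have h1 : gp (a, c) ∉ ({bs 0, bs 1} : Finset (Fin (16 + 14))) := by
      simp only [Finset.mem_insert, Finset.mem_singleton, not_or]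
      exact ⟨gp_ne_bs _ _, gp_ne_bs _ _⟩
    have hc : c = 0 ∨ c = 1 := by omega
    rcases hc with rfl | rfl
    · refine ⟨-1, .u f, hf, fun a' i => ?_, ?_, ?_, ?_⟩
      · rw [tl_gp0 bd a' a hf']; ring
      · rw [fr30_gp, fr_some hf']
        simp [blim]
      · exact ⟨fun _ => trivial, fun _ => mem_sd.2 (Or.inl ⟨a, ha, rfl⟩)⟩
      · exact ⟨fun h => absurd h h1, fun h => h.elim⟩
    · refine ⟨1, .ph f, hf, fun a' i => ?_, ?_, ?_, ?_⟩
      · rw [tl_gp1 bd a' a hf']; ring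
      · rw [fr30_gp, fr_some hf']
        simp [blim]
      · refine ⟨fun h => ?_, fun h => h.elim⟩
        rcases mem_sd.1 h with ⟨a', -, h'⟩ | ⟨c, -, h'⟩
        · have := congrArg Prod.snd (gp_injective h')
          simp at this
        · exact absurd h' (gp_ne_bs _ _)
      · exact ⟨fun h => absurd h h1, fun h => h.elim⟩
  · refine ⟨1, bd c, hb.ok c, fun a' i => ?_, ?_, ?_, ?_⟩
    · rw [tl_bs bd a' c]; ring
    · rw [wL_bs, one_smul]
    · rw [hb.isS c, mem_sd]
      constructor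
      · rintro (⟨a, -, h⟩ | ⟨c', hc', h⟩)
        · exact absurd h.symm (gp_ne_bs _ _)
        · rwa [bs_injective h]
      · exact fun h => Or.inr ⟨c, h, rfl⟩
    · refine ⟨fun _ => hb.isB c, fun _ => ?_⟩
      have hc : c = 0 ∨ c = 1 := by omega
      rcases hc with rfl | rfl <;> simp

/-- **Comparison of the limits of the legs with `thL`.** -/
theorem DT_lim (κ : Fin 3 → Fin 3 → ℝ) {T : MT} (hT : SymT T) (hb : Bas bd Yb)
    (hy : ∀ k, 0 < p.2.2.1 k) (hB : B.card = 6) {n : ℕ} (hn : n = 6 + Yb.card)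
    (e : Fin 14 → Fin (16 + 14)) (he : Injective e)
    (hPD : ∀ j, e j ∈ PD gp bs (Bm B) Finset.univ)
    (hsd : (Finset.univ.image e) = PD gp bs (Bm B) Finset.univ) :
    DT (fun x => T x) (pr sm (sd gp bs Yb (Bm B)) (tl R m κ B p bd)) e =
      DT (fun x => grT n T x) (fun a (d : Co R m) => thL R m (big R m B) p.2.2.1 (mrk a) d)
        (fun i => fr30 R m (blim R m (bd 0)) (blim R m (bd 1)) (e i)) := by
  classical
  obtain ⟨th, hth⟩ : ∃ th : Fin 14 → Fin (16 + 14) → H4, ∀ a d, th a d =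
      thL R m (big R m B) p.2.2.1 (mrk a) (fr30 R m (blim R m (bd 0)) (blim R m (bd 1)) d) :=
    ⟨_, fun _ _ => rfl⟩
  obtain ⟨t, ht⟩ : ∃ t : Fin 14 → Fin (16 + 14) → H4,
      t = pr sm (sd gp bs Yb (Bm B)) (tl R m κ B p bd) := ⟨_, rfl⟩
  have e0 : DT (fun x => grT n T x)
      (fun a (d : Co R m) => thL R m (big R m B) p.2.2.1 (mrk a) d)
        (fun i => fr30 R m (blim R m (bd 0)) (blim R m (bd 1)) (e i)) =
      DT (fun x => grT n T x) th e := by
    unfold H254.DT
    refine Finset.sum_congr rfl fun ρ _ => ?_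
    simp only [hth]
  rw [e0, ← ht]
  -- values on the directions of `PD`
  have key : ∀ d ∈ PD gp bs (Bm B) Finset.univ, ∃ (s : ℝ) (dd : BDir R m),
      dd.ok R m (↑B) ∧ (∀ a i, t a d i = if (i ∈ sm ↔ isS dd) then
        s * lgl κ R m B p (mrk a) (col4 i) dd else 0) ∧
      (∀ a i, th a d i = s * thL R m (big R m B) p.2.2.1 (mrk a) (blim R m dd) i) ∧
      (d ∈ sd gp bs Yb (Bm B) ↔ isS dd) ∧ (d ∈ ({bs 0, bs 1} : Finset _) ↔ isB dd) := by
    intro d hd
    obtain ⟨s, dd, h1, h2, h3, h4, h5⟩ := exists_dd κ p hb hd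
    refine ⟨s, dd, h1, fun a i => ?_, fun a i => ?_, h4, h5⟩
    · rw [ht]
      unfold pr
      by_cases hi : i ∈ sm ↔ isS dd
      · rw [if_pos (hi.trans h4.symm), if_pos hi, h2]
      · rw [if_neg (fun h => hi (h.trans h4)), if_neg hi]
    · rw [hth, h3, map_smul]
      rfl
  have hgr : DT (fun x => grT n T x) th e = DT (fun x => T x) th e := by
    refine H422.DT_grT T th e (A := Finset.univ.filter fun i => e i ∈ sd gp bs Yb (Bm B)) ?_ ?_ ?_
    · have h1 : (Finset.univ.filter fun i => e i ∈ sd gp bs Yb (Bm B)).image e =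
          sd gp bs Yb (Bm B) := by
        ext d
        rw [Finset.mem_image]
        constructor
        · rintro ⟨i, hi, rfl⟩
          exact (Finset.mem_filter.1 hi).2
        · intro hd
          have h2 : d ∈ Finset.univ.image e := by
            rw [hsd]
            exact sd_subset gp bs Yb (Bm B) hd
          obtain ⟨i, -, rfl⟩ := Finset.mem_image.1 h2
          exact ⟨i, Finset.mem_filter.2 ⟨Finset.mem_univ _, hd⟩, rfl⟩
      have h2 := sd_card gp_injective bs_injective gp_ne_bs Yb (Bm B)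
      rw [← h1, Finset.card_image_of_injective _ he, card_Bm, hB] at h2
      omega
    · intro a i hi
      have hi' := (Finset.mem_filter.1 hi).2
      obtain ⟨s, dd, h1, h2, h3, h4, h5⟩ := key (e i) (hPD i)
      rw [pM_eq_zero_iff]
      intro b hb'
      rw [h3, thL_pure _ _ dd b, mul_zero]
      intro hcon
      exact hb' (hcon.2 (h4.1 hi'))
    · intro a i hi
      have hi' : e i ∉ sd gp bs Yb (Bm B) := fun h =>
        hi (Finset.mem_filter.2 ⟨Finset.mem_univ _, h⟩)
      obtain ⟨s, dd, h1, h2, h3, h4, h5⟩ := key (e i) (hPD i)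
      rw [pA_eq_zero_iff]
      intro b hb'
      rw [h3, thL_pure _ _ dd b, mul_zero]
      intro hcon
      exact hi' (h4.2 (hcon.1 hb'))
  rw [hgr]
  refine DT_compare hT (cl B) (Lb B) (fun a c h => mem_Lb h) ((card_Lb B).trans hB.le)
    ({bs 0, bs 1} : Finset _) Finset.card_le_two e he t th ?_ ?_ ?_ ?_
  · intro a a' c _ _ h1 h2 i
    obtain ⟨s, dd, g1, g2, g3, g4, g5⟩ := key (e i) (hPD i)
    have h3 := lgl_same (κ := κ) (p := p) (cl_some.1 h1) (cl_some.1 h2) g1
    constructor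
    · funext b
      rw [g2, g2, h3.1]
    · funext b
      rw [g3, g3, h3.2]
  · intro a h1 i hi
    obtain ⟨s, dd, g1, g2, g3, g4, g5⟩ := key (e i) (hPD i)
    obtain ⟨x, hx⟩ := cl_none.1 h1
    have h3 := lgl_core_zero (κ := κ) hx hy g1 fun h => hi (g5.2 h)
    constructor
    · funext b
      rw [g2, h3.1, mul_zero, ite_self]
      rfl
    · funext b
      rw [g3, h3.2]
      exact mul_zero _
  · intro a h1 i hi
    obtain ⟨s, dd, g1, g2, g3, g4, g5⟩ := key (e i) (hPD i)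
    obtain ⟨x, hx⟩ := Option.ne_none_iff_exists'.1 h1
    rw [cl_some] at hx
    funext b
    rw [g2, g3]
    by_cases hb' : b ∈ sm ↔ isS dd
    · rw [if_pos hb', lgl_free_eq hx (fun h => hi (g5.2 h)) hb']
    · rw [if_neg hb', thL_pure _ _ dd b hb', mul_zero]
  · intro a h1 i _
    obtain ⟨s, dd, g1, g2, g3, g4, g5⟩ := key (e i) (hPD i)
    obtain ⟨x, hx⟩ := cl_none.1 h1
    funext b
    rw [g2, g3]
    by_cases hb' : b ∈ sm ↔ isS dd
    · rw [if_pos hb', lgl_core_eq hx hy g1 hb']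
    · rw [if_neg hb', thL_pure _ _ dd b hb', mul_zero]

end

end Vale.Agent.P273.H261
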