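import Vale.Agent.P273.H573.Skel

/-!
P273, LIM: definitions for the pointwise limits `PtT`, `PtA`.
-/

noncomputable section

namespace Vale.Agent.P273.H261

open Set Filter H681 H95 H732 H973 H562 H573
open scoped Topology ContDiff

section

variable (κ : Fin 3 → Fin 3 → ℝ) (R : H95.Region) (m : ∀ k, Fin (R.n k + 1))

/-- the limit of the leg of the mark `j` in the class `ξ` on the direction `d` -/
def lgl (B : Finset (W R m).Fr) (p : Co R m) (j : L) (ξ : Fin 6 → ℝ) (d : BDir R m) : ℝ :=
  match h : R.pl j with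
  | Sum.inl k => legN κ R m ξ p.2.2.1 p.2.2.2.1 k (depl R m (↑B) p h)
      (wreg.LX R.Cm R.n m k (rkF R h)) d
  | Sum.inr b => legC κ R m ξ p.2.2.1 p.2.2.2.1 b d

theorem lgl_neck (B : Finset (W R m).Fr) (p : Co R m) {j : L} {k : Fin 3}
    (h : R.pl j = Sum.inl k) (ξ : Fin 6 → ℝ) (d : BDir R m) :
    lgl κ R m B p j ξ d = legN κ R m ξ p.2.2.1 p.2.2.2.1 k (depl R m (↑B) p h)
      (wreg.LX R.Cm R.n m k (rkF R h)) d := by
  unfold lgl
  split
  · rename_i k' h'
    have hk : k' = k := by rw [h] at h'; exact (Sum.inl.inj h').symm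
    subst hk
    rfl
  · rename_i b h'
    rw [h] at h'
    cases h'

theorem lgl_core (B : Finset (W R m).Fr) (p : Co R m) {j : L} {b : Bool}
    (h : R.pl j = Sum.inr b) (ξ : Fin 6 → ℝ) (d : BDir R m) :
    lgl κ R m B p j ξ d = legC κ R m ξ p.2.2.1 p.2.2.2.1 b d := by
  unfold lgl
  split
  · rename_i k' h'
    rw [h] at h'
    cases h'
  · rename_i b' h'
    have hb : b' = b := by rw [h] at h'; exact (Sum.inr.inj h').symm
    subst hb
    rfl

/-- the free gap of a mark -/
def gapOf (j : L) : Option (W R m).Fr :=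
  match h : R.pl j with
  | Sum.inl k => some (frE R.n m ⟨k, rkF R h⟩)
  | Sum.inr _ => none

theorem gapOf_neck {j : L} {k : Fin 3} (h : R.pl j = Sum.inl k) :
    gapOf R m j = some (frE R.n m ⟨k, rkF R h⟩) := by
  unfold gapOf
  split
  · rename_i k' h'
    have hk : k' = k := by rw [h] at h'; exact (Sum.inl.inj h').symm
    subst hk
    rfl
  · rename_i b h'
    rw [h] at h'
    cases h'

theorem gapOf_core {j : L} {b : Bool} (h : R.pl j = Sum.inr b) : gapOf R m j = none := by
  unfold gapOf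
  split
  · rename_i k' h'
    rw [h] at h'
    cases h'
  · rfl

end

end Vale.Agent.P273.H261
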