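import Vale.Agent.P273.H261.PtIx

/-!
P273, LIM: the comparison of the scaled limits of the legs with the limit forms `thL`, algebra.
-/

noncomputable section

namespace Vale.Agent.P273.H261

open Set Filter Function H681 H95 H732 H973 H562 H573
open Vale.Agent.P273.H254 (DT)
open scoped Topology ContDiff

/-- the components on `f1, f2` -/
def sm : Finset (Fin 4) := {1, 3}

theorem pA_eq_zero_iff (x : H4) : pA x = 0 ↔ ∀ a ∈ sm, x a = 0 := by
  constructor
  · intro h a ha
    have h1 := congrFun h a
    fin_cases a <;> simp [sm, pA] at ha h1 ⊢ <;> exact h1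
  · intro h
    funext a
    fin_cases a
    · simp [pA]
    · simpa [pA] using h 1 (by simp [sm])
    · simp [pA]
    · simpa [pA] using h 3 (by simp [sm])

theorem pM_eq_zero_iff (x : H4) : pM x = 0 ↔ ∀ a, a ∉ sm → x a = 0 := by
  constructor
  · intro h a ha
    have h1 := congrFun h a
    fin_cases a <;> simp [sm, pM] at ha h1 ⊢ <;> exact h1
  · intro h
    funext a
    fin_cases a
    · simpa [pM] using h 0 (by simp [sm])
    · simp [pM]
    · simpa [pM] using h 2 (by simp [sm])
    · simp [pM]

theorem pM_add_pA (x : H4) : pM x + pA x = x := by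
  funext a
  fin_cases a <;> simp [pM, pA]

theorem kill_single {c : ℕ} {T : MT} (hT : WtT (9 - c) T) (τ : Fin 14 → Fin 4)
    (h : (Finset.univ.filter fun j => τ j ∈ sm).card < 6 + c) :
    T (fun j => Pi.single (τ j) 1) = 0 := by
  refine hT _ ?_
  have h1 : (Finset.univ.filter fun j => ¬ τ j ∈ sm) ⊆
      Finset.univ.filter fun j => pA ((Pi.single (τ j) 1 : H4)) = 0 := by
    intro j hj
    refine Finset.mem_filter.2 ⟨Finset.mem_univ _, ?_⟩
    rw [pA_eq_zero_iff]
    intro a ha
    have h2 : a ≠ τ j := by
      rintro rfl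
      exact (Finset.mem_filter.1 hj).2 ha
    exact Pi.single_eq_of_ne h2 _
  have h2 := Finset.card_le_card h1
  have h3 : (Finset.univ.filter fun j => τ j ∈ sm).card +
      (Finset.univ.filter fun j => ¬ τ j ∈ sm).card = 14 := by
    rw [Finset.card_filter_add_card_filter_not]
    simp
  omega

theorem grT_apply (n : ℕ) (T : MT) (x : Fin 14 → H4) :
    grT n T x = ∑ τ ∈ (Finset.univ : Finset (Finset (Fin 14))).filter (fun τ => τ.card = n),
      T (fun j => if j ∈ τ then pA (x j) else pM (x j)) := by
  rw [grT, _root_.sum_apply]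
  refine Finset.sum_congr rfl fun τ _ => ?_
  rw [ContinuousMultilinearMap.compContinuousLinearMap_apply]
  congr 1
  funext j
  split_ifs <;> rfl

/-- the graded part of `T` on pure arguments -/
theorem grT_pure {n : ℕ} (T : MT) (x : Fin 14 → H4) (A : Finset (Fin 14)) (hA : A.card = n)
    (h1 : ∀ j ∈ A, pM (x j) = 0) (h2 : ∀ j, j ∉ A → pA (x j) = 0) : grT n T x = T x := by
  rw [grT_apply, Finset.sum_eq_single_of_mem A
    (Finset.mem_filter.2 ⟨Finset.mem_univ _, hA⟩)]
  · congr 1
    funext j
    have h3 := pM_add_pA (x j)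
    split_ifs with h
    · rw [h1 j h, zero_add] at h3
      exact h3
    · rw [h2 j h, add_zero] at h3
      exact h3
  · intro τ hτ hne
    have hc := (Finset.mem_filter.1 hτ).2
    have h3 : ∃ j, j ∈ A ∧ j ∉ τ := by
      by_contra hcon
      push Not at hcon
      exact hne (Finset.eq_of_subset_of_card_le hcon (by rw [hc, hA])).symm
    obtain ⟨j, hj, hjτ⟩ := h3
    exact T.map_coord_zero j (by simp only [if_neg hjτ]; exact h1 j hj)

theorem symT_254 {T : MT} (hT : SymT T) :
    H254.SymT (fun a : Fin 14 => (mrk a).2) (fun x => T x) where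
  zero _ j h := T.map_coord_zero j h
  symm x i j h := hT i j h x

/-- **Comparison of two families of legs**: equal outside the base directions of the cluster
marks. -/
theorem DT_compare {T : MT} (hT : SymT T) {Λ : Type} [DecidableEq Λ]
    (cl : Fin 14 → Option Λ) (Lb : Finset Λ) (hLb : ∀ a c, cl a = some c → c ∈ Lb)
    (hc6 : Lb.card ≤ 6) {D : Type} [DecidableEq D] (base : Finset D) (hb2 : base.card ≤ 2)
    (e : Fin 14 → D) (he : Injective e) (t th : Fin 14 → D → H4)
    (H1 : ∀ a a' c, a ≠ a' → (mrk a).2 = (mrk a').2 → cl a = some c → cl a' = some c →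
      ∀ i, t a (e i) = t a' (e i) ∧ th a (e i) = th a' (e i))
    (H2 : ∀ a, cl a = none → ∀ i, e i ∉ base → t a (e i) = 0 ∧ th a (e i) = 0)
    (H3 : ∀ a, cl a ≠ none → ∀ i, e i ∉ base → t a (e i) = th a (e i))
    (H4' : ∀ a, cl a = none → ∀ i, e i ∈ base → t a (e i) = th a (e i)) :
    DT (fun x => T x) t e = DT (fun x => T x) th e := by
  classical
  by_cases hsame : ∃ a a' c, a ≠ a' ∧ (mrk a).2 = (mrk a').2 ∧ cl a = some c ∧ cl a' = some c
  · obtain ⟨a, a', c, h1, h2, h3, h4⟩ := hsame
    have h5 := H1 a a' c h1 h2 h3 h4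
    have e1 : DT (fun x => T x) t e = DT (fun x => T x) (fun a i => t a (e i)) id := rfl
    have e2 : DT (fun x => T x) th e = DT (fun x => T x) (fun a i => th a (e i)) id := rfl
    rw [e1, e2, H254.DT_eq_zero_of_same (symT_254 hT) h1 h2 (funext fun i => (h5 i).1),
      H254.DT_eq_zero_of_same (symT_254 hT) h1 h2 (funext fun i => (h5 i).2)]
  · push Not at hsame
    have hS : (Finset.univ.filter fun a => cl a ≠ none).card ≤ 12 := by
      have h1 : (Finset.univ.filter fun a => cl a ≠ none).card ≤
          ((Finset.univ : Finset Bool) ×ˢ (Lb.map ⟨some, Option.some_injective _⟩)).card := by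
        refine Finset.card_le_card_of_injOn (fun a => ((mrk a).2, cl a)) ?_ ?_
        · intro a ha
          have h2 := (Finset.mem_filter.1 ha).2
          obtain ⟨c, hc⟩ := Option.ne_none_iff_exists'.1 h2
          refine Finset.mem_product.2 ⟨Finset.mem_univ _, ?_⟩
          simp only [hc]
          exact Finset.mem_map.2 ⟨c, hLb a c hc, rfl⟩
        · intro a ha a' _ h
          have h2 := (Finset.mem_filter.1 ha).2
          obtain ⟨c, hc⟩ := Option.ne_none_iff_exists'.1 h2
          by_contra hne
          have h3 := congrArg Prod.fst h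
          have h4 := congrArg Prod.snd h
          simp only at h3 h4
          exact hsame a a' c hne h3 hc (h4 ▸ hc)
      rw [Finset.card_product, Finset.card_map, Finset.card_univ, Fintype.card_bool] at h1
      omega
    have hC : 2 ≤ (Finset.univ.filter fun a => ¬ cl a ≠ none).card := by
      have h1 : (Finset.univ.filter fun a => cl a ≠ none).card +
          (Finset.univ.filter fun a => ¬ cl a ≠ none).card = 14 := by
        rw [Finset.card_filter_add_card_filter_not]
        simp
      omega
    unfold DT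
    refine Finset.sum_congr rfl fun ρ _ => ?_
    congr 1
    by_cases hex : ∃ a, cl a = none ∧ e (ρ a) ∉ base
    · obtain ⟨a, ha, ha'⟩ := hex
      have h2 := H2 a ha (ρ a) ha'
      exact (T.map_coord_zero (m := fun j => t j (e (ρ j))) a h2.1).trans
        (T.map_coord_zero (m := fun j => th j (e (ρ j))) a h2.2).symm
    · push Not at hex
      congr 1
      funext a
      by_cases ha : cl a = none
      · exact H4' a ha _ (hex a ha)
      · refine H3 a ha _ fun hmem => ?_
        have h1 : (Finset.univ.filter fun a => ¬ cl a ≠ none).image (fun a => e (ρ a)) = base := by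
          refine Finset.eq_of_subset_of_card_le ?_ ?_
          · intro d hd
            obtain ⟨a', ha', rfl⟩ := Finset.mem_image.1 hd
            exact hex a' (not_not.1 (Finset.mem_filter.1 ha').2)
          · rw [Finset.card_image_of_injective _ (f := fun a => e (ρ a)) (he.comp ρ.injective)]
            exact hb2.trans hC
        rw [← h1] at hmem
        obtain ⟨a', ha', h2⟩ := Finset.mem_image.1 hmem
        have h3 : a' = a := ρ.injective (he h2)
        subst h3
        exact ha (not_not.1 (Finset.mem_filter.1 ha').2)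

section

variable {R : H95.Region} {m : ∀ k, Fin (R.n k + 1)}

/-- the label of the cluster of a mark -/
def cl (B : Finset (W R m).Fr) (a : Fin 14) : Option (Fin 3 × ℕ) :=
  match cmp R (big R m B) (mrk a) with
  | Sum.inl _ => none
  | Sum.inr x => some x

/-- the labels of the clusters -/
def Lb (B : Finset (W R m).Fr) : Finset (Fin 3 × ℕ) :=
  (Finset.univ.sigma fun k : Fin 3 => Finset.Ico 1 (crd R (big R m B) k)).image
    fun x => (x.1, x.2)

theorem cl_some {B : Finset (W R m).Fr} {a : Fin 14} {c : Fin 3 × ℕ} :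
    cl B a = some c ↔ cmp R (big R m B) (mrk a) = Sum.inr c := by
  unfold cl
  rcases h : cmp R (big R m B) (mrk a) with s | x
  · simp
  · simp

theorem cl_none {B : Finset (W R m).Fr} {a : Fin 14} :
    cl B a = none ↔ ∃ s, cmp R (big R m B) (mrk a) = Sum.inl s := by
  unfold cl
  rcases h : cmp R (big R m B) (mrk a) with s | x
  · simp
  · simp

theorem cntG_le_crd (B : Finset R.Gap) (k : Fin 3) (i : ℕ) : cntG R B k i ≤ crd R B k :=
  Finset.card_le_card fun g hg => by
    rw [Finset.mem_filter] at hg ⊢
    exact ⟨hg.1, hg.2.1⟩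

theorem mem_Lb {B : Finset (W R m).Fr} {a : Fin 14} {c : Fin 3 × ℕ} (h : cl B a = some c) :
    c ∈ Lb B := by
  rw [cl_some] at h
  unfold H573.cmp at h
  split at h
  · cases h
  · rename_i k hk
    split_ifs at h with h1 h2
    have h3 := Sum.inr.inj h
    subst h3
    refine Finset.mem_image.2 ⟨⟨k, _⟩, Finset.mem_sigma.2 ⟨Finset.mem_univ _,
      Finset.mem_Ico.2 ⟨Nat.one_le_iff_ne_zero.2 h1, ?_⟩⟩, rfl⟩
    exact lt_of_le_of_ne (cntG_le_crd _ _ _) h2

theorem card_big (B : Finset (W R m).Fr) : (big R m B).card = B.card + 3 := by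
  rw [big, Finset.card_union_of_disjoint, Finset.card_map, Finset.card_image_of_injective]
  · simp
  · intro k k' h
    exact congrArg Sigma.fst h
  · rw [Finset.disjoint_left]
    intro g h1 h2
    obtain ⟨f, -, rfl⟩ := Finset.mem_map.1 h1
    obtain ⟨k, -, hk⟩ := Finset.mem_image.1 h2
    apply f.2
    simp only [Function.Embedding.coeFn_mk] at hk ⊢
    rw [← hk, (W R m).nk_last]

theorem crd_pos (B : Finset (W R m).Fr) (k : Fin 3) : 1 ≤ crd R (big R m B) k := by
  refine Finset.card_pos.2 ⟨(W R m).last k, Finset.mem_filter.2 ⟨?_, rfl⟩⟩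
  exact Finset.mem_union_right _ (Finset.mem_image_of_mem _ (Finset.mem_univ _))

theorem sum_crd (B : Finset (W R m).Fr) : ∑ k, crd R (big R m B) k = B.card + 3 := by
  rw [← card_big B]
  exact (Finset.card_eq_sum_card_fiberwise (f := fun g : R.Gap => g.1)
    (t := Finset.univ) fun g _ => Finset.mem_coe.2 (Finset.mem_univ _)).symm

theorem card_Lb (B : Finset (W R m).Fr) : (Lb B).card ≤ B.card := by
  refine Finset.card_image_le.trans ?_
  rw [Finset.card_sigma]
  simp only [Nat.card_Ico]
  have h1 := sum_crd B
  have h2 : ∑ k, (crd R (big R m B) k - 1) + ∑ _k : Fin 3, 1 = ∑ k, crd R (big R m B) k := by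
    rw [← Finset.sum_add_distrib]
    exact Finset.sum_congr rfl fun k _ => Nat.sub_add_cancel (crd_pos B k)
  simp at h2
  omega

end

end Vale.Agent.P273.H261
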