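import Vale.Agent.P273.H573.Skel
import Vale.Agent.P273.H375.DenR

/-!
P273, LIM: the side of `F` in the pointwise limits. Along `dpt B N p`, `N → ∞`, at a generic point:
* `tendsto_FR`: on fixed vectors the form converges to `FL`;
* `small_dpsi`: the derivative of the chart on the directions of `B` and of the base is smaller
  than every power of `N`.
-/

noncomputable section

namespace Vale.Agent.P273.H261

open Set Filter H681 H95 H732 H973 H562 H573
open scoped Topology ContDiff

section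

variable {R : H95.Region} {m : ∀ k, Fin (R.n k + 1)} {B : Finset (W R m).Fr} {p : Co R m}

theorem FR_eq_pb (X : Ext) (S : L → Bool) (q : Co R m) :
    FR R m X S q = (W R m).pb (H732.FW X R S) q := rfl

theorem mem_big {g : R.Gap} : g ∈ big R m B ↔
    (∃ f ∈ B, f.1 = g) ∨ ∃ k, (W R m).last k = g := by
  simp only [big, Finset.mem_union, Finset.mem_map, Finset.mem_image, Finset.mem_univ, true_and,
    Function.Embedding.coeFn_mk]

theorem last_mem_big (k : Fin 3) : (W R m).last k ∈ big R m B := mem_big.2 (Or.inr ⟨k, rfl⟩)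

theorem free_mem_big {f : (W R m).Fr} : f.1 ∈ big R m B ↔ f ∈ B := by
  rw [mem_big]
  constructor
  · rintro (⟨f', hf', h⟩ | ⟨k, hk⟩)
    · have : f' = f := Subtype.ext h
      rwa [← this]
    · exfalso
      apply f.2
      rw [← hk, (W R m).nk_last]
  · intro h
    exact Or.inl ⟨f, h, rfl⟩

/-- the limits of the gaps -/
theorem tendsto_tau (hp : (W R m).Pos (B : Set (W R m).Fr) p) (g : R.Gap) :
    Tendsto (fun N : ℝ => (W R m).tau ((W R m).dpt (B : Set (W R m).Fr) N p) g) atTop
      (𝓝 (if g ∈ big R m B then 0 else (W R m).tau p g)) := by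
  have h := ((W R m).lim_dpt (B : Set (W R m).Fr) (tendsto_id (α := ℝ) (x := atTop)) hp).tau g
  have e : ((W R m).qlim (B : Set (W R m).Fr) p).1 g =
      if g ∈ big R m B then 0 else (W R m).tau p g := by
    simp only [Reg.qlim]
    by_cases hg : g ≠ (W R m).last ((W R m).nk g)
    · rw [dif_pos hg]
      have h2 : (⟨g, hg⟩ : (W R m).Fr) ∈ (B : Set (W R m).Fr) ↔ g ∈ big R m B := by
        rw [Finset.mem_coe]
        exact (free_mem_big (f := ⟨g, hg⟩)).symm
      by_cases h3 : g ∈ big R m B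
      · rw [if_pos h3, if_pos (h2.2 h3)]
      · rw [if_neg h3, if_neg fun h4 => h3 (h2.1 h4)]
    · rw [dif_neg hg, if_pos]
      rw [not_not.1 hg]
      exact last_mem_big _
  rw [← e]
  exact h

/-- the limit of the derivative of the chart on a fixed vector -/
theorem tendsto_dpsi (hp : (W R m).Pos (B : Set (W R m).Fr) p) (v : Co R m) :
    Tendsto (fun N : ℝ => (H732.scl R) ((W R m).dpsi ((W R m).dpt (B : Set (W R m).Fr) N p) v))
      atTop (𝓝 (dqz R m (big R m B) p v)) := by
  refine ((H732.scl R).continuous.tendsto _).comp ?_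
  simp only [Reg.dpsi_apply]
  refine Tendsto.prodMk_nhds ?_ ?_
  · rw [tendsto_pi_nhds]
    intro g
    exact (tendsto_tau hp g).mul_const _
  · exact tendsto_const_nhds

/-- the limit of the chart -/
theorem tendsto_emb (hp : (W R m).Pos (B : Set (W R m).Fr) p) :
    Tendsto (fun N : ℝ => emb R m ((W R m).dpt (B : Set (W R m).Fr) N p)) atTop
      (𝓝 (qz R m (big R m B) p)) := by
  refine ((H732.scl R).continuous.tendsto _).comp ?_
  refine Tendsto.prodMk_nhds ?_ tendsto_const_nhds
  rw [tendsto_pi_nhds]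
  exact fun g => tendsto_tau hp g

/-- the form converges -/
theorem tendsto_H (X : Ext) {S : L → Bool} (hS : FarOk R S)
    (hp : (W R m).Pos (B : Set (W R m).Fr) p) (hd : qz R m (big R m B) p ∈ R.dom S) :
    Tendsto (fun N : ℝ => X.H R S (emb R m ((W R m).dpt (B : Set (W R m).Fr) N p))) atTop
      (𝓝 (X.H R S (qz R m (big R m B) p))) := by
  have h1 : ContinuousAt (X.H R S) (qz R m (big R m B) p) :=
    ((X.hreg R S hS).1.continuousOn).continuousAt ((H375.isOpen_dom R S).mem_nhds hd)
  exact h1.tendsto.comp (tendsto_emb hp)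

/-- **the limit of `F` on fixed vectors** -/
theorem tendsto_FR (X : Ext) {S : L → Bool} (hS : FarOk R S)
    (hp : (W R m).Pos (B : Set (W R m).Fr) p) (hd : qz R m (big R m B) p ∈ R.dom S)
    (v : Fin 16 → Co R m) :
    Tendsto (fun N : ℝ => FR R m X S ((W R m).dpt (B : Set (W R m).Fr) N p) v) atTop
      (𝓝 (FL R m X S (big R m B) p v)) := by
  have h1 := tendsto_H X hS hp hd
  have h2 : Tendsto (fun N : ℝ => fun i => (H732.scl R)
      ((W R m).dpsi ((W R m).dpt (B : Set (W R m).Fr) N p) (v i))) atTop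
      (𝓝 (fun i => dqz R m (big R m B) p (v i))) :=
    tendsto_pi_nhds.2 fun i => tendsto_dpsi hp (v i)
  exact Reg.tendsto_eval (f := fun N : ℝ => X.H R S (emb R m ((W R m).dpt
    (B : Set (W R m).Fr) N p))) h1 h2

/-- the sizes of the large gaps grow linearly -/
theorem exists_ug (hp : (W R m).Pos (B : Set (W R m).Fr) p) {g : R.Gap} (hg : g ∈ big R m B) :
    ∃ a b : ℝ, 0 < a ∧ ∀ N : ℝ, (W R m).ug ((W R m).dpt (B : Set (W R m).Fr) N p) g = a * N - b := by
  classical
  rcases mem_big.1 hg with ⟨f, hf, rfl⟩ | ⟨k, rfl⟩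
  · refine ⟨p.1 f, 0, hp.1 f hf, fun N => ?_⟩
    rw [(W R m).ug_free]
    simp only [Reg.dpt]
    rw [if_pos (Finset.mem_coe.2 hf)]
    ring
  · refine ⟨_, -(W R m).ul ((W R m).dpt (B : Set (W R m).Fr) 0 p) k, sub_pos.2 (hp.2 k),
      fun N => ?_⟩
    rw [(W R m).ug_last, (W R m).ul_dpt, (W R m).ul_dpt]
    ring

theorem pow_mul_exp (r : ℕ) {a : ℝ} (ha : 0 < a) (b : ℝ) :
    Tendsto (fun N : ℝ => N ^ r * Real.exp (-(a * N - b))) atTop (𝓝 0) := by
  have h1 : Tendsto (fun N : ℝ => a * N) atTop atTop := tendsto_id.const_mul_atTop ha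
  have h2 := (Real.tendsto_pow_mul_exp_neg_atTop_nhds_zero r).comp h1
  have h3 := h2.const_mul (Real.exp b / a ^ r)
  rw [mul_zero] at h3
  refine h3.congr fun N => ?_
  simp only [Function.comp_apply]
  have : Real.exp (-(a * N - b)) = Real.exp b * Real.exp (-(a * N)) := by
    rw [← Real.exp_add]; congr 1; ring
  rw [this, mul_pow]
  have ha' : a ^ r ≠ 0 := (pow_pos ha r).ne'
  field_simp

/-- the large gaps are smaller than every power -/
theorem small_tau (hp : (W R m).Pos (B : Set (W R m).Fr) p) {g : R.Gap} (hg : g ∈ big R m B)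
    (r : ℕ) : Tendsto (fun N : ℝ => N ^ r *
      ‖(W R m).tau ((W R m).dpt (B : Set (W R m).Fr) N p) g‖) atTop (𝓝 0) := by
  obtain ⟨a, b, ha, h⟩ := exists_ug hp hg
  simp only [Reg.norm_tau, h]
  exact pow_mul_exp r ha b

/-- **the derivative of the chart on a vector that touches only large gaps is smaller than every
power** -/
theorem small_dpsi (hp : (W R m).Pos (B : Set (W R m).Fr) p) (v : ℝ → Co R m) (r : ℕ)
    (hs : ∀ N, (v N).2.2.2.2 = 0) (hZ : ∀ g, g ∉ big R m B → ∀ N, (W R m).Z (v N) g = 0)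
    {c : ℝ} (hc : ∀ g, ∀ᶠ N in atTop, ‖(W R m).Z (v N) g‖ ≤ c * N) :
    Tendsto (fun N : ℝ => N ^ r *
      ‖(W R m).dpsi ((W R m).dpt (B : Set (W R m).Fr) N p) (v N)‖) atTop (𝓝 0) := by
  have h1 : ∀ g : R.Gap, Tendsto (fun N : ℝ => N ^ r *
      ‖(W R m).tau ((W R m).dpt (B : Set (W R m).Fr) N p) g * (W R m).Z (v N) g‖) atTop (𝓝 0) := by
    intro g
    by_cases hg : g ∈ big R m B
    · have h2 := (small_tau hp hg (r + 1)).const_mul c
      rw [mul_zero] at h2
      refine squeeze_zero' ?_ ?_ h2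
      · filter_upwards [eventually_ge_atTop 0] with N hN
        exact mul_nonneg (pow_nonneg hN _) (norm_nonneg _)
      · filter_upwards [hc g, eventually_ge_atTop 0] with N h3 hN
        rw [norm_mul]
        calc N ^ r * (‖(W R m).tau ((W R m).dpt (B : Set (W R m).Fr) N p) g‖ *
              ‖(W R m).Z (v N) g‖)
            ≤ N ^ r * (‖(W R m).tau ((W R m).dpt (B : Set (W R m).Fr) N p) g‖ * (c * N)) := by
              gcongr
          _ = _ := by ring
    · simp only [hZ g hg, mul_zero, norm_zero]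
      exact tendsto_const_nhds
  have h2 : Tendsto (fun N : ℝ => ∑ g : R.Gap, N ^ r *
      ‖(W R m).tau ((W R m).dpt (B : Set (W R m).Fr) N p) g * (W R m).Z (v N) g‖) atTop
      (𝓝 0) := by
    have := tendsto_finsetSum (Finset.univ : Finset R.Gap) fun g _ => h1 g
    simpa using this
  refine squeeze_zero' ?_ ?_ h2
  · filter_upwards [eventually_ge_atTop 0] with N hN
    exact mul_nonneg (pow_nonneg hN _) (norm_nonneg _)
  · filter_upwards [eventually_ge_atTop 0] with N hN
    rw [← Finset.mul_sum]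
    refine mul_le_mul_of_nonneg_left ?_ (pow_nonneg hN _)
    rw [(W R m).dpsi_apply, hs, Prod.norm_mk, norm_zero, max_eq_left (norm_nonneg _)]
    refine (pi_norm_le_iff_of_nonneg (Finset.sum_nonneg fun g _ => norm_nonneg _)).2 fun g => ?_
    exact Finset.single_le_sum (f := fun g => ‖(W R m).tau ((W R m).dpt
      (B : Set (W R m).Fr) N p) g * (W R m).Z (v N) g‖) (fun g _ => norm_nonneg _)
      (Finset.mem_univ g)

/-- the form is eventually bounded in terms of the vectors -/
theorem FR_bound (X : Ext) {S : L → Bool} (hS : FarOk R S)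
    (hp : (W R m).Pos (B : Set (W R m).Fr) p) (hd : qz R m (big R m B) p ∈ R.dom S) :
    ∃ c : ℝ, 0 ≤ c ∧ ∀ᶠ N : ℝ in atTop, ∀ v : Fin 16 → Co R m,
      |FR R m X S ((W R m).dpt (B : Set (W R m).Fr) N p) v| ≤
        c * ∏ i, ‖(W R m).dpsi ((W R m).dpt (B : Set (W R m).Fr) N p) (v i)‖ := by
  have h1 := (tendsto_H X hS hp hd).norm
  refine ⟨‖X.H R S (qz R m (big R m B) p)‖ + 1, by positivity, ?_⟩
  filter_upwards [h1.eventually (gt_mem_nhds (lt_add_one _))] with N hN v
  have h2 : FR R m X S ((W R m).dpt (B : Set (W R m).Fr) N p) v =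
      X.H R S (emb R m ((W R m).dpt (B : Set (W R m).Fr) N p)) (fun i => (H732.scl R)
        ((W R m).dpsi ((W R m).dpt (B : Set (W R m).Fr) N p) (v i))) := rfl
  rw [h2, ← Real.norm_eq_abs]
  refine (ContinuousAlternatingMap.le_opNorm _ _).trans ?_
  refine mul_le_mul hN.le ?_ (Finset.prod_nonneg fun i _ => norm_nonneg _) (by positivity)
  exact Finset.prod_le_prod (fun i _ => norm_nonneg _) fun i _ => norm_scl_le R _

end

end Vale.Agent.P273.H261
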