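import Vale.Agent.P273.H261.PtDefs
import Vale.Agent.P273.H261.Point3
import Vale.Agent.P273.H975.FLim

/-!
P273, LIM: the indices of the frame `fr30`, the marks and the free gaps.
-/

noncomputable section

namespace Vale.Agent.P273.H261

open Set Filter Function H681 H95 H732 H973 H562 H573
open scoped Topology ContDiff

/-- the two directions of the mark number `a` -/
def gp (x : Fin 14 × Fin 2) : Fin (16 + 14) := ⟨2 * x.1 + x.2, by omega⟩

/-- the two directions of the base -/
def bs (i : Fin 2) : Fin (16 + 14) := ⟨28 + i, by omega⟩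

theorem gp_injective : Injective gp := by
  rintro ⟨a, c⟩ ⟨a', c'⟩ h
  have h1 := congrArg Fin.val h
  simp only [gp] at h1
  have h2 : (a : ℕ) = a' := by omega
  have h3 : (c : ℕ) = c' := by omega
  exact Prod.ext (Fin.ext h2) (Fin.ext h3)

theorem bs_injective : Injective bs := by
  intro i j h
  have h1 := congrArg Fin.val h
  simp only [bs] at h1
  exact Fin.ext (by omega)

theorem gp_ne_bs (x : Fin 14 × Fin 2) (i : Fin 2) : gp x ≠ bs i := by
  intro h
  have h1 := congrArg Fin.val h
  simp only [gp, bs] at h1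
  omega

theorem exists_dir (d : Fin (16 + 14)) : (∃ a c, d = gp (a, c)) ∨ ∃ i, d = bs i := by
  by_cases h : (d : ℕ) < 28
  · left
    refine ⟨⟨d / 2, by omega⟩, ⟨d % 2, by omega⟩, Fin.ext ?_⟩
    simp only [gp]
    omega
  · right
    exact ⟨⟨d - 28, by omega⟩, Fin.ext (by simp only [bs]; omega)⟩

section

variable {R : H95.Region} {m : ∀ k, Fin (R.n k + 1)}

theorem fr30_gp (x y : Co R m) (a : Fin 14) (c : Fin 2) :
    fr30 R m x y (gp (a, c)) = fr R m (mrk a) (decide (c = 1)) := by
  have h1 : fr30 R m x y (gp (a, c)) = fr28 R m ⟨2 * a + c, by omega⟩ :=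
    Fin.append_left (m := 28) (n := 2) (fr28 R m) ![x, y] ⟨2 * a + c, by omega⟩
  rw [h1, fr28]
  have h2 : (⟨(2 * (a : ℕ) + c) / 2, by omega⟩ : Fin 14) = a := Fin.ext (by simp only; omega)
  have h3 : decide ((2 * (a : ℕ) + c) % 2 = 1) = decide (c = 1) := by
    apply decide_eq_decide.2
    constructor
    · intro h
      exact Fin.ext (by simp only [Fin.val_one]; omega)
    · intro h
      rw [h]
      simp only [Fin.val_one]
      omega
  simp only
  rw [h3, h2]

theorem fr30_bs (x y : Co R m) (c : Fin 2) : fr30 R m x y (bs c) = (![x, y] : Fin 2 → Co R m) c :=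
  Fin.append_right (m := 28) (n := 2) (fr28 R m) ![x, y] c

/-- every rank is taken -/
theorem exists_mark (k : Fin 3) (i : Fin (R.n k)) :
    ∃ (j : L) (h : R.pl j = Sum.inl k), rkF R h = i := by
  classical
  have hinj : Injective (fun j : {j : L // R.pl j = Sum.inl k} => rkF R j.2) := by
    rintro ⟨j, hj⟩ ⟨j', hj'⟩ h
    have h1 : R.rk j = R.rk j' := congrArg Fin.val h
    exact Subtype.ext (R.rk_inj j j' k hj hj' h1)
  have hcard : Fintype.card {j : L // R.pl j = Sum.inl k} = Fintype.card (Fin (R.n k)) := by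
    rw [Fintype.card_fin, Fintype.card_subtype]
    rfl
  have hbij := (Fintype.bijective_iff_injective_and_card _).2 ⟨hinj, hcard⟩
  obtain ⟨⟨j, hj⟩, h⟩ := hbij.2 i
  exact ⟨j, hj, h⟩

theorem exists_gap (f : (W R m).Fr) : ∃ j, gapOf R m j = some f := by
  obtain ⟨⟨k, i⟩, rfl⟩ := (frE R.n m).surjective f
  obtain ⟨j, hj, rfl⟩ := exists_mark k i
  exact ⟨j, gapOf_neck R m hj⟩

theorem gapOf_some {j : L} {f : (W R m).Fr} (h : gapOf R m j = some f) :
    ∃ (k : Fin 3) (hk : R.pl j = Sum.inl k), frE R.n m ⟨k, rkF R hk⟩ = f := by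
  obtain ⟨x, hx⟩ : ∃ x, R.pl j = x := ⟨_, rfl⟩
  rcases x with k | b
  · refine ⟨k, hx, ?_⟩
    rw [gapOf_neck R m hx] at h
    exact Option.some.inj h
  · rw [gapOf_core R m hx] at h
    cases h

theorem gapOf_inj {j j' : L} {f : (W R m).Fr} (h : gapOf R m j = some f)
    (h' : gapOf R m j' = some f) : j = j' := by
  obtain ⟨k, hk, rfl⟩ := gapOf_some h
  obtain ⟨k', hk', h2⟩ := gapOf_some h'
  have h3 := (frE R.n m).injective h2
  have h4 : k' = k := congrArg Sigma.fst h3
  subst h4
  have h5 : rkF R hk' = rkF R hk := by simpa using h3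
  exact R.rk_inj j j' k' hk hk' (congrArg Fin.val h5).symm

theorem fr_neck {j : L} {k : Fin 3} (h : R.pl j = Sum.inl k) (c : Bool) :
    fr R m j c = if c then (W R m).vec (.ph (frE R.n m ⟨k, rkF R h⟩))
      else -(W R m).vec (.u (frE R.n m ⟨k, rkF R h⟩)) := by
  unfold fr
  split
  · rename_i k' h'
    have hk : k' = k := by rw [h] at h'; exact (Sum.inl.inj h').symm
    subst hk
    rfl
  · rename_i b h'
    rw [h] at h'
    cases h'

theorem fr_some {j : L} {f : (W R m).Fr} (h : gapOf R m j = some f) (c : Bool) :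
    fr R m j c = if c then (W R m).vec (.ph f) else -(W R m).vec (.u f) := by
  obtain ⟨k, hk, rfl⟩ := gapOf_some h
  exact fr_neck hk c

theorem fr_none {j : L} (h : gapOf R m j = none) :
    ∃ c0 : R.Cm, ∀ c, fr R m j c = if c then (W R m).vec (.im c0) else (W R m).vec (.re c0) := by
  rcases hj : R.pl j with k | b
  · rw [gapOf_neck R m hj] at h
    cases h
  · refine ⟨⟨j, by simp [hj]⟩, fun c => ?_⟩
    unfold fr
    split
    · rename_i k' h'
      rw [hj] at h'
      cases h'
    · rfl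

/-- the numbers of the marks whose gap is in `B` -/
def Bm (B : Finset (W R m).Fr) : Finset (Fin 14) :=
  Finset.univ.filter fun a => ∃ f ∈ B, gapOf R m (mrk a) = some f

theorem mem_Bm {B : Finset (W R m).Fr} {a : Fin 14} :
    a ∈ Bm B ↔ ∃ f ∈ B, gapOf R m (mrk a) = some f := by
  simp [Bm]

theorem card_Bm (B : Finset (W R m).Fr) : (Bm B).card = B.card := by
  symm
  have h1 : ∀ f : (W R m).Fr, ∃ a, gapOf R m (mrk a) = some f := by
    intro f
    obtain ⟨j, hj⟩ := exists_gap f
    obtain ⟨a, rfl⟩ := H975.exists_mrk j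
    exact ⟨a, hj⟩
  choose a ha using h1
  refine Finset.card_bij (fun f _ => a f) ?_ ?_ ?_
  · intro f hf
    exact mem_Bm.2 ⟨f, hf, ha f⟩
  · intro f _ f' _ h
    have h2 := ha f
    have h3 := ha f'
    rw [h] at h2
    exact Option.some.inj (h2.symm.trans h3)
  · intro b hb
    obtain ⟨f, hf, hf'⟩ := mem_Bm.1 hb
    exact ⟨f, hf, H975.mrk_injective (gapOf_inj (ha f) hf')⟩

end

end Vale.Agent.P273.H261
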