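import Vale.Agent.P273.H261.PtDir
import Vale.Agent.P273.H261.PtF
import Vale.Agent.P273.H422.GenAdm
import Vale.Agent.P273.H422.PtAlg
import Vale.Agent.P273.H422.GrT
import Vale.Agent.P273.H732.EulB

/-!
P273, LIM: the legs on the frame along the dilated points: limits and bounds; the comparison of the
limits with `thL`.
-/

noncomputable section

namespace Vale.Agent.P273.H261

open Set Filter Function H681 H95 H732 H973 H562 H573
open Vale.Agent.P273.H254 (DT)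
open scoped Topology ContDiff

theorem isCl_col4 (a : Fin 4) : IsCl (col4 a) := by
  fin_cases a <;> simp [IsCl, col4, Fin.sum_univ_succ] <;> norm_num

theorem mem_sm {i : Fin 4} : i ∈ sm ↔ i = 1 ∨ i = 3 := by
  fin_cases i <;> simp [sm]

theorem notMem_sm {i : Fin 4} : i ∉ sm ↔ i = 0 ∨ i = 2 := by
  fin_cases i <;> simp [sm]

/-- a finite family of eventual bounds has a common bound -/
theorem exists_common {ι ν : Type*} [Fintype ι] {L : Filter ν} (s g : ι → ν → ℝ)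
    (hs : ∀ x, ∀ᶠ n in L, 0 ≤ s x n)
    (h : ∀ x, ∃ K : ℝ, ∀ᶠ n in L, g x n ≤ K * s x n) :
    ∃ K : ℝ, 0 ≤ K ∧ ∀ x, ∀ᶠ n in L, g x n ≤ K * s x n := by
  choose K hK using h
  refine ⟨∑ x, |K x|, Finset.sum_nonneg fun x _ => abs_nonneg _, fun x => ?_⟩
  filter_upwards [hK x, hs x] with n h1 h2
  refine h1.trans (mul_le_mul_of_nonneg_right ?_ h2)
  exact (le_abs_self _).trans (Finset.single_le_sum (f := fun x => |K x|)
    (fun x _ => abs_nonneg _) (Finset.mem_univ x))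

section

variable (R : H95.Region) (m : ∀ k, Fin (R.n k + 1))

/-- the scaled vector of a direction at the dilated point -/
def bvec (B : Finset (W R m).Fr) (p : Co R m) (N : ℝ) (d : BDir R m) : Co R m :=
  d.sca R m N • d.vec R m (↑B) ((W R m).dpt (↑B) N p)

/-- the vector of a direction in the limit form -/
def blim (d : BDir R m) : Co R m :=
  match d with
  | .u f => (W R m).vec (.u f)
  | .ph f => (W R m).vec (.ph f)
  | .al k => (W R m).vec (.al k)
  | .eul k => (W R m).vec (.y k)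

theorem bvec_al (B : Finset (W R m).Fr) (p : Co R m) (N : ℝ) (k : Fin 3) :
    bvec R m B p N (.al k) = (W R m).vec (.al k) := by
  unfold bvec
  exact one_smul ℝ _

/-- the limits of the legs on the frame -/
def tl (κ : Fin 3 → Fin 3 → ℝ) (B : Finset (W R m).Fr) (p : Co R m) (bd : Fin 2 → BDir R m)
    (a' : Fin 14) (d : Fin (16 + 14)) : H4 := fun i =>
  if h : (d : ℕ) < 28 then
    match gapOf R m (mrk ⟨(d : ℕ) / 2, by omega⟩) with
    | some f => if (d : ℕ) % 2 = 1 then lgl κ R m B p (mrk a') (col4 i) (.ph f)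
        else -lgl κ R m B p (mrk a') (col4 i) (.u f)
    | none => 0
  else lgl κ R m B p (mrk a') (col4 i) (bd ⟨(d : ℕ) - 28, by omega⟩)

end

section

variable {κ : Fin 3 → Fin 3 → ℝ} {Θ : Gauge} {R : H95.Region} {m : ∀ k, Fin (R.n k + 1)}
  {B : Finset (W R m).Fr} {p : Co R m} {S : L → Bool}

theorem thR_apply (a : Fin 14) (q v : Co R m) (i : Fin 4) :
    thR R m Θ S a q v i = leg R m Θ S (mrk a) (col4 i) q v := rfl

theorem tl_gp0 (bd : Fin 2 → BDir R m) (a' a : Fin 14) {f : (W R m).Fr}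
    (h : gapOf R m (mrk a) = some f) (i : Fin 4) :
    tl R m κ B p bd a' (gp (a, 0)) i = -lgl κ R m B p (mrk a') (col4 i) (.u f) := by
  unfold tl
  have h1 : ((gp (a, 0) : Fin (16 + 14)) : ℕ) = 2 * a := by simp [gp]
  have h2 : ((gp (a, 0) : Fin (16 + 14)) : ℕ) < 28 := by rw [h1]; omega
  have h3 : (⟨((gp (a, 0) : Fin (16 + 14)) : ℕ) / 2, by omega⟩ : Fin 14) = a :=
    Fin.ext (by simp only [h1]; omega)
  rw [dif_pos h2, h3, h]
  simp only [h1]
  rw [if_neg (by omega)]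

theorem tl_gp1 (bd : Fin 2 → BDir R m) (a' a : Fin 14) {f : (W R m).Fr}
    (h : gapOf R m (mrk a) = some f) (i : Fin 4) :
    tl R m κ B p bd a' (gp (a, 1)) i = lgl κ R m B p (mrk a') (col4 i) (.ph f) := by
  unfold tl
  have h1 : ((gp (a, 1) : Fin (16 + 14)) : ℕ) = 2 * a + 1 := by simp [gp]
  have h2 : ((gp (a, 1) : Fin (16 + 14)) : ℕ) < 28 := by rw [h1]; omega
  have h3 : (⟨((gp (a, 1) : Fin (16 + 14)) : ℕ) / 2, by omega⟩ : Fin 14) = a :=
    Fin.ext (by simp only [h1]; omega)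
  rw [dif_pos h2, h3, h]
  simp only [h1]
  rw [if_pos (by omega)]

theorem tl_bs (bd : Fin 2 → BDir R m) (a' : Fin 14) (c : Fin 2) (i : Fin 4) :
    tl R m κ B p bd a' (bs c) i = lgl κ R m B p (mrk a') (col4 i) (bd c) := by
  unfold tl
  have h1 : ((bs c : Fin (16 + 14)) : ℕ) = 28 + c := by simp [bs]
  have h2 : ¬ ((bs c : Fin (16 + 14)) : ℕ) < 28 := by rw [h1]; omega
  rw [dif_neg h2]
  congr 2
  exact Fin.ext (by simp only [h1]; omega)

/-! ### the legs along the dilated points -/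

/-- the limit of a leg on a scaled direction -/
theorem tendsto_leg (hA : Asy κ Θ) (hS : FarOk R S) (hp : Gen R m S (↑B) p)
    (hy : ∀ k, 0 < p.2.2.1 k) (j : L) {ξ : Fin 6 → ℝ} (hξ : IsCl ξ) {d : BDir R m}
    (hd : d.ok R m (↑B)) :
    Tendsto (fun N : ℝ => leg R m Θ S j ξ ((W R m).dpt (↑B) N p) (bvec R m B p N d)) atTop
      (𝓝 (lgl κ R m B p j ξ d)) := by
  have e : ∀ N : ℝ, leg R m Θ S j ξ ((W R m).dpt (↑B) N p) (bvec R m B p N d) =
      d.sca R m N * leg R m Θ S j ξ ((W R m).dpt (↑B) N p)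
        (d.vec R m (↑B) ((W R m).dpt (↑B) N p)) := by
    intro N
    rw [bvec, map_smul, smul_eq_mul]
  simp only [e]
  rcases hj : R.pl j with k | b
  · rw [lgl_neck κ R m B p hj]
    exact hA.limN R m S hS (↑B) p hp hy j k hj ξ hξ d hd
  · rw [lgl_core κ R m B p hj]
    exact hA.limC R m S hS (↑B) p hp hy j b hj ξ hξ d hd

/-- the legs are bounded on the vectors which are not `y` -/
theorem leg_bdd (hA : Asy κ Θ) (hS : FarOk R S) (hp : Gen R m S (↑B) p)
    (hy : ∀ k, 0 < p.2.2.1 k) (j : L) {ξ : Fin 6 → ℝ} (hξ : IsCl ξ) {d : (W R m).Dir R.Cm}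
    (hd : ∀ k, d ≠ .y k) :
    ∃ K : ℝ, ∀ᶠ N : ℝ in atTop,
      |leg R m Θ S j ξ ((W R m).dpt (↑B) N p) ((W R m).vec d)| ≤ K * 1 := by
  obtain ⟨K, N₀, -, h⟩ := hA.b1
  refine ⟨K * ‖ξ‖, ?_⟩
  filter_upwards [H422.gen_adm R m S hS (↑B) p hp hy N₀] with N hN
  rw [mul_one]
  exact h R m S hS _ hN j ξ hξ d hd

theorem ww_dpt (ξ : Fin 6 → ℝ) (N : ℝ) :
    ww ξ ((W R m).dpt (↑B) N p).2.2.1 = ww ξ p.2.2.1 * (1 / N) := by
  have h : ((W R m).dpt (↑B : Set (W R m).Fr) N p).2.2.1 = fun k => N * p.2.2.1 k := rfl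
  rw [h]
  unfold ww
  rw [Finset.sum_mul]
  refine Finset.sum_congr rfl fun k _ => ?_
  change |xe ξ k| / (N * p.2.2.1 k) = _
  rw [div_mul_div_comm, mul_one, mul_comm N]

/-- the legs of the classes on `f1, f2` are of size `1 / N` -/
theorem leg_small (hA : Asy κ Θ) (hS : FarOk R S) (hp : Gen R m S (↑B) p)
    (hy : ∀ k, 0 < p.2.2.1 k) (j : L) {ξ : Fin 6 → ℝ} (hξ : IsCl ξ) (h0 : ∀ k, bt ξ k = 0)
    {d : (W R m).Dir R.Cm} (hd : ∀ k, d ≠ .y k) :
    ∃ K : ℝ, ∀ᶠ N : ℝ in atTop,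
      |leg R m Θ S j ξ ((W R m).dpt (↑B) N p) ((W R m).vec d)| ≤ K * (1 / N) := by
  obtain ⟨K, N₀, -, h⟩ := hA.b6
  refine ⟨K * ww ξ p.2.2.1, ?_⟩
  filter_upwards [H422.gen_adm R m S hS (↑B) p hp hy N₀] with N hN
  have h1 := (h R m S hS _ hN j ξ hξ h0).1 d hd
  rw [ww_dpt, ← mul_assoc] at h1
  exact h1

/-- every vector of the frame of the marks is a coordinate vector up to sign -/
theorem fr_vec (j : L) (c : Bool) : ∃ (s : ℝ) (d : (W R m).Dir R.Cm), |s| = 1 ∧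
    (∀ k, d ≠ .y k) ∧ fr R m j c = s • (W R m).vec d := by
  rcases h : gapOf R m j with _ | f
  · obtain ⟨c0, h0⟩ := fr_none h
    rw [h0 c]
    cases c
    · exact ⟨1, .re c0, by simp, by simp, by simp⟩
    · exact ⟨1, .im c0, by simp, by simp, by simp⟩
  · rw [fr_some h c]
    cases c
    · exact ⟨-1, .u f, by simp, by simp, by simp⟩
    · exact ⟨1, .ph f, by simp, by simp, by simp⟩

end

end Vale.Agent.P273.H261
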