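import Vale.Agent.P273.H261.Wedge

/-!
Product formula: if `ω` is killed by `m` of the `k + m` vectors, the value of
`θ 0 ∧ ... ∧ θ (m-1) ∧ ω` is a determinant times a value of `ω`.
-/

namespace Vale.Agent.P273.H261

open Function

set_option linter.unusedSectionVars false

variable {V W : Type*} [NormedAddCommGroup V] [NormedSpace ℝ V]
  [NormedAddCommGroup W] [NormedSpace ℝ W]

/-- If `ω` is killed by more than `m` of the vectors the value is zero. -/
theorem wdL_eq_zero {k m : ℕ} (θ : Fin m → V →L[ℝ] ℝ) (ω : V [⋀^Fin k]→L[ℝ] W)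
    (v : Fin (k + m) → V) (P : Finset (Fin (k + m))) (hP : m < P.card)
    (hω : ∀ (x : Fin k → Fin (k + m)), (∃ l, x l ∈ P) → ω (fun l => v (x l)) = 0) :
    wdL m θ ω v = 0 := by
  rw [wdL_apply]
  refine Finset.sum_eq_zero fun c _ => ?_
  obtain ⟨d, hdP, hd⟩ : ∃ d ∈ P, ∀ j, av m c j ≠ d := by
    by_contra hcon
    push Not at hcon
    have : P ⊆ Finset.univ.image (av m c) := fun d hd => by
      obtain ⟨j, hj⟩ := hcon d hd
      exact Finset.mem_image.2 ⟨j, Finset.mem_univ _, hj⟩
    have h1 := Finset.card_le_card this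
    have h2 := (Finset.card_image_le (s := (Finset.univ : Finset (Fin m))) (f := av m c))
    rw [Finset.card_univ, Fintype.card_fin] at h2
    omega
  rcases exists_av_or_bv m c d with ⟨j, hj⟩ | ⟨l, hl⟩
  · exact absurd hj (hd j)
  · rw [hω (bv m c) ⟨l, hl ▸ hdP⟩, smul_zero]

/-- The first `m` indices. -/
def fst' (k m : ℕ) (j : Fin m) : Fin (k + m) := ⟨j, by omega⟩

/-- The last `k` indices. -/
def lst' (k m : ℕ) (l : Fin k) : Fin (k + m) := ⟨m + l, by omega⟩

theorem fst'_injective (k m : ℕ) : Injective (fst' k m) := fun i j h => by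
  have := congrArg Fin.val h
  simp only [fst'] at this
  exact Fin.ext this

/-- **Product formula, standard position.** -/
theorem wdL_split {k : ℕ} : ∀ (m : ℕ) (θ : Fin m → V →L[ℝ] ℝ) (ω : V [⋀^Fin k]→L[ℝ] W)
    (v : Fin (k + m) → V)
    (_ : ∀ (x : Fin k → Fin (k + m)), (∃ l j, x l = fst' k m j) → ω (fun l => v (x l)) = 0),
    wdL m θ ω v = (Matrix.det (Matrix.of fun i j : Fin m => θ i (v (fst' k m j)))) •
      ω (fun l => v (lst' k m l))
  | 0, θ, ω, v, _ => by
      rw [Matrix.det_fin_zero, one_smul]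
      have h0 : wdL 0 θ ω v = ω v := rfl
      rw [h0]
      congr 1
      funext l
      congr 1
      ext
      simp [lst']
  | m + 1, θ, ω, v, h => by
      have h0 : wdL (m + 1) θ ω v = wd (θ 0) (wdL m (fun j => θ j.succ) ω) v := rfl
      rw [h0, wd_apply, Matrix.det_succ_row_zero, Finset.sum_smul]
      refine (Fintype.sum_of_injective (fst' k (m + 1)) (fst'_injective _ _) _ _ ?_ ?_).symm
      · intro i hi
        have him : m + 1 ≤ (i : ℕ) := by
          by_contra hlt
          exact hi ⟨⟨i, by omega⟩, by ext; simp [fst']⟩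
        rw [wdL_eq_zero (fun j => θ j.succ) ω (fun l => v (i.succAbove l))
          (Finset.univ.image fun j : Fin (m + 1) => (⟨j, by omega⟩ : Fin (k + m))) ?_ ?_, smul_zero]
        · rw [Finset.card_image_of_injective]
          · simp
          · intro a b hab
            have := congrArg Fin.val hab
            exact Fin.ext this
        · rintro x ⟨l, hl⟩
          obtain ⟨j, -, hj⟩ := Finset.mem_image.1 hl
          refine h (fun l => i.succAbove (x l)) ⟨l, j, ?_⟩
          rw [← hj]
          ext
          simp only [fst', Fin.succAbove, Fin.lt_def, Fin.val_castSucc]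
          rw [if_pos (by omega)]
          simp
      · intro j
        have hsa : ∀ a : Fin m, (fst' k (m + 1) j).succAbove (fst' k m a) =
            fst' k (m + 1) (j.succAbove a) := by
          intro a
          ext
          simp only [fst', Fin.succAbove, Fin.lt_def, Fin.val_castSucc]
          split_ifs <;> simp
        have hsl : ∀ l : Fin k, (fst' k (m + 1) j).succAbove (lst' k m l) =
            lst' k (m + 1) l := by
          intro l
          ext
          have := j.2
          simp only [fst', lst', Fin.succAbove, Fin.lt_def, Fin.val_castSucc]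
          rw [if_neg (by omega)]
          simp
          omega
        rw [wdL_split m (fun j => θ j.succ) ω (fun l => v ((fst' k (m + 1) j).succAbove l)) ?_,
          smul_smul]
        · have h1 : ((fst' k (m + 1) j : Fin (k + (m + 1))) : ℕ) = (j : ℕ) := rfl
          rw [h1]
          simp_rw [hsa, hsl]
          rfl
        · rintro x ⟨l, a, hla⟩
          refine h (fun l => (fst' k (m + 1) j).succAbove (x l)) ⟨l, j.succAbove a, ?_⟩
          rw [hla, hsa]

/-- **Product formula, any position.** -/
theorem wdL_split_perm {k m : ℕ} (θ : Fin m → V →L[ℝ] ℝ) (ω : V [⋀^Fin k]→L[ℝ] W)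
    (v : Fin (k + m) → V) (π : Equiv.Perm (Fin (k + m)))
    (h : ∀ (x : Fin k → Fin (k + m)), (∃ l j, x l = π (fst' k m j)) →
      ω (fun l => v (x l)) = 0) :
    wdL m θ ω v = (Equiv.Perm.sign π) • ((Matrix.det (Matrix.of fun i j : Fin m =>
      θ i (v (π (fst' k m j))))) • ω (fun l => v (π (lst' k m l)))) := by
  have h1 : wdL m θ ω (v ∘ π) = (Equiv.Perm.sign π) • wdL m θ ω v :=
    (wdL m θ ω).toAlternatingMap.map_perm v π
  have h2 : wdL m θ ω v = (Equiv.Perm.sign π) • wdL m θ ω (v ∘ π) := by
    rw [h1, smul_smul, Int.units_mul_self, one_smul]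
  rw [h2, wdL_split m θ ω (v ∘ π) ?_]
  · rfl
  · rintro x ⟨l, j, hl⟩
    exact h (fun l => π (x l)) ⟨l, j, by rw [hl]⟩

/-- A permutation of pairs is even. -/
theorem sign_pairs {n : ℕ} (τ : Equiv.Perm (Fin n)) :
    Equiv.Perm.sign (finProdFinEquiv.permCongr (τ.prodCongr (Equiv.refl (Fin 2)))) = 1 := by
  rw [Equiv.Perm.sign_permCongr]
  have : τ.prodCongr (Equiv.refl (Fin 2)) = Equiv.prodCongrLeft fun _ : Fin 2 => τ := by
    ext ⟨a, b⟩ <;> simp
  rw [this, Equiv.Perm.sign_prodCongrLeft]
  simp

end Vale.Agent.P273.H261
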