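import Vale.Agent.P273.H261.PtComp
import Vale.Agent.P273.H484.Split

/-!
P273, LIM: the pointwise limits for both kinds of base directions.
-/

noncomputable section

namespace Vale.Agent.P273.H261

open Set Filter Function H681 H95 H732 H973 H562 H573 Equiv
open Vale.Agent.P273.H254 (DT)
open scoped Topology ContDiff

section

variable {κ : Fin 3 → Fin 3 → ℝ} {Θ : Gauge} {R : H95.Region} {m : ∀ k, Fin (R.n k + 1)}
  {B : Finset (W R m).Fr} {p : Co R m} {S : L → Bool}
  {bd : Fin 2 → BDir R m} {Yb : Finset (Fin 2)}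

/-- the frame along the dilated points -/
def wf (R : H95.Region) (m : ∀ k, Fin (R.n k + 1)) (B : Finset (W R m).Fr) (p : Co R m)
    (bd : Fin 2 → BDir R m) (N : ℝ) : Fin (16 + 14) → Co R m :=
  fr30 R m (bvec R m B p N (bd 0)) (bvec R m B p N (bd 1))

theorem wf_bs (N : ℝ) (c : Fin 2) : wf R m B p bd N (bs c) = bvec R m B p N (bd c) := by
  unfold wf
  rw [fr30_bs]
  fin_cases c <;> rfl

theorem wf_gp (N : ℝ) (a : Fin 14) (c : Fin 2) :
    wf R m B p bd N (gp (a, c)) = fr R m (mrk a) (decide (c = 1)) := by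
  unfold wf
  rw [fr30_gp]

/-! ### the side of `F` -/

theorem tendsto_dpsi' (hp : (W R m).Pos (B : Set (W R m).Fr) p) (v : Co R m) :
    Tendsto (fun N : ℝ => (W R m).dpsi ((W R m).dpt (B : Set (W R m).Fr) N p) v)
      atTop (𝓝 (fun g => (if g ∈ big R m B then 0 else (W R m).tau p g) * (W R m).Z v g,
        v.2.2.2.2)) := by
  simp only [Reg.dpsi_apply]
  refine Tendsto.prodMk_nhds ?_ tendsto_const_nhds
  rw [tendsto_pi_nhds]
  intro g
  exact (tendsto_tau hp g).mul_const _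

theorem bdd_of_tendsto {g : ℝ → ℝ} {a : ℝ} (h : Tendsto g atTop (𝓝 a)) :
    ∃ K : ℝ, ∀ᶠ N in atTop, g N ≤ K * 1 :=
  ⟨a + 1, by
    filter_upwards [h.eventually (gt_mem_nhds (lt_add_one a))] with N hN
    rw [mul_one]
    exact hN.le⟩

theorem dpsi_bdd (hp : (W R m).Pos (B : Set (W R m).Fr) p) (v : Co R m) :
    ∃ K : ℝ, ∀ᶠ N : ℝ in atTop,
      ‖(W R m).dpsi ((W R m).dpt (B : Set (W R m).Fr) N p) v‖ ≤ K * 1 :=
  bdd_of_tendsto (tendsto_dpsi' hp v).norm

theorem tendsto_dpsi_eul (hp : (W R m).Pos (B : Set (W R m).Fr) p) (hy : ∀ k, 0 < p.2.2.1 k)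
    (k : Fin 3) :
    Tendsto (fun N : ℝ => (W R m).dpsi ((W R m).dpt (B : Set (W R m).Fr) N p)
      (bvec R m B p N (.eul k))) atTop (𝓝 0) := by
  have h := (W R m).tendsto_dpsi_eulB tendsto_id (B : Set (W R m).Fr) hp k (hy k).ne' 1
  refine h.congr fun N => ?_
  rw [pow_one]
  rfl

theorem wf_bdd (hb : Bas bd Yb) (hp : (W R m).Pos (B : Set (W R m).Fr) p)
    (hy : ∀ k, 0 < p.2.2.1 k) (d : Fin (16 + 14)) :
    ∃ K : ℝ, ∀ᶠ N : ℝ in atTop,
      ‖(W R m).dpsi ((W R m).dpt (B : Set (W R m).Fr) N p) (wf R m B p bd N d)‖ ≤ K * 1 := by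
  rcases exists_dir d with ⟨a, c, rfl⟩ | ⟨c, rfl⟩
  · simp only [wf_gp]
    exact dpsi_bdd hp _
  · simp only [wf_bs]
    by_cases hc : c ∈ Yb
    · obtain ⟨k, hk⟩ := hb.eul c hc
      rw [hk]
      exact bdd_of_tendsto (tendsto_dpsi_eul hp hy k).norm
    · obtain ⟨k, hk⟩ := hb.al c hc
      simp only [hk, bvec_al]
      exact dpsi_bdd hp _

theorem dead_zero (hp : (W R m).Pos (B : Set (W R m).Fr) p) (e : (W R m).Dir R.Cm)
    (he : (W R m).Dead (B : Set (W R m).Fr) e) (r : ℕ) :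
    Tendsto (fun N : ℝ => N ^ r *
      ‖(W R m).dpsi ((W R m).dpt (B : Set (W R m).Fr) N p) ((W R m).vec e)‖) atTop (𝓝 0) := by
  have h := ((W R m).tendsto_dpsi_vec_dead tendsto_id (B : Set (W R m).Fr) hp e he r).norm
  rw [norm_zero] at h
  refine h.congr' ?_
  filter_upwards [eventually_ge_atTop 0] with N hN
  rw [map_smul, norm_smul, Real.norm_eq_abs]
  rw [id, abs_of_nonneg (pow_nonneg hN r)]

theorem wf_zero (hb : Bas bd Yb) (hp : (W R m).Pos (B : Set (W R m).Fr) p) (d : Fin (16 + 14))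
    (hd : (∃ g ∈ Bm B, ∃ i, d = gp (g, i)) ∨ ∃ i, i ∉ Yb ∧ d = bs i) (r : ℕ) :
    Tendsto (fun N : ℝ => N ^ r *
      ‖(W R m).dpsi ((W R m).dpt (B : Set (W R m).Fr) N p) (wf R m B p bd N d)‖) atTop
      (𝓝 0) := by
  rcases hd with ⟨g, hg, i, rfl⟩ | ⟨c, hc, rfl⟩
  · simp only [wf_gp]
    obtain ⟨f, hf, hf'⟩ := mem_Bm.1 hg
    have hi : i = 0 ∨ i = 1 := by omega
    rcases hi with rfl | rfl
    · have e0 : fr R m (mrk g) (decide ((0 : Fin 2) = 1)) = -(W R m).vec (.u f) :=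
        (fr_some hf' _).trans (if_neg (by decide))
      simp only [e0, map_neg, norm_neg]
      exact dead_zero hp (.u f) (Finset.mem_coe.2 hf) r
    · have e0 : fr R m (mrk g) (decide ((1 : Fin 2) = 1)) = (W R m).vec (.ph f) :=
        (fr_some hf' _).trans (if_pos (by decide))
      rw [e0]
      exact dead_zero hp (.ph f) (Finset.mem_coe.2 hf) r
  · simp only [wf_bs]
    obtain ⟨k, hk⟩ := hb.al c hc
    simp only [hk, bvec_al]
    exact dead_zero hp (.al k) trivial r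

theorem prod_le_pow {n : ℕ} {g : Fin n → ℝ} (h0 : ∀ i, 0 ≤ g i) {K : ℝ} (hK : ∀ i, g i ≤ K) :
    ∏ i, g i ≤ K ^ n := by
  have h := Finset.prod_le_prod (s := Finset.univ) (fun i _ => h0 i) (fun i _ => hK i)
  rw [Finset.prod_const, Finset.card_univ, Fintype.card_fin] at h
  exact h

/-- bound of the form on the frame -/
theorem F_bdd (X : Ext) (hS : FarOk R S) (hb : Bas bd Yb) (hp : GenS R m S B p) :
    ∃ K : ℝ, 0 ≤ K ∧ ∀ x : Fin 16 → Fin (16 + 14), ∀ᶠ N : ℝ in atTop,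
      |FR R m X S ((W R m).dpt (B : Set (W R m).Fr) N p) (fun i => wf R m B p bd N (x i))| ≤ K := by
  obtain ⟨c, hc, h1⟩ := FR_bound X hS hp.1.1 hp.2.2
  obtain ⟨K, hK, h2⟩ := exists_common (fun _ _ => (1 : ℝ))
    (fun d N => ‖(W R m).dpsi ((W R m).dpt (B : Set (W R m).Fr) N p) (wf R m B p bd N d)‖)
    (fun _ => Eventually.of_forall fun _ => zero_le_one) (wf_bdd hb hp.1.1 hp.2.1)
  refine ⟨c * K ^ 16, mul_nonneg hc (pow_nonneg hK _), fun x => ?_⟩
  filter_upwards [h1, eventually_all.2 h2] with N h3 h4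
  refine (h3 _).trans (mul_le_mul_of_nonneg_left ?_ hc)
  refine prod_le_pow (fun i => norm_nonneg _) fun i => ?_
  have := h4 (x i)
  rwa [mul_one] at this

/-- the form on a frame with a dead direction -/
theorem F_zero (X : Ext) (hS : FarOk R S) (hb : Bas bd Yb) (hp : GenS R m S B p)
    (x : Fin 16 → Fin (16 + 14))
    (hx : ∃ l, (∃ g ∈ Bm B, ∃ i, x l = gp (g, i)) ∨ ∃ i, i ∉ Yb ∧ x l = bs i) :
    Tendsto (fun N : ℝ => N ^ Fintype.card (Fin 14) *
      FR R m X S ((W R m).dpt (B : Set (W R m).Fr) N p) (fun i => wf R m B p bd N (x i))) atTop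
      (𝓝 0) := by
  obtain ⟨l, hl⟩ := hx
  obtain ⟨c, hc, h1⟩ := FR_bound X hS hp.1.1 hp.2.2
  obtain ⟨K, hK, h2⟩ := exists_common (fun _ _ => (1 : ℝ))
    (fun d N => ‖(W R m).dpsi ((W R m).dpt (B : Set (W R m).Fr) N p) (wf R m B p bd N d)‖)
    (fun _ => Eventually.of_forall fun _ => zero_le_one) (wf_bdd hb hp.1.1 hp.2.1)
  have h3 := (wf_zero (m := m) (p := p) hb hp.1.1 (x l) hl (Fintype.card (Fin 14))).const_mul
    (c * K ^ 15)
  rw [mul_zero] at h3
  refine squeeze_zero_norm' ?_ h3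
  filter_upwards [h1, eventually_all.2 h2, eventually_ge_atTop 0] with N h4 h5 hN
  rw [norm_mul, Real.norm_eq_abs, Real.norm_eq_abs, abs_of_nonneg (pow_nonneg hN _)]
  have h6 := h4 fun i => wf R m B p bd N (x i)
  have h7 : ∏ i, ‖(W R m).dpsi ((W R m).dpt (B : Set (W R m).Fr) N p) (wf R m B p bd N (x i))‖ ≤
      K ^ 15 *
        ‖(W R m).dpsi ((W R m).dpt (B : Set (W R m).Fr) N p) (wf R m B p bd N (x l))‖ := by
    rw [← Finset.prod_erase_mul _ _ (Finset.mem_univ l)]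
    refine mul_le_mul_of_nonneg_right ?_ (norm_nonneg _)
    have h8 := Finset.prod_le_prod (s := Finset.univ.erase l) (fun i _ => norm_nonneg
      ((W R m).dpsi ((W R m).dpt (B : Set (W R m).Fr) N p) (wf R m B p bd N (x i))))
      (fun i _ => (h5 (x i)).trans_eq (mul_one K))
    rw [Finset.prod_const, Finset.card_erase_of_mem (Finset.mem_univ l), Finset.card_univ,
      Fintype.card_fin] at h8
    exact h8
  calc N ^ Fintype.card (Fin 14) * |FR R m X S ((W R m).dpt (B : Set (W R m).Fr) N p)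
        (fun i => wf R m B p bd N (x i))|
      ≤ N ^ Fintype.card (Fin 14) * (c * (K ^ 15 *
        ‖(W R m).dpsi ((W R m).dpt (B : Set (W R m).Fr) N p) (wf R m B p bd N (x l))‖)) :=
        mul_le_mul_of_nonneg_left (h6.trans (mul_le_mul_of_nonneg_left h7 hc)) (pow_nonneg hN _)
    _ = _ := by ring

/-- a permutation that brings `PD` to the end -/
theorem exists_pi {B' : Finset (Fin 14)} (hB : B'.card = 6) :
    ∃ π : Perm (Fin (16 + 14)), ∀ j, π (Fin.natAdd 16 j) ∈ PD gp bs B' Finset.univ := by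
  have h1 : (Finset.univ.image (Fin.natAdd (m := 14) 16)).card =
      (PD gp bs B' Finset.univ).card := by
    rw [Finset.card_image_of_injective _ (Fin.natAdd_injective 14 16),
      card_PD gp_injective bs_injective gp_ne_bs, hB]
    simp
  have e : {x // x ∈ Finset.univ.image (Fin.natAdd (m := 14) 16)} ≃
      {x // x ∈ PD gp bs B' Finset.univ} := Finset.equivOfCardEq h1
  refine ⟨e.extendSubtype, fun j => ?_⟩
  exact e.extendSubtype_mem _ (Finset.mem_image_of_mem _ (Finset.mem_univ j))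

/-- the limit form is zero on the directions of `B` and of the base -/
theorem dqz_blim (d : BDir R m) (hd : d.ok R m (↑B : Set (W R m).Fr)) :
    dqz R m (big R m B) p (blim R m d) = 0 := by
  refine H484.dqz_zero R m B ?_ ?_ ?_
  · intro f hf
    cases d with
    | u f' =>
      have : f ≠ f' := fun h => hf (h ▸ Finset.mem_coe.1 hd)
      exact Pi.single_eq_of_ne this _
    | _ => rfl
  · intro f hf
    cases d with
    | ph f' =>
      have : f ≠ f' := fun h => hf (h ▸ Finset.mem_coe.1 hd)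
      exact Pi.single_eq_of_ne this _
    | _ => rfl
  · cases d <;> rfl

end

end Vale.Agent.P273.H261
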