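import Vale.Agent.P273.H261.PtMain

/-!
P273, LIM: the pointwise limits for both kinds of base directions, assembly.
-/

noncomputable section

namespace Vale.Agent.P273.H261

open Set Filter Function H681 H95 H732 H973 H562 H573 Equiv
open Vale.Agent.P273.H254 (DT)
open scoped Topology ContDiff

section

variable {κ : Fin 3 → Fin 3 → ℝ} {Θ : Gauge} {R : H95.Region} {m : ∀ k, Fin (R.n k + 1)}
  {B : Finset (W R m).Fr} {p : Co R m} {S : L → Bool}
  {bd : Fin 2 → BDir R m} {Yb : Finset (Fin 2)}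

/-! ### the legs on the frame -/

/-- bound of the legs on the frame -/
theorem legs_bdd (hA : Asy κ Θ) (hS : FarOk R S) (hb : Bas bd Yb) (hp : GenS R m S B p) :
    ∃ K : ℝ, 0 ≤ K ∧ ∀ (j : Fin 14) (d : Fin (16 + 14)) (i : Fin 4), ∀ᶠ N : ℝ in atTop,
      |thR R m Θ S j ((W R m).dpt (B : Set (W R m).Fr) N p) (wf R m B p bd N d) i| ≤ K := by
  obtain ⟨K, hK, h⟩ := exists_common (ι := Fin 14 × Fin (16 + 14) × Fin 4) (L := atTop)
    (fun _ (_ : ℝ) => (1 : ℝ))
    (fun x N => |thR R m Θ S x.1 ((W R m).dpt (B : Set (W R m).Fr) N p)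
      (wf R m B p bd N x.2.1) x.2.2|)
    (fun _ => Eventually.of_forall fun _ => zero_le_one) (by
      rintro ⟨j, d, i⟩
      simp only [thR_apply]
      rcases exists_dir d with ⟨a, c, rfl⟩ | ⟨c, rfl⟩
      · simp only [wf_gp]
        obtain ⟨s, d', hs, hd', he⟩ := fr_vec (R := R) (m := m) (mrk a) (decide (c = 1))
        obtain ⟨K, hK⟩ := leg_bdd hA hS hp.1 hp.2.1 (mrk j) (isCl_col4 i) hd'
        refine ⟨K, ?_⟩
        filter_upwards [hK] with N hN
        rw [he, map_smul, smul_eq_mul, abs_mul, hs, one_mul]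
        exact hN
      · simp only [wf_bs]
        exact bdd_of_tendsto (tendsto_leg hA hS hp.1 hp.2.1 (mrk j) (isCl_col4 i) (hb.ok c)).abs)
  refine ⟨K, hK, fun j d i => ?_⟩
  filter_upwards [h (j, d, i)] with N hN
  rwa [mul_one] at hN

theorem bt_sm {i : Fin 4} (hi : i ∈ sm) (k : Fin 3) : bt (col4 i) k = 0 :=
  H422.bt_odd (mem_sm.1 hi) k

/-- the components on `f1, f2` are small off the directions of `Yb` -/
theorem legs_small (hA : Asy κ Θ) (hS : FarOk R S) (hb : Bas bd Yb) (hp : GenS R m S B p) :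
    ∃ K : ℝ, 0 ≤ K ∧ ∀ (j : Fin 14) (d : Fin (16 + 14)), (∀ y ∈ Yb, d ≠ bs y) → ∀ i ∈ sm,
      ∀ᶠ N : ℝ in atTop,
      |thR R m Θ S j ((W R m).dpt (B : Set (W R m).Fr) N p) (wf R m B p bd N d) i| ≤
        K * (1 / N) := by
  classical
  obtain ⟨K, hK, h⟩ := exists_common (L := atTop)
    (ι := {x : Fin 14 × Fin (16 + 14) × Fin 4 // (∀ y ∈ Yb, x.2.1 ≠ bs y) ∧ x.2.2 ∈ sm})
    (fun _ (N : ℝ) => 1 / N)
    (fun x N => |thR R m Θ S x.1.1 ((W R m).dpt (B : Set (W R m).Fr) N p)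
      (wf R m B p bd N x.1.2.1) x.1.2.2|)
    (fun _ => by
      filter_upwards [eventually_ge_atTop 0] with N hN
      exact one_div_nonneg.2 hN) (by
      rintro ⟨⟨j, d, i⟩, hd, hi⟩
      simp only [thR_apply]
      rcases exists_dir d with ⟨a, c, rfl⟩ | ⟨c, rfl⟩
      · simp only [wf_gp]
        obtain ⟨s, d', hs, hd', he⟩ := fr_vec (R := R) (m := m) (mrk a) (decide (c = 1))
        obtain ⟨K, hK⟩ := leg_small hA hS hp.1 hp.2.1 (mrk j) (isCl_col4 i) (bt_sm hi) hd'
        refine ⟨K, ?_⟩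
        filter_upwards [hK] with N hN
        rw [he, map_smul, smul_eq_mul, abs_mul, hs, one_mul]
        exact hN
      · simp only [wf_bs]
        obtain ⟨k, hk⟩ := hb.al c fun hc => hd c hc rfl
        simp only [hk, bvec_al]
        exact leg_small hA hS hp.1 hp.2.1 (mrk j) (isCl_col4 i) (bt_sm hi) (d := .al k)
          (by simp))
  refine ⟨K, hK, fun j d hd i hi => ?_⟩
  filter_upwards [h ⟨(j, d, i), hd, hi⟩] with N hN
  exact hN

theorem bvec_ph (N : ℝ) (f : (W R m).Fr) : bvec R m B p N (.ph f) = (W R m).vec (.ph f) := by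
  unfold bvec
  exact one_smul ℝ _

theorem bvec_u (N : ℝ) (f : (W R m).Fr) : bvec R m B p N (.u f) = N • (W R m).vec (.u f) := rfl

/-- the limit on the sizes of the gaps of `B` -/
theorem legs_u (hA : Asy κ Θ) (hS : FarOk R S) (hp : GenS R m S B p) (j : Fin 14)
    {a : Fin 14} (ha : a ∈ Bm B) (i : Fin 4) :
    Tendsto (fun N : ℝ => N * thR R m Θ S j ((W R m).dpt (B : Set (W R m).Fr) N p)
      (wf R m B p bd N (gp (a, 0))) i) atTop (𝓝 (tl R m κ B p bd j (gp (a, 0)) i)) := by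
  obtain ⟨f, hf, hf'⟩ := mem_Bm.1 ha
  have e0 : fr R m (mrk a) (decide ((0 : Fin 2) = 1)) = -(W R m).vec (.u f) :=
    (fr_some hf' _).trans (if_neg (by decide))
  simp only [thR_apply, wf_gp, e0]
  rw [tl_gp0 bd j a hf']
  have h := (tendsto_leg hA hS hp.1 hp.2.1 (mrk j) (isCl_col4 i) (d := .u f)
    (Finset.mem_coe.2 hf)).neg
  refine h.congr fun N => ?_
  rw [bvec_u, map_smul, map_neg, smul_eq_mul, mul_neg]

/-- the limit on the angles of the gaps of `B` and on the base angles -/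
theorem legs_ph (hA : Asy κ Θ) (hS : FarOk R S) (hb : Bas bd Yb) (hp : GenS R m S B p)
    (j : Fin 14) (d : Fin (16 + 14))
    (hd : (∃ g ∈ Bm B, d = gp (g, 1)) ∨ ∃ y, y ∉ Yb ∧ d = bs y) (i : Fin 4) :
    Tendsto (fun N : ℝ => thR R m Θ S j ((W R m).dpt (B : Set (W R m).Fr) N p)
      (wf R m B p bd N d) i) atTop (𝓝 (tl R m κ B p bd j d i)) ∧
    (i ∈ sm → Tendsto (fun N : ℝ => N * thR R m Θ S j ((W R m).dpt (B : Set (W R m).Fr) N p)
      (wf R m B p bd N d) i) atTop (𝓝 0)) := by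
  rcases hd with ⟨a, ha, rfl⟩ | ⟨c, hc, rfl⟩
  · obtain ⟨f, hf, hf'⟩ := mem_Bm.1 ha
    have e0 : fr R m (mrk a) (decide ((1 : Fin 2) = 1)) = (W R m).vec (.ph f) :=
      (fr_some hf' _).trans (if_pos (by decide))
    have e1 : ∀ N, thR R m Θ S j ((W R m).dpt (B : Set (W R m).Fr) N p)
        (wf R m B p bd N (gp (a, 1))) i = leg R m Θ S (mrk j) (col4 i)
          ((W R m).dpt (B : Set (W R m).Fr) N p) ((W R m).vec (.ph f)) := by
      intro N
      rw [thR_apply, wf_gp, e0]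
    simp only [e1]
    rw [tl_gp1 bd j a hf']
    constructor
    · have h := tendsto_leg hA hS hp.1 hp.2.1 (mrk j) (isCl_col4 i) (d := .ph f)
        (Finset.mem_coe.2 hf)
      refine h.congr fun N => ?_
      rw [bvec_ph]
    · intro hi
      exact (hA.lim0 R m S hS (↑B) p hp.1 hp.2.1 (mrk j) (col4 i) (isCl_col4 i) (bt_sm hi)).1 f
        (Finset.mem_coe.2 hf)
  · obtain ⟨k, hk⟩ := hb.al c hc
    have e1 : ∀ N, thR R m Θ S j ((W R m).dpt (B : Set (W R m).Fr) N p)
        (wf R m B p bd N (bs c)) i = leg R m Θ S (mrk j) (col4 i)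
          ((W R m).dpt (B : Set (W R m).Fr) N p) ((W R m).vec (.al k)) := by
      intro N
      rw [thR_apply, wf_bs, hk, bvec_al]
    simp only [e1]
    rw [tl_bs, hk]
    constructor
    · have h := tendsto_leg hA hS hp.1 hp.2.1 (mrk j) (isCl_col4 i) (d := .al k) trivial
      refine h.congr fun N => ?_
      rw [bvec_al]
    · intro hi
      exact (hA.lim0 R m S hS (↑B) p hp.1 hp.2.1 (mrk j) (col4 i) (isCl_col4 i) (bt_sm hi)).2 k

/-- the limit on the Euler directions -/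
theorem legs_y (hA : Asy κ Θ) (hS : FarOk R S) (hb : Bas bd Yb) (hp : GenS R m S B p)
    (j : Fin 14) (c : Fin 2) (i : Fin 4) :
    Tendsto (fun N : ℝ => thR R m Θ S j ((W R m).dpt (B : Set (W R m).Fr) N p)
      (wf R m B p bd N (bs c)) i) atTop (𝓝 (tl R m κ B p bd j (bs c) i)) := by
  simp only [thR_apply, wf_bs, tl_bs]
  exact tendsto_leg hA hS hp.1 hp.2.1 (mrk j) (isCl_col4 i) (hb.ok c)

/-! ### the limit form -/

/-- the limit form on the frame -/
theorem OmL_eq (κ : Fin 3 → Fin 3 → ℝ) (X : Ext) {T : MT} (hT : SymT T) (hb : Bas bd Yb)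
    (hy : ∀ k, 0 < p.2.2.1 k) (hB : B.card = 6) {n : ℕ} (hn : n = 6 + Yb.card)
    (π : Perm (Fin (16 + 14))) (hπ : ∀ j, π (Fin.natAdd 16 j) ∈ PD gp bs (Bm B) Finset.univ) :
    OmL R m X T n S B p (fr30 R m (blim R m (bd 0)) (blim R m (bd 1))) =
      Perm.sign π • (FL R m X S (big R m B) p (fun i =>
          fr30 R m (blim R m (bd 0)) (blim R m (bd 1)) (π (Fin.castAdd 14 i))) *
        DT (fun x => T x) (pr sm (sd gp bs Yb (Bm B)) (tl R m κ B p bd))
          (fun j => π (Fin.natAdd 16 j))) := by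
  have h1 := H254.wedgeT_split_perm (FL R m X S (big R m B) p) (grT n T)
    (fun i => thL R m (big R m B) p.2.2.1 (mrk i))
    (fr30 R m (blim R m (bd 0)) (blim R m (bd 1))) π (by
      rintro x ⟨i, j, hij⟩
      obtain ⟨s, dd, g1, -, g3, -, -⟩ := exists_dd κ p hb (hπ j)
      change X.H R S (qz R m (big R m B) p) (fun l => dqz R m (big R m B) p
        (fr30 R m (blim R m (bd 0)) (blim R m (bd 1)) (x l))) = 0
      refine ContinuousAlternatingMap.map_coord_zero _ i ?_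
      rw [hij, g3, map_smul, dqz_blim dd g1, smul_zero])
  rw [OmL, h1, smul_eq_mul]
  congr 2
  refine (DT_lim κ hT hb hy hB hn (fun j => π (Fin.natAdd 16 j))
    (π.injective.comp (Fin.natAdd_injective 14 16)) hπ ?_).symm
  exact image_eq_PD (k := 16) (m := 14) (q := 6) rfl gp_injective bs_injective gp_ne_bs
    ((card_Bm B).trans hB) π hπ


end

end Vale.Agent.P273.H261
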