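import Vale.Agent.P273.H261.Limit2
import Vale.Agent.P273.H261.Wedge2

/-!
The limit theorem for one region: power count for `θ 0 ∧ ... ∧ θ (m-1) ∧ Φ` in the directions
`gp (g, i)` (gap `g`, `i = 0` radial, `i = 1` angular), `bs i` (base), the others (core).
-/

namespace Vale.Agent.P273.H261

open MeasureTheory Filter Topology Function

set_option linter.unusedSectionVars false

variable {I Z : Type*} [Fintype I] [DecidableEq I] [MeasurableSpace Z]

/-- The gaps that are not touched by the directions `b`. -/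
def unt {k d : ℕ} (gp : I × Fin 2 → Fin d) (b : Fin k → Fin d) : Finset I :=
  Finset.univ.filter fun g => ∀ l i, b l ≠ gp (g, i)

/-- The directions `b` avoid the base directions. -/
def avb {k d : ℕ} (bs : Fin 2 → Fin d) (b : Fin k → Fin d) : Prop := ∀ l i, b l ≠ bs i

theorem mem_unt {k d : ℕ} {gp : I × Fin 2 → Fin d} {b : Fin k → Fin d} {g : I} :
    g ∈ unt gp b ↔ ∀ l i, b l ≠ gp (g, i) := by simp [unt]

/-- The directions of the gaps in `B` and of the base. -/
def PB {d : ℕ} (gp : I × Fin 2 → Fin d) (bs : Fin 2 → Fin d) (B : Finset I) : Finset (Fin d) :=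
  ((B ×ˢ (Finset.univ : Finset (Fin 2))).image gp) ∪ (Finset.univ.image bs)

theorem card_PB {d : ℕ} {gp : I × Fin 2 → Fin d} (hgp : Injective gp) {bs : Fin 2 → Fin d}
    (hbs : Injective bs) (hd : ∀ x i, gp x ≠ bs i) (B : Finset I) :
    (PB gp bs B).card = 2 * B.card + 2 := by
  rw [PB, Finset.card_union_of_disjoint]
  · rw [Finset.card_image_of_injective _ hgp, Finset.card_image_of_injective _ hbs,
      Finset.card_product]
    simp [mul_comm]
  · rw [Finset.disjoint_left]
    intro a ha hb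
    obtain ⟨x, -, hx⟩ := Finset.mem_image.1 ha
    obtain ⟨i, -, hi⟩ := Finset.mem_image.1 hb
    exact hd x i (hx.trans hi.symm)

theorem PB_subset {k m : ℕ} {gp : I × Fin 2 → Fin (k + m)} {bs : Fin 2 → Fin (k + m)}
    (c : Ch k m) (hc : avb bs (bv m c)) :
    PB gp bs (unt gp (bv m c)) ⊆ Finset.univ.image (av m c) := by
  intro d hdd
  rcases Finset.mem_union.1 hdd with h | h
  · obtain ⟨⟨g, i⟩, hg, rfl⟩ := Finset.mem_image.1 h
    have hg' := mem_unt.1 (Finset.mem_product.1 hg).1
    rcases exists_av_or_bv m c (gp (g, i)) with ⟨j, hj⟩ | ⟨l, hl⟩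
    · exact Finset.mem_image.2 ⟨j, Finset.mem_univ _, hj⟩
    · exact absurd hl (hg' l i)
  · obtain ⟨i, -, rfl⟩ := Finset.mem_image.1 h
    rcases exists_av_or_bv m c (bs i) with ⟨j, hj⟩ | ⟨l, hl⟩
    · exact Finset.mem_image.2 ⟨j, Finset.mem_univ _, hj⟩
    · exact absurd hl (hc l i)

theorem card_image_av {k m : ℕ} (c : Ch k m) : (Finset.univ.image (av m c)).card = m := by
  rw [Finset.card_image_of_injective _ (av_injective m c)]
  simp

theorem card_unt_le {k m q : ℕ} (hm : m = 2 * q + 2) {gp : I × Fin 2 → Fin (k + m)}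
    (hgp : Injective gp) {bs : Fin 2 → Fin (k + m)} (hbs : Injective bs)
    (hd : ∀ x i, gp x ≠ bs i) (c : Ch k m) (hc : avb bs (bv m c)) :
    (unt gp (bv m c)).card ≤ q := by
  have h1 := Finset.card_le_card (PB_subset (gp := gp) c hc)
  rw [card_PB hgp hbs hd, card_image_av] at h1
  omega

theorem image_av_eq {k m q : ℕ} (hm : m = 2 * q + 2) {gp : I × Fin 2 → Fin (k + m)}
    (hgp : Injective gp) {bs : Fin 2 → Fin (k + m)} (hbs : Injective bs)
    (hd : ∀ x i, gp x ≠ bs i) (c : Ch k m) (hc : avb bs (bv m c))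
    (hq : (unt gp (bv m c)).card = q) :
    PB gp bs (unt gp (bv m c)) = Finset.univ.image (av m c) := by
  refine Finset.eq_of_subset_of_card_le (PB_subset c hc) ?_
  rw [card_PB hgp hbs hd, card_image_av, hq, hm]

open Classical in
/-- The one-forms of `A` that carry a factor `1 / N`. -/
noncomputable def small {k m : ℕ} (bs : Fin 2 → Fin (k + m)) (A : Finset (Fin m))
    (Yb : Finset (Fin 2)) (c : Ch k m) : Finset (Fin m) :=
  A.filter fun j => ∀ i ∈ Yb, av m c j ≠ bs i

theorem card_small {k m q : ℕ} {bs : Fin 2 → Fin (k + m)} (hbs : Injective bs)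
    {A : Finset (Fin m)} {Yb : Finset (Fin 2)} (hA : A.card = q + Yb.card) (c : Ch k m) :
    q ≤ (small bs A Yb c).card ∧
      ((∃ j, j ∉ A ∧ ∃ i ∈ Yb, av m c j = bs i) → q + 1 ≤ (small bs A Yb c).card) := by
  classical
  set R : Finset (Fin m) := A.filter fun j => ¬ ∀ i ∈ Yb, av m c j ≠ bs i with hR
  have hsum : (small bs A Yb c).card + R.card = A.card :=
    Finset.card_filter_add_card_filter_not _
  have hRY : (R.image (av m c)) ⊆ Yb.image bs := by
    intro d hdd
    obtain ⟨j, hj, rfl⟩ := Finset.mem_image.1 hdd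
    have := (Finset.mem_filter.1 hj).2
    push Not at this
    obtain ⟨i, hi, hij⟩ := this
    exact Finset.mem_image.2 ⟨i, hi, hij.symm⟩
  have h1 := Finset.card_le_card hRY
  rw [Finset.card_image_of_injective _ (av_injective m c),
    Finset.card_image_of_injective _ hbs] at h1
  refine ⟨by omega, ?_⟩
  rintro ⟨j, hj, i, hi, hij⟩
  have hne : bs i ∉ R.image (av m c) := by
    intro hmem
    obtain ⟨j', hj', hj''⟩ := Finset.mem_image.1 hmem
    have : j' = j := av_injective m c (hj''.trans hij.symm)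
    exact hj (this ▸ (Finset.mem_filter.1 hj').1)
  have h2 : (R.image (av m c)) ⊂ Yb.image bs :=
    (Finset.ssubset_iff_of_subset hRY).2 ⟨bs i, Finset.mem_image_of_mem _ hi, hne⟩
  have h3 := Finset.card_lt_card h2
  rw [Finset.card_image_of_injective _ (av_injective m c),
    Finset.card_image_of_injective _ hbs] at h3
  omega

theorem card_small_eq {k m q : ℕ} (hm : m = 2 * q + 2) {gp : I × Fin 2 → Fin (k + m)}
    (hgp : Injective gp) {bs : Fin 2 → Fin (k + m)} (hbs : Injective bs)
    (hd : ∀ x i, gp x ≠ bs i)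
    {A : Finset (Fin m)} {Yb : Finset (Fin 2)} (hA : A.card = q + Yb.card) (c : Ch k m)
    (hc : avb bs (bv m c)) (hq : (unt gp (bv m c)).card = q)
    (hno : ¬ ∃ j, j ∉ A ∧ ∃ i ∈ Yb, av m c j = bs i) :
    (small bs A Yb c).card = q := by
  classical
  set R : Finset (Fin m) := A.filter fun j => ¬ ∀ i ∈ Yb, av m c j ≠ bs i with hR
  have hsum : (small bs A Yb c).card + R.card = A.card :=
    Finset.card_filter_add_card_filter_not _
  have hRY : Yb.image bs ⊆ (R.image (av m c)) := by
    intro d hdd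
    obtain ⟨i, hi, rfl⟩ := Finset.mem_image.1 hdd
    have hmem : bs i ∈ PB gp bs (unt gp (bv m c)) :=
      Finset.mem_union_right _ (Finset.mem_image_of_mem _ (Finset.mem_univ i))
    rw [image_av_eq hm hgp hbs hd c hc hq] at hmem
    obtain ⟨j, -, hj⟩ := Finset.mem_image.1 hmem
    refine Finset.mem_image.2 ⟨j, Finset.mem_filter.2 ⟨?_, ?_⟩, hj⟩
    · by_contra hjA
      exact hno ⟨j, hjA, i, hi, hj⟩
    · push Not
      exact ⟨i, hi, hj⟩
  have h1 := Finset.card_le_card hRY
  rw [Finset.card_image_of_injective _ (av_injective m c),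
    Finset.card_image_of_injective _ hbs] at h1
  have h2 := (card_small (q := q) hbs hA c).1
  omega

/-- The product of the one-forms is at most `K ^ m / N ^ (number of small ones)`. -/
theorem prod_theta_le {k m : ℕ} {bs : Fin 2 → Fin (k + m)} {A : Finset (Fin m)}
    {Yb : Finset (Fin 2)} (c : Ch k m) {K N : ℝ}
    (t : Fin m → Fin (k + m) → ℝ) (h1 : ∀ j d, |t j d| ≤ K)
    (h2 : ∀ j ∈ A, ∀ d, (∀ i ∈ Yb, d ≠ bs i) → |t j d| ≤ K / N) :
    |∏ j, t j (av m c j)| ≤ K ^ m * (N⁻¹) ^ (small bs A Yb c).card := by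
  classical
  rw [Finset.abs_prod]
  have h3 : ∀ j, |t j (av m c j)| ≤ K * (if j ∈ small bs A Yb c then N⁻¹ else 1) := by
    intro j
    by_cases hj : j ∈ small bs A Yb c
    · rw [if_pos hj]
      have := Finset.mem_filter.1 hj
      exact (h2 j this.1 _ this.2).trans (le_of_eq (div_eq_mul_inv _ _))
    · rw [if_neg hj, mul_one]
      exact h1 j _
  refine (Finset.prod_le_prod (fun j _ => abs_nonneg _) fun j _ => h3 j).trans (le_of_eq ?_)
  rw [Finset.prod_mul_distrib, Finset.prod_const, Finset.card_univ, Fintype.card_fin,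
    Finset.prod_ite, Finset.prod_const, Finset.prod_const_one, mul_one]
  congr 3
  ext j; simp

end Vale.Agent.P273.H261
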