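import Vale.Agent.P273.H261.Region

/-!
The limit theorem for one region.
-/

namespace Vale.Agent.P273.H261

open MeasureTheory Filter Topology Function

set_option linter.unusedSectionVars false

variable {I Z : Type*} [Fintype I] [DecidableEq I] [MeasurableSpace Z]

/-- The hypotheses of the limit theorem for one region, see the notes of helper261.
`gp` gap directions, `bs` base directions, `A` the small one-forms, `Yb` the base directions in
which the forms of `A` are only bounded, `N` the scale, `δ` the size of `Φ` on base directions,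
`Y` the cut off, `C` the majorant in the other parameters, `K` the bound of the one-forms. -/
structure RegData (k m q : ℕ) (μ : Measure Z) where
  /-- gap directions -/
  gp : I × Fin 2 → Fin (k + m)
  /-- base directions -/
  bs : Fin 2 → Fin (k + m)
  /-- small forms -/
  A : Finset (Fin m)
  /-- base directions where small forms are only bounded -/
  Yb : Finset (Fin 2)
  /-- scale -/
  N : ℕ → ℝ
  /-- size on the base directions -/
  δ : ℕ → ℝ
  /-- cut off -/
  Y : Z → ℝ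
  /-- majorant -/
  C : Z → ℝ
  /-- bound of the one-forms -/
  K : ℝ
  /-- one-forms, components -/
  θ : ℕ → (I → ℝ) × Z → Fin m → Fin (k + m) → ℝ
  /-- the form of degree `k`, components -/
  Φ : ℕ → (I → ℝ) × Z → (Fin k → Fin (k + m)) → ℝ
  /-- limits of the one-forms -/
  θi : Finset I → (I → ℝ) × Z → Fin m → Fin (k + m) → ℝ
  /-- limits of the form of degree `k` -/
  Φi : Finset I → (I → ℝ) × Z → (Fin k → Fin (k + m)) → ℝ
  hm : m = 2 * q + 2
  hgp : Injective gp
  hbs : Injective bs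
  hd : ∀ x i, gp x ≠ bs i
  hA : A.card = q + Yb.card
  hN : ∀ n, 1 ≤ N n
  hNt : Tendsto N atTop atTop
  hδ0 : ∀ n, 0 ≤ δ n
  hδ : Tendsto (fun n => δ n * N n ^ Fintype.card I) atTop (𝓝 0)
  hY : Measurable Y
  hY0 : ∀ z, 0 ≤ Y z
  hCm : AEStronglyMeasurable C μ
  hC0 : ∀ z, 0 ≤ C z
  hC : ∀ B : Finset I, Integrable (fun z => C z * Y z ^ B.card) μ
  hK : 1 ≤ K
  hθm : ∀ n j d, AEStronglyMeasurable (fun p => θ n p j d) ((volume : Measure (I → ℝ)).prod μ)
  hΦm : ∀ n b, AEStronglyMeasurable (fun p => Φ n p b) ((volume : Measure (I → ℝ)).prod μ)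
  dom : ∀ n u z b, ¬ ((∀ i, 0 ≤ u i) ∧ ∀ i, u i ≤ Y z * N n) → Φ n (u, z) b = 0
  T1 : ∀ n u z j d, (∀ i, 0 ≤ u i) → (∀ i, u i ≤ Y z * N n) → |θ n (u, z) j d| ≤ K
  T2 : ∀ n u z, (∀ i, 0 ≤ u i) → (∀ i, u i ≤ Y z * N n) → ∀ j ∈ A, ∀ d,
    (∀ i ∈ Yb, d ≠ bs i) → |θ n (u, z) j d| ≤ K / N n
  F1 : ∀ n u z b, (∀ i, 0 ≤ u i) → (∀ i, u i ≤ Y z * N n) →
    |Φ n (u, z) b| ≤ C z * ∏ g ∈ (unt gp b)ᶜ, Real.exp (-(u g))
  F2 : ∀ n u z b, (∀ i, 0 ≤ u i) → (∀ i, u i ≤ Y z * N n) → ¬ avb bs b →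
    |Φ n (u, z) b| ≤ δ n * (C z * ∏ g ∈ (unt gp b)ᶜ, Real.exp (-(u g)))
  Φi0 : ∀ B, B.card = q → ∀ p b, (¬ B ⊆ unt gp b ∨ ¬ avb bs b) → Φi B p b = 0
  θi0 : ∀ B p j i, i ∈ Yb → j ∉ A → θi B p j (bs i) = 0
  L1 : ∀ B, B.card = q → ∀ᵐ p ∂((volume : Measure (I → ℝ)).prod μ), ∀ j, ∀ d ∈ PB gp bs B,
    (j ∈ A ∨ ∀ i ∈ Yb, d ≠ bs i) →
    Tendsto (fun n => (if j ∈ A ∧ ∀ i ∈ Yb, d ≠ bs i then N n else 1) *
      θ n (dil B (N n) p.1, p.2) j d) atTop (𝓝 (θi B p j d))
  L2 : ∀ B, B.card = q → ∀ᵐ p ∂((volume : Measure (I → ℝ)).prod μ), ∀ b, unt gp b = B →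
    avb bs b → Tendsto (fun n => Φ n (dil B (N n) p.1, p.2) b) atTop (𝓝 (Φi B p b))

namespace RegData

variable {k m q : ℕ} {μ : Measure Z} (R : RegData (I := I) k m q μ)

/-- One term of the expansion. -/
noncomputable def T (c : Ch k m) (n : ℕ) (p : (I → ℝ) × Z) : ℝ :=
  (sg m c * ∏ j, R.θ n p j (av m c j)) * R.Φ n p (bv m c)

/-- One term of the limit. -/
noncomputable def Ti (B : Finset I) (c : Ch k m) (p : (I → ℝ) × Z) : ℝ :=
  (sg m c * ∏ j, R.θi B p j (av m c j)) * R.Φi B p (bv m c)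

theorem T_meas (c : Ch k m) (n : ℕ) :
    AEStronglyMeasurable (R.T c n) ((volume : Measure (I → ℝ)).prod μ) := by
  unfold T
  refine AEStronglyMeasurable.mul (AEStronglyMeasurable.mul aestronglyMeasurable_const ?_)
    (R.hΦm n _)
  exact Finset.aestronglyMeasurable_fun_prod _ fun j _ => R.hθm n j _

theorem T_dom (c : Ch k m) (B : Finset I) (n : ℕ) (u : I → ℝ) (z : Z)
    (h : ¬ ((∀ i, 0 ≤ u i) ∧ ∀ i ∈ B, u i ≤ R.Y z * R.N n)) : R.T c n (u, z) = 0 := by
  rw [T, R.dom n u z _ (fun h' => h ⟨h'.1, fun i _ => h'.2 i⟩), mul_zero]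

/-- The bound of a term by the number of small factors. -/
theorem T_le (c : Ch k m) (n : ℕ) (u : I → ℝ) (z : Z) (s : ℕ)
    (hs : s ≤ (small R.bs R.A R.Yb c).card) (D : ℝ) (hD0 : 0 ≤ D)
    (hD : (∀ i, 0 ≤ u i) → (∀ i, u i ≤ R.Y z * R.N n) → |R.Φ n (u, z) (bv m c)| ≤ D) :
    |R.T c n (u, z)| ≤ R.K ^ m * ((R.N n)⁻¹) ^ s * D := by
  have hN := R.hN n
  have hNi0 : 0 ≤ (R.N n)⁻¹ := inv_nonneg.2 (zero_le_one.trans hN)
  have hNi1 : (R.N n)⁻¹ ≤ 1 := inv_le_one_of_one_le₀ hN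
  have hK0 : 0 ≤ R.K ^ m := pow_nonneg (zero_le_one.trans R.hK) _
  by_cases h : (∀ i, 0 ≤ u i) ∧ ∀ i, u i ≤ R.Y z * R.N n
  · rw [T, abs_mul, abs_mul, abs_sg, one_mul]
    refine mul_le_mul ?_ (hD h.1 h.2) (abs_nonneg _) (mul_nonneg hK0 (pow_nonneg hNi0 _))
    refine (prod_theta_le (bs := R.bs) (A := R.A) (Yb := R.Yb) c (N := R.N n) (K := R.K) _
      (fun j d => R.T1 n u z j d h.1 h.2) (R.T2 n u z h.1 h.2)).trans ?_
    exact mul_le_mul_of_nonneg_left (pow_le_pow_of_le_one hNi0 hNi1 hs) hK0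
  · rw [T, R.dom n u z _ h, mul_zero, abs_zero]
    exact mul_nonneg (mul_nonneg hK0 (pow_nonneg hNi0 _)) hD0

theorem exp_prod_nonneg (B : Finset I) (u : I → ℝ) : 0 ≤ ∏ i ∈ B, Real.exp (-(u i)) :=
  Finset.prod_nonneg fun _ _ => (Real.exp_pos _).le

variable [SFinite μ]

/-- The common form of the vanishing statements. -/
theorem lim_zero (c : Ch k m) (e : ℕ → ℝ) (he : Tendsto e atTop (𝓝 0))
    (h : ∀ n u z, |R.T c n (u, z)| ≤ e n * (((R.N n)⁻¹) ^ (unt R.gp (bv m c)).card *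
      (R.C z * ∏ i ∈ (unt R.gp (bv m c))ᶜ, Real.exp (-(u i))))) :
    Tendsto (fun n => ∫ p, R.T c n p ∂((volume : Measure (I → ℝ)).prod μ)) atTop (𝓝 0) :=
  scale_zeroY (unt R.gp (bv m c)) μ R.N (fun n => zero_lt_one.trans_le (R.hN n)) R.hY R.hY0 R.hCm
    R.hC0 (R.hC _) e he (R.T c) (R.T_meas c) (fun n u z _ _ => h n u z)
    (fun n u z hn => R.T_dom c _ n u z hn)

/-- Terms in which `Φ` touches the base vanish in the limit. -/
theorem lim_touch (c : Ch k m) (hc : ¬ avb R.bs (bv m c)) :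
    Tendsto (fun n => ∫ p, R.T c n p ∂((volume : Measure (I → ℝ)).prod μ)) atTop (𝓝 0) := by
  refine R.lim_zero c (fun n => R.K ^ m * (R.δ n * R.N n ^ (unt R.gp (bv m c)).card)) ?_ ?_
  · have h1 : Tendsto (fun n => R.K ^ m * (R.δ n * R.N n ^ Fintype.card I)) atTop (𝓝 0) := by
      simpa using R.hδ.const_mul (R.K ^ m)
    refine squeeze_zero (fun n => ?_) (fun n => ?_) h1
    · have := R.hN n
      have h2 := R.hδ0 n
      have h3 : (0 : ℝ) ≤ R.K := zero_le_one.trans R.hK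
      positivity
    · have h3 : (0 : ℝ) ≤ R.K ^ m := pow_nonneg (zero_le_one.trans R.hK) _
      refine mul_le_mul_of_nonneg_left (mul_le_mul_of_nonneg_left ?_ (R.hδ0 n)) h3
      exact pow_le_pow_right₀ (R.hN n) (Finset.card_le_univ _)
  · intro n u z
    have hN := R.hN n
    have hN0 : 0 < R.N n := zero_lt_one.trans_le hN
    have h := R.T_le c n u z 0 (Nat.zero_le _)
      (R.δ n * (R.C z * ∏ g ∈ (unt R.gp (bv m c))ᶜ, Real.exp (-(u g))))
      (mul_nonneg (R.hδ0 n) (mul_nonneg (R.hC0 z) (exp_prod_nonneg _ _)))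
      (fun h1 h2 => R.F2 n u z _ h1 h2 hc)
    refine h.trans (le_of_eq ?_)
    have h4 : R.N n ^ (unt R.gp (bv m c)).card * ((R.N n)⁻¹) ^ (unt R.gp (bv m c)).card = 1 := by
      rw [← mul_pow, mul_inv_cancel₀ hN0.ne', one_pow]
    calc R.K ^ m * ((R.N n)⁻¹) ^ 0 *
          (R.δ n * (R.C z * ∏ g ∈ (unt R.gp (bv m c))ᶜ, Real.exp (-(u g))))
        = R.K ^ m * (R.δ n * (R.N n ^ (unt R.gp (bv m c)).card *
            ((R.N n)⁻¹) ^ (unt R.gp (bv m c)).card)) *
            (R.C z * ∏ g ∈ (unt R.gp (bv m c))ᶜ, Real.exp (-(u g))) := by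
          rw [h4]; ring
      _ = _ := by ring

/-- Terms with fewer than `q` free gaps vanish in the limit. -/
theorem lim_few (c : Ch k m) (hq : (unt R.gp (bv m c)).card < q) :
    Tendsto (fun n => ∫ p, R.T c n p ∂((volume : Measure (I → ℝ)).prod μ)) atTop (𝓝 0) := by
  refine R.lim_zero c (fun n => R.K ^ m * (R.N n)⁻¹) ?_ ?_
  · simpa using (R.hNt.inv_tendsto_atTop).const_mul (R.K ^ m)
  · intro n u z
    have hN := R.hN n
    have hN0 : 0 < R.N n := zero_lt_one.trans_le hN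
    have hsm := (card_small (q := q) R.hbs R.hA c).1
    have h := R.T_le c n u z ((unt R.gp (bv m c)).card + 1) (by omega)
      (R.C z * ∏ g ∈ (unt R.gp (bv m c))ᶜ, Real.exp (-(u g)))
      (mul_nonneg (R.hC0 z) (exp_prod_nonneg _ _))
      (fun h1 h2 => R.F1 n u z _ h1 h2)
    refine h.trans (le_of_eq ?_)
    rw [pow_succ]
    ring

/-- Terms with exactly `q` free gaps converge. -/
theorem lim_main (c : Ch k m) (hc : avb R.bs (bv m c)) (hq : (unt R.gp (bv m c)).card = q) :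
    Integrable (R.Ti (unt R.gp (bv m c)) c) ((volume : Measure (I → ℝ)).prod μ) ∧
    Tendsto (fun n => ∫ p, R.T c n p ∂((volume : Measure (I → ℝ)).prod μ)) atTop
      (𝓝 (∫ p, R.Ti (unt R.gp (bv m c)) c p ∂((volume : Measure (I → ℝ)).prod μ))) := by
  classical
  set B := unt R.gp (bv m c) with hB
  have hK0 : (0 : ℝ) ≤ R.K ^ m := pow_nonneg (zero_le_one.trans R.hK) _
  have himg := image_av_eq R.hm R.hgp R.hbs R.hd c hc hq
  have hmem : ∀ j, av m c j ∈ PB R.gp R.bs B := fun j => by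
    rw [hB, himg]
    exact Finset.mem_image_of_mem _ (Finset.mem_univ j)
  refine scale_limitY B μ R.N (fun n => zero_lt_one.trans_le (R.hN n)) R.hY R.hY0
    (C := fun z => R.K ^ m * R.C z) (R.hCm.const_mul _) (fun z => mul_nonneg hK0 (R.hC0 z)) ?_
    (R.T c) _ (R.T_meas c) ?_ (fun n u z hn => R.T_dom c B n u z hn) ?_
  · simpa [mul_assoc] using (R.hC B).const_mul (R.K ^ m)
  · intro n u z _ _
    have h := R.T_le c n u z B.card (by rw [hq]; exact (card_small (q := q) R.hbs R.hA c).1)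
      (R.C z * ∏ g ∈ Bᶜ, Real.exp (-(u g)))
      (mul_nonneg (R.hC0 z) (exp_prod_nonneg _ _))
      (fun h1 h2 => R.F1 n u z _ h1 h2)
    rw [Real.norm_eq_abs]
    refine h.trans (le_of_eq ?_)
    ring
  · filter_upwards [R.L1 B hq, R.L2 B hq] with p h1 h2
    have hΦ := h2 (bv m c) rfl hc
    by_cases hno : ∃ j, j ∉ R.A ∧ ∃ i ∈ R.Yb, av m c j = R.bs i
    · -- limit zero
      obtain ⟨j0, hj0, i0, hi0, hji⟩ := hno
      have hTi : R.Ti B c p = 0 := by
        rw [Ti]
        have : ∏ j, R.θi B p j (av m c j) = 0 :=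
          Finset.prod_eq_zero (Finset.mem_univ j0) (by rw [hji]; exact R.θi0 B p j0 i0 hi0 hj0)
        rw [this, mul_zero, zero_mul]
      rw [hTi]
      have hcs : q + 1 ≤ (small R.bs R.A R.Yb c).card :=
        (card_small (q := q) R.hbs R.hA c).2 ⟨j0, hj0, i0, hi0, hji⟩
      have hb : ∀ n, ‖(R.N n) ^ B.card • R.T c n (dil B (R.N n) p.1, p.2)‖ ≤
          R.K ^ m * (R.N n)⁻¹ * |R.Φ n (dil B (R.N n) p.1, p.2) (bv m c)| := by
        intro n
        have hN0 : 0 < R.N n := zero_lt_one.trans_le (R.hN n)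
        have h := R.T_le c n (dil B (R.N n) p.1) p.2 (q + 1) hcs
          (|R.Φ n (dil B (R.N n) p.1, p.2) (bv m c)|) (abs_nonneg _) (fun _ _ => le_rfl)
        rw [norm_smul, Real.norm_of_nonneg (by positivity), Real.norm_eq_abs, hq]
        calc R.N n ^ q * |R.T c n (dil B (R.N n) p.1, p.2)|
            ≤ R.N n ^ q * (R.K ^ m * ((R.N n)⁻¹) ^ (q + 1) *
              |R.Φ n (dil B (R.N n) p.1, p.2) (bv m c)|) :=
              mul_le_mul_of_nonneg_left h (by positivity)
          _ = (R.N n * (R.N n)⁻¹) ^ q * (R.K ^ m * (R.N n)⁻¹ *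
              |R.Φ n (dil B (R.N n) p.1, p.2) (bv m c)|) := by
              rw [mul_pow, pow_succ]; ring
          _ = _ := by rw [mul_inv_cancel₀ hN0.ne', one_pow, one_mul]
      refine squeeze_zero_norm hb ?_
      have : Tendsto (fun n => R.K ^ m * (R.N n)⁻¹ *
          |R.Φ n (dil B (R.N n) p.1, p.2) (bv m c)|) atTop
          (𝓝 (R.K ^ m * 0 * |R.Φi B p (bv m c)|)) :=
        ((R.hNt.inv_tendsto_atTop).const_mul _).mul hΦ.abs
      simpa using this
    · have hcs := card_small_eq R.hm R.hgp R.hbs R.hd R.hA c hc hq hno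
      have heq : ∀ n, (R.N n) ^ B.card • R.T c n (dil B (R.N n) p.1, p.2) =
          (sg m c * ∏ j, ((if j ∈ R.A ∧ ∀ i ∈ R.Yb, av m c j ≠ R.bs i then R.N n else 1) *
            R.θ n (dil B (R.N n) p.1, p.2) j (av m c j))) *
            R.Φ n (dil B (R.N n) p.1, p.2) (bv m c) := by
        intro n
        rw [Finset.prod_mul_distrib, T, smul_eq_mul]
        have : ∏ j : Fin m, (if j ∈ R.A ∧ ∀ i ∈ R.Yb, av m c j ≠ R.bs i then R.N n else 1) =
            R.N n ^ B.card := by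
          have hf : (Finset.univ.filter fun j : Fin m =>
              j ∈ R.A ∧ ∀ i ∈ R.Yb, av m c j ≠ R.bs i) = small R.bs R.A R.Yb c := by
            ext j
            simp [small]
          rw [Finset.prod_ite, Finset.prod_const, Finset.prod_const_one, mul_one, hf,
            hcs.trans hq.symm]
        rw [this]
        ring
      simp only [heq]
      refine Tendsto.mul (Tendsto.const_mul _ ?_) hΦ
      refine tendsto_finsetProd _ fun j _ => ?_
      refine h1 j _ (hmem j) ?_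
      by_contra hcon
      push Not at hcon
      obtain ⟨hjA, i, hi, hij⟩ := hcon
      exact hno ⟨j, hjA, i, hi, hij⟩

/-- Each term is integrable. -/
theorem T_integrable (c : Ch k m) (n : ℕ) :
    Integrable (R.T c n) ((volume : Measure (I → ℝ)).prod μ) := by
  have hN := R.hN n
  have hN0 : 0 < R.N n := zero_lt_one.trans_le hN
  have hK0 : (0 : ℝ) ≤ R.K ^ m := pow_nonneg (zero_le_one.trans R.hK) _
  set B := unt R.gp (bv m c) with hB
  have hint := integrable_majY B μ (Y := fun z => R.Y z * R.N n) (C := fun z => R.K ^ m * R.C z)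
    (R.hY.mul_const _) (fun z => mul_nonneg (R.hY0 z) hN0.le) (R.hCm.const_mul _)
    (fun z => mul_nonneg hK0 (R.hC0 z)) ?_
  · refine Integrable.mono' hint (R.T_meas c n) (Eventually.of_forall ?_)
    rintro ⟨u, z⟩
    rw [Real.norm_eq_abs]
    by_cases hdom : (∀ i, 0 ≤ u i) ∧ ∀ i ∈ B, u i ≤ R.Y z * R.N n
    · have h := R.T_le c n u z 0 (Nat.zero_le _)
        (R.C z * ∏ g ∈ Bᶜ, Real.exp (-(u g)))
        (mul_nonneg (R.hC0 z) (exp_prod_nonneg _ _))
        (fun h1 h2 => R.F1 n u z _ h1 h2)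
      refine h.trans (le_of_eq ?_)
      have hmaj := maj_dil B (N := 1) (Y := R.Y z * R.N n) one_pos u (by
        simpa [dil_one] using hdom)
      simp only [dil_one] at hmaj
      simp only [hmaj]
      ring
    · rw [R.T_dom c B n u z hdom, abs_zero]
      exact mul_nonneg (maj_nonneg _ _ _) (mul_nonneg hK0 (R.hC0 _))
  · have := (R.hC B).const_mul (R.K ^ m * R.N n ^ B.card)
    refine this.congr (Eventually.of_forall fun z => ?_)
    simp only [mul_pow]
    ring

/-- Limit terms that do not belong to `B` are zero. -/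
theorem Ti_eq_zero {B : Finset I} (hB : B.card = q) (c : Ch k m)
    (h : ¬ (avb R.bs (bv m c) ∧ unt R.gp (bv m c) = B)) (p : (I → ℝ) × Z) : R.Ti B c p = 0 := by
  rw [Ti, R.Φi0 B hB p (bv m c) ?_, mul_zero]
  by_cases hc : avb R.bs (bv m c)
  · left
    intro hsub
    refine h ⟨hc, ?_⟩
    have h1 := card_unt_le R.hm R.hgp R.hbs R.hd c hc
    exact (Finset.eq_of_subset_of_card_le hsub (by rw [hB]; exact h1)).symm
  · exact Or.inr hc

/-- **Limit theorem for one region.** -/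
theorem region_limit :
    (∀ B, B.card = q → Integrable (fun p => ∑ c : Ch k m, R.Ti B c p)
      ((volume : Measure (I → ℝ)).prod μ)) ∧
    Tendsto (fun n => ∫ p, ∑ c : Ch k m, R.T c n p ∂((volume : Measure (I → ℝ)).prod μ)) atTop
      (𝓝 (∑ B ∈ (Finset.univ : Finset I).powersetCard q,
        ∫ p, ∑ c : Ch k m, R.Ti B c p ∂((volume : Measure (I → ℝ)).prod μ))) := by
  classical
  have hTi : ∀ B, B.card = q → ∀ c, Integrable (R.Ti B c)
      ((volume : Measure (I → ℝ)).prod μ) := by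
    intro B hB c
    by_cases h : avb R.bs (bv m c) ∧ unt R.gp (bv m c) = B
    · obtain ⟨h1, rfl⟩ := h
      exact (R.lim_main c h1 hB).1
    · have : R.Ti B c = fun _ => 0 := funext fun p => R.Ti_eq_zero hB c h p
      rw [this]
      exact integrable_zero _ _ _
  refine ⟨fun B hB => integrable_finsetSum _ fun c _ => hTi B hB c, ?_⟩
  have hsum : ∀ n, ∫ p, ∑ c : Ch k m, R.T c n p ∂((volume : Measure (I → ℝ)).prod μ) =
      ∑ c : Ch k m, ∫ p, R.T c n p ∂((volume : Measure (I → ℝ)).prod μ) := fun n =>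
    integral_finsetSum _ fun c _ => R.T_integrable c n
  simp only [hsum]
  set L : Ch k m → ℝ := fun c => if avb R.bs (bv m c) ∧ (unt R.gp (bv m c)).card = q then
    ∫ p, R.Ti (unt R.gp (bv m c)) c p ∂((volume : Measure (I → ℝ)).prod μ) else 0 with hL
  have hlim : Tendsto (fun n => ∑ c : Ch k m, ∫ p, R.T c n p
      ∂((volume : Measure (I → ℝ)).prod μ)) atTop (𝓝 (∑ c, L c)) := by
    refine tendsto_finsetSum _ fun c _ => ?_
    by_cases hc : avb R.bs (bv m c)
    · rcases (card_unt_le R.hm R.hgp R.hbs R.hd c hc).lt_or_eq with hlt | heq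
      · rw [hL]
        simp only [hc, true_and, hlt.ne, if_false]
        exact R.lim_few c hlt
      · rw [hL]
        simp only [hc, heq, and_self, if_true]
        exact (R.lim_main c hc heq).2
    · rw [hL]
      simp only [hc, false_and, if_false]
      exact R.lim_touch c hc
  have hfin : ∑ c, L c = ∑ B ∈ (Finset.univ : Finset I).powersetCard q,
        ∫ p, ∑ c : Ch k m, R.Ti B c p ∂((volume : Measure (I → ℝ)).prod μ) := by
    have h1 : ∀ B ∈ (Finset.univ : Finset I).powersetCard q,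
        ∫ p, ∑ c : Ch k m, R.Ti B c p ∂((volume : Measure (I → ℝ)).prod μ) =
        ∑ c : Ch k m, if avb R.bs (bv m c) ∧ unt R.gp (bv m c) = B then
          ∫ p, R.Ti B c p ∂((volume : Measure (I → ℝ)).prod μ) else 0 := by
      intro B hB
      have hB' : B.card = q := (Finset.mem_powersetCard.1 hB).2
      rw [integral_finsetSum _ fun c _ => hTi B hB' c]
      refine Finset.sum_congr rfl fun c _ => ?_
      split_ifs with h
      · rfl
      · have : R.Ti B c = fun _ => 0 := funext fun p => R.Ti_eq_zero hB' c h p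
        rw [this]
        simp
    rw [Finset.sum_congr rfl h1, Finset.sum_comm]
    refine Finset.sum_congr rfl fun c _ => ?_
    by_cases hc : avb R.bs (bv m c) ∧ (unt R.gp (bv m c)).card = q
    · rw [Finset.sum_eq_single_of_mem (unt R.gp (bv m c))
        (Finset.mem_powersetCard.2 ⟨Finset.subset_univ _, hc.2⟩)]
      · simp only [hL, hc, and_self, if_true]
      · intro B _ hne
        rw [if_neg (fun h => hne h.2.symm)]
    · rw [hL]
      simp only [hc, if_false]
      refine (Finset.sum_eq_zero fun B hB => ?_).symm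
      rw [if_neg]
      rintro ⟨h2, rfl⟩
      exact hc ⟨h2, (Finset.mem_powersetCard.1 hB).2⟩
  rw [← hfin]
  exact hlim

end RegData

end Vale.Agent.P273.H261
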