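import Mathlib

/-!
Iterated wedge products of one-forms with a form of degree `k`, and their expansion.
`wd θ ω` is `alternatizeUncurryFin (θ.smulRight ω)`, `wdL m θ ω` is `θ 0 ∧ ... ∧ θ (m-1) ∧ ω`.
-/

namespace Vale.Agent.P273.H261

open Function

set_option linter.unusedSectionVars false

variable {V W : Type*} [NormedAddCommGroup V] [NormedSpace ℝ V]
  [NormedAddCommGroup W] [NormedSpace ℝ W]

/-- One-form wedge a form of degree `k`. -/
noncomputable def wd {k : ℕ} (θ : V →L[ℝ] ℝ) (ω : V [⋀^Fin k]→L[ℝ] W) :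
    V [⋀^Fin (k + 1)]→L[ℝ] W :=
  ContinuousAlternatingMap.alternatizeUncurryFin (θ.smulRight ω)

theorem wd_apply {k : ℕ} (θ : V →L[ℝ] ℝ) (ω : V [⋀^Fin k]→L[ℝ] W) (v : Fin (k + 1) → V) :
    wd θ ω v = ∑ i : Fin (k + 1), ((-1 : ℝ) ^ (i : ℕ) * θ (v i)) • ω (fun l => v (i.succAbove l)) := by
  rw [wd, ContinuousAlternatingMap.alternatizeUncurryFin_apply]
  refine Finset.sum_congr rfl fun i _ => ?_
  rw [ContinuousLinearMap.smulRight_apply, ContinuousAlternatingMap.smul_apply, mul_smul,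
    ← Int.cast_smul_eq_zsmul ℝ]
  push_cast
  rfl

/-- Iterated: `θ 0 ∧ ... ∧ θ (m-1) ∧ ω`. -/
noncomputable def wdL {k : ℕ} : (m : ℕ) → (Fin m → V →L[ℝ] ℝ) → (V [⋀^Fin k]→L[ℝ] W) →
    V [⋀^Fin (k + m)]→L[ℝ] W
  | 0, _, ω => ω
  | m + 1, θ, ω => wd (θ 0) (wdL m (fun j => θ j.succ) ω)

/-- Choices: which vector is taken by which one-form. -/
def Ch (k : ℕ) : ℕ → Type
  | 0 => Unit
  | m + 1 => Fin (k + m + 1) × Ch k m

instance instFintypeCh (k : ℕ) : (m : ℕ) → Fintype (Ch k m)
  | 0 => inferInstanceAs (Fintype Unit)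
  | m + 1 => by
      haveI := instFintypeCh k m
      exact inferInstanceAs (Fintype (Fin (k + m + 1) × Ch k m))

instance instDecEqCh (k : ℕ) : (m : ℕ) → DecidableEq (Ch k m)
  | 0 => inferInstanceAs (DecidableEq Unit)
  | m + 1 => by
      haveI := instDecEqCh k m
      exact inferInstanceAs (DecidableEq (Fin (k + m + 1) × Ch k m))

/-- The sign of a choice. -/
def sg {k : ℕ} : (m : ℕ) → Ch k m → ℝ
  | 0, _ => 1
  | m + 1, c => (-1) ^ (c.1 : ℕ) * sg m c.2

/-- The vector taken by the one-form `j`. -/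
def av {k : ℕ} : (m : ℕ) → Ch k m → Fin m → Fin (k + m)
  | 0, _ => fun j => j.elim0
  | m + 1, c => Fin.cons (α := fun _ => Fin (k + (m + 1))) c.1
      fun j => Fin.succAbove (n := k + m) c.1 (av m c.2 j)

/-- The vectors left over for `ω`. -/
def bv {k : ℕ} : (m : ℕ) → Ch k m → Fin k → Fin (k + m)
  | 0, _ => fun l => l
  | m + 1, c => fun l => Fin.succAbove (n := k + m) c.1 (bv m c.2 l)

theorem abs_sg {k : ℕ} : ∀ (m : ℕ) (c : Ch k m), |sg m c| = 1
  | 0, _ => by simp [sg]
  | m + 1, c => by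
      rw [sg, abs_mul, abs_sg m c.2, mul_one, abs_pow]
      simp

theorem av_injective {k : ℕ} : ∀ (m : ℕ) (c : Ch k m), Injective (av m c)
  | 0, _ => fun j => j.elim0
  | m + 1, c => by
      intro j j' h
      refine Fin.cases ?_ (fun i => ?_) j h
      · refine Fin.cases (fun _ => rfl) (fun i' => ?_) j'
        intro h
        simp only [av, Fin.cons_zero, Fin.cons_succ] at h
        exact absurd h.symm (Fin.succAbove_ne _ _)
      · refine Fin.cases ?_ (fun i' => ?_) j'
        · intro h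
          simp only [av, Fin.cons_zero, Fin.cons_succ] at h
          exact absurd h (Fin.succAbove_ne _ _)
        · intro h
          simp only [av, Fin.cons_succ] at h
          rw [av_injective m c.2 (Fin.succAbove_right_injective h)]

theorem bv_injective {k : ℕ} : ∀ (m : ℕ) (c : Ch k m), Injective (bv m c)
  | 0, _ => fun _ _ h => h
  | m + 1, c => fun _ _ h => bv_injective m c.2 (Fin.succAbove_right_injective h)

theorem av_ne_bv {k : ℕ} : ∀ (m : ℕ) (c : Ch k m) (j : Fin m) (l : Fin k), av m c j ≠ bv m c l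
  | 0, _ => fun j => j.elim0
  | m + 1, c => by
      intro j l
      refine Fin.cases ?_ (fun i => ?_) j
      · simp only [av, bv, Fin.cons_zero]
        exact (Fin.succAbove_ne _ _).symm
      · simp only [av, bv, Fin.cons_succ]
        exact fun h => av_ne_bv m c.2 i l (Fin.succAbove_right_injective h)

theorem exists_av_or_bv {k : ℕ} : ∀ (m : ℕ) (c : Ch k m) (d : Fin (k + m)),
    (∃ j, av m c j = d) ∨ ∃ l, bv m c l = d
  | 0, _, d => Or.inr ⟨d, rfl⟩
  | m + 1, c, d => by
      by_cases h : d = c.1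
      · exact Or.inl ⟨0, by simp [av, h]⟩
      · obtain ⟨d', hd'⟩ := Fin.exists_succAbove_eq (n := k + m) h
        rcases exists_av_or_bv m c.2 d' with ⟨j, hj⟩ | ⟨l, hl⟩
        · exact Or.inl ⟨j.succ, by simp only [av, Fin.cons_succ, hj]; exact hd'⟩
        · exact Or.inr ⟨l, by simp only [bv, hl]; exact hd'⟩

/-- **Expansion.** -/
theorem wdL_apply {k : ℕ} : ∀ (m : ℕ) (θ : Fin m → V →L[ℝ] ℝ) (ω : V [⋀^Fin k]→L[ℝ] W)
    (v : Fin (k + m) → V), wdL m θ ω v =
      ∑ c : Ch k m, (sg m c * ∏ j, θ j (v (av m c j))) • ω (fun l => v (bv m c l))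
  | 0, θ, ω, v => by
      have : Unique (Ch k 0) := inferInstanceAs (Unique Unit)
      rw [Fintype.sum_unique]
      simp only [wdL, sg, Finset.univ_eq_empty, Finset.prod_empty, mul_one, one_smul]
      rfl
  | m + 1, θ, ω, v => by
      have h0 : wdL (m + 1) θ ω v = wd (θ 0) (wdL m (fun j => θ j.succ) ω) v := rfl
      rw [h0, wd_apply]
      have h1 : ∀ i : Fin (k + m + 1),
          ((-1 : ℝ) ^ (i : ℕ) * θ 0 (v i)) • (wdL m (fun j => θ j.succ) ω)
            (fun l => v (i.succAbove l)) =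
          ∑ c : Ch k m, (sg (m + 1) ((i, c) : Ch k (m + 1)) *
            ∏ j, θ j (v (av (m + 1) ((i, c) : Ch k (m + 1)) j))) •
            ω (fun l => v (bv (m + 1) ((i, c) : Ch k (m + 1)) l)) := by
        intro i
        rw [wdL_apply m, Finset.smul_sum]
        refine Finset.sum_congr rfl fun c _ => ?_
        rw [smul_smul]
        congr 1
        rw [Fin.prod_univ_succ]
        simp only [sg, av, Fin.cons_zero, Fin.cons_succ]
        ring
      rw [Finset.sum_congr rfl fun i _ => h1 i]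
      exact (Fintype.sum_prod_type (fun x : Fin (k + m + 1) × Ch k m =>
        (sg (m + 1) (x : Ch k (m + 1)) * ∏ j, θ j (v (av (m + 1) (x : Ch k (m + 1)) j))) •
            ω (fun l => v (bv (m + 1) (x : Ch k (m + 1)) l)))).symm

end Vale.Agent.P273.H261
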